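import Vale.Agent.P046.Track.Drift

/-!
Tracking without a logarithm: the state of random triangle removal together with an auxiliary
centred noise field `M`, and the quantities whose one-step drifts are combined.

The relative deviation of a codegree splits as `dev = M + D`: the field `M` collects the centred
one-step losses, and the rest `D` moves predictably given survival of the edge.
-/

namespace Vale.Agent.P046.Lin

open Finset
open Track
open scoped Classical

variable {n : ℕ}

/-- The expected loss of codegree of `e` in one step, on the event that `e` survives. -/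
noncomputable def lam (G : Finset (Sym2 (Fin n))) (e : Sym2 (Fin n)) : ℝ :=
  (∑ t ∈ triangles G with e ∉ edgesOf t, (loss G t e : ℝ)) / (triangles G).card

/-- The noise field after the removal of `t`. -/
noncomputable def stepM (G : Finset (Sym2 (Fin n))) (M : Sym2 (Fin n) → ℝ) (t : Finset (Fin n)) :
    Sym2 (Fin n) → ℝ :=
  fun e => M e - ((loss G t e : ℝ) - lam G e) / mG (G \ edgesOf t)

/-- A quantity of a state and its noise field. -/
abbrev Obs (n : ℕ) := Finset (Sym2 (Fin n)) → (Sym2 (Fin n) → ℝ) → ℝ

/-- The mean of `Q` after one step. -/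
noncomputable def next (Q : Obs n) : Obs n := fun G M =>
  (∑ t ∈ triangles G, Q (G \ edgesOf t) (stepM G M t)) / (triangles G).card

/-- The mean over the remaining edges. -/
noncomputable def avgE (G : Finset (Sym2 (Fin n))) (F : Sym2 (Fin n) → ℝ) : ℝ :=
  (∑ e ∈ G, F e) / G.card

/-- The relative codegree. -/
noncomputable def rel (G : Finset (Sym2 (Fin n))) (e : Sym2 (Fin n)) : ℝ :=
  (cod G e : ℝ) / mG G

/-- The predictable part of the deviation. -/
noncomputable def Dv (G : Finset (Sym2 (Fin n))) (M : Sym2 (Fin n) → ℝ) (e : Sym2 (Fin n)) : ℝ :=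
  dev G e - M e

/-- The neighbour sum of the noise field, in units of the ideal codegree. -/
noncomputable def aM (G : Finset (Sym2 (Fin n))) (M : Sym2 (Fin n) → ℝ) (e : Sym2 (Fin n)) : ℝ :=
  (∑ u ∈ triangles G with e ∈ edgesOf u, ∑ f ∈ (edgesOf u).erase e, M f) / mG G

/-- The moments of the relative codegree. -/
noncomputable def X (k : ℕ) : Obs n := fun G _ => avgE G fun e => rel G e ^ k

/-- The scaled moments of the noise field. -/
noncomputable def W (k : ℕ) : Obs n := fun G M => avgE G fun e => (mG G * M e ^ 2) ^ k

/-- The potential of the predictable part. -/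
noncomputable def U : Obs n := fun G M => mG G * avgE G fun e => φ (Dv G M e)

/-- The neighbour-sum potential of the noise field. -/
noncomputable def Psi : Obs n := fun G M => mG G * avgE G fun e => aM G M e ^ 2

/-- The labelled hub-and-square configurations: a hub `a` and a 4-cycle `b d c d'` inside its
neighbourhood. -/
noncomputable def wheels (G : Finset (Sym2 (Fin n))) :
    Finset (Fin n × Fin n × Fin n × Fin n × Fin n) :=
  univ.filter fun ⟨a, b, c, d, d'⟩ => b ≠ c ∧ d ≠ d' ∧
    s(a, b) ∈ G ∧ s(a, c) ∈ G ∧ s(a, d) ∈ G ∧ s(a, d') ∈ G ∧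
    s(b, d) ∈ G ∧ s(c, d) ∈ G ∧ s(b, d') ∈ G ∧ s(c, d') ∈ G

/-- The normalised number of hub-and-square configurations. -/
noncomputable def Wh : Obs n := fun G _ => (wheels G).card / (G.card * mG G ^ 3)

/-- The sixteenth root of the ideal codegree. -/
noncomputable def rt (G : Finset (Sym2 (Fin n))) : ℝ := mG G ^ (1 / 16 : ℝ)

/-- The sixteenth root of the number of vertices. -/
noncomputable def rn (n : ℕ) : ℝ := (n : ℝ) ^ (1 / 16 : ℝ)

/-- The integrable rate. -/
noncomputable def gg (G : Finset (Sym2 (Fin n))) : ℝ := 1 / rt G + rt G / rn n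

/-- The squared deviation of the triangle count, scaled by `m^(9/8)`. -/
noncomputable def Z : Obs n := fun G _ => rt G ^ 18 * mu G ^ 2

/-- The squared deviation of the triangle count, scaled by `m^(1/2)`; stopping happens at one. -/
noncomputable def Yp : Obs n := fun G _ => rt G ^ 8 * mu G ^ 2

/-- The order of the moments carried along. -/
def K : ℕ := 32

/-- The remainder that all error terms are measured by. -/
noncomputable def Rest : Obs n := fun G M =>
  1 + U G M + ∑ k ∈ Finset.Icc 1 (2 * K + 2), X k G M + ∑ k ∈ Finset.Icc 1 K, W k G M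

/-- The states in which the drift bounds hold. -/
structure Stage (G : Finset (Sym2 (Fin n))) : Prop where
  sub : G ⊆ completeEdges n
  big : 10000 ≤ rt G
  mu_lt : rt G ^ 8 * mu G ^ 2 < 1

end Vale.Agent.P046.Lin
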