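import Vale.Agent.P046.Lin.Tools

/-!
The drifts of the codegree moments and of the scaled moments of the noise field.
-/

namespace Vale.Agent.P046.Lin

open Finset
open Track
open scoped Classical

variable {n : ℕ} {G : Finset (Sym2 (Fin n))} {M : Sym2 (Fin n) → ℝ}

/-- Young's inequality in threshold form. -/
lemma pow_mul_le_young {z c ε : ℝ} (hz : 0 ≤ z) (hc : 0 ≤ c) (hε : 0 < ε) (i : ℕ) :
    z ^ i * c ≤ ε * z ^ (i + 1) + c ^ (i + 1) / ε ^ i := by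
  rcases le_or_gt c (ε * z) with h | h
  · have : 0 ≤ c ^ (i + 1) / ε ^ i := by positivity
    have h1 := mul_le_mul_of_nonneg_left h (pow_nonneg hz i)
    have e : z ^ i * (ε * z) = ε * z ^ (i + 1) := by ring
    linarith
  · have h1 : z ^ i ≤ c ^ i / ε ^ i := by
      rw [← div_pow]
      exact pow_le_pow_left₀ hz ((le_div_iff₀ hε).2 (by linarith)) i
    have h2 := mul_le_mul_of_nonneg_right h1 hc
    have e : c ^ i / ε ^ i * c = c ^ (i + 1) / ε ^ i := by ring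
    have : 0 ≤ ε * z ^ (i + 1) := by positivity
    linarith

/-- Second order expansion of a power. -/
lemma abs_pow_taylor_le (a : ℝ) {b : ℝ} (hb : |b| ≤ 1) (i : ℕ) :
    |(a - b) ^ (i + 2) - a ^ (i + 2) + ((i : ℝ) + 2) * a ^ (i + 1) * b| ≤
      ((i : ℝ) + 2) ^ 2 * b ^ 2 * (1 + |a|) ^ i := by
  induction i with
  | zero =>
    have e : (a - b) ^ (0 + 2) - a ^ (0 + 2) + (((0 : ℕ) : ℝ) + 2) * a ^ (0 + 1) * b = b ^ 2 := by
      push_cast; ring
    rw [e, abs_of_nonneg (sq_nonneg b), pow_zero, mul_one]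
    push_cast
    nlinarith [sq_nonneg b]
  | succ i ih =>
    obtain ⟨R, hR⟩ : ∃ R, R = (a - b) ^ (i + 2) - a ^ (i + 2) + ((i : ℝ) + 2) * a ^ (i + 1) * b :=
      ⟨_, rfl⟩
    rw [← hR] at ih
    have e : (a - b) ^ (i + 1 + 2) - a ^ (i + 1 + 2) +
        (((i + 1 : ℕ) : ℝ) + 2) * a ^ (i + 1 + 1) * b =
        R * (a - b) + ((i : ℝ) + 2) * a ^ (i + 1) * b ^ 2 := by
      rw [hR]; push_cast; ring
    rw [e]
    have h1 : |a - b| ≤ 1 + |a| := (abs_sub a b).trans (by linarith)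
    have h2 : |a| ^ (i + 1) ≤ (1 + |a|) ^ (i + 1) := by gcongr; linarith
    calc _ ≤ |R| * |a - b| + ((i : ℝ) + 2) * |a| ^ (i + 1) * b ^ 2 := by
          refine (abs_add_le _ _).trans_eq ?_
          rw [abs_mul R, abs_mul, abs_mul, abs_pow, abs_of_nonneg (sq_nonneg b),
            abs_of_nonneg (show (0 : ℝ) ≤ (i : ℝ) + 2 by positivity)]
      _ ≤ ((i : ℝ) + 2) ^ 2 * b ^ 2 * (1 + |a|) ^ i * (1 + |a|) +
          ((i : ℝ) + 2) * (1 + |a|) ^ (i + 1) * b ^ 2 := by gcongr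
      _ = (((i : ℝ) + 2) ^ 2 + ((i : ℝ) + 2)) * b ^ 2 * (1 + |a|) ^ (i + 1) := by ring
      _ ≤ _ := by
        gcongr
        push_cast
        nlinarith [Nat.cast_nonneg (α := ℝ) i]

lemma one_add_pow_le {x : ℝ} (hx : 0 ≤ x) (hx1 : x ≤ 1) (j : ℕ) :
    (1 + x) ^ j ≤ 1 + 2 ^ j * x := by
  suffices (1 + x) ^ j ≤ 1 + (2 ^ j - 1) * x by nlinarith
  induction j with
  | zero => simp
  | succ j ih =>
    rw [pow_succ, pow_succ]
    have h2 : (1 : ℝ) ≤ 2 ^ j := one_le_pow₀ (by norm_num)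
    have h3 := mul_le_mul_of_nonneg_right ih (show (0 : ℝ) ≤ 1 + x by linarith)
    have h4 := mul_le_mul_of_nonneg_left hx1 (mul_nonneg (sub_nonneg.2 h2) hx)
    linarith

lemma Stage.one_sub_bounds (h : Stage G) :
    9 / 10 ≤ 1 - 3 / (G.card : ℝ) ∧ 1 - 3 / (G.card : ℝ) ≤ 1 := by
  have h1 := h.big_E
  have h2 : 3 / (G.card : ℝ) ≤ 1 / 10 := by
    rw [div_le_iff₀ h.E_pos]; linarith
  have h3 : 0 ≤ 3 / (G.card : ℝ) := by positivity
  exact ⟨by linarith, by linarith⟩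

lemma Stage.big_m (h : Stage G) : 10000 ≤ mG G :=
  h.big.trans (rt_pow G ▸ le_self_pow₀ h.one_le_rt (by norm_num))

lemma Stage.E_mul_m (h : Stage G) :
    (G.card : ℝ) * mG G ≤ 4 * (triangles G).card ∧
      297 / 100 * ((triangles G).card : ℝ) ≤ G.card * mG G := by
  have := abs_le.1 h.abs_mu_le_hundredth
  have := mul_pos h.E_pos h.m_pos
  constructor <;> nlinarith [h.card_T]

lemma sum_cod_pow (h : Stage G) (M : Sym2 (Fin n) → ℝ) (j : ℕ) :
    ∑ e ∈ G, (cod G e : ℝ) ^ j = G.card * mG G ^ j * X j G M := by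
  unfold X avgE rel
  rw [mul_comm (G.card : ℝ), mul_assoc, mul_div_cancel₀ _ h.E_pos.ne', mul_sum]
  refine sum_congr rfl fun e _ => ?_
  rw [div_pow, mul_div_cancel₀ _ (pow_ne_zero _ h.m_pos.ne')]

theorem xStep : XStep := by
  intro k _
  obtain ⟨c, hc⟩ : ∃ c : ℝ, c = 4 * 2 ^ (2 * k + 1) + 3 / 2 := ⟨_, rfl⟩
  have hc0 : 0 ≤ c := by rw [hc]; positivity
  refine ⟨c ^ (k + 1), by positivity, fun n G M h => driftLE_of_sum h ?_⟩
  obtain ⟨hr9, hr1⟩ := h.one_sub_bounds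
  obtain ⟨hEm, hmT⟩ := h.E_mul_m
  have hT := h.T_pos; have hE := h.E_pos; have hE30 := h.big_E; have hm := h.m_pos
  obtain ⟨E, hEdef⟩ : ∃ E : ℝ, E = G.card := ⟨_, rfl⟩
  obtain ⟨T, hTdef⟩ : ∃ T : ℝ, T = (triangles G).card := ⟨_, rfl⟩
  obtain ⟨r, hrdef⟩ : ∃ r : ℝ, r = 1 - 3 / (G.card : ℝ) := ⟨_, rfl⟩
  rw [← hrdef] at hr9 hr1
  have hr0 : 0 < r := by linarith
  have hrE : r * (G.card : ℝ) = G.card - 3 := by rw [hrdef]; field_simp
  have step : ∀ t ∈ triangles G, X k (G \ edgesOf t) (stepM G M t) ≤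
      1 / (r ^ (2 * k + 1) * G.card) * ∑ e ∈ G \ edgesOf t, rel G e ^ k := by
    intro t ht
    rw [X, avgE, card_sdiff_edgesOf ht, mul_sum, div_eq_mul_inv, sum_mul]
    refine sum_le_sum fun e _ => ?_
    have h1 : rel (G \ edgesOf t) e ≤ rel G e / r ^ 2 := by
      rw [rel, rel, mG_sdiff hE.ne' ht, cod_sdiff, ← hrdef, ← div_mul_eq_div_div]
      exact div_le_div_of_nonneg_right (by linarith [Nat.cast_nonneg (α := ℝ) (loss G t e)])
        (by positivity)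
    have h2 := pow_le_pow_left₀ (rel_nonneg _ e) h1 k
    rw [← hrE]
    refine (mul_le_mul_of_nonneg_right h2 (by positivity)).trans_eq ?_
    rw [div_pow, ← pow_mul]
    field_simp
    ring
  refine (sum_le_sum step).trans ?_
  rw [← mul_sum, sum_survive]
  have hX : ∑ e ∈ G, rel G e ^ k = G.card * X k G M := by
    rw [X, avgE, mul_div_cancel₀ _ hE.ne']
  have hX' : ∑ e ∈ G, (cod G e : ℝ) * rel G e ^ k = G.card * (mG G * X (k + 1) G M) := by
    rw [X, avgE, mul_left_comm, mul_div_cancel₀ _ hE.ne', mul_sum]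
    refine sum_congr rfl fun e _ => ?_
    rw [pow_succ, rel, mul_comm (((cod G e : ℝ) / mG G) ^ k), ← mul_assoc (mG G),
      mul_div_cancel₀ _ hm.ne']
  have key : c * X k G M ≤ X (k + 1) G M + c ^ (k + 1) := by
    calc c * X k G M = avgE G fun e => c * rel G e ^ k := by rw [avgE_mul]; rfl
      _ ≤ avgE G fun e => rel G e ^ (k + 1) + c ^ (k + 1) := avgE_mono fun e _ => by
          simpa [mul_comm] using pow_mul_le_young (rel_nonneg G e) hc0 one_pos k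
      _ ≤ _ := by
          rw [avgE_add]
          exact add_le_add le_rfl (avgE_const_le (by positivity))
  obtain ⟨A, hA⟩ : ∃ A : ℝ, A = 1 / r ^ (2 * k + 1) := ⟨_, rfl⟩
  have hA1 : 1 ≤ A := by
    rw [hA, le_div_iff₀ (by positivity), one_mul]; exact pow_le_one₀ hr0.le hr1
  have hA2 : A ≤ 1 + 4 * 2 ^ (2 * k + 1) / (G.card : ℝ) := by
    have hx : (1 : ℝ) / r = 1 + 3 / ((G.card : ℝ) - 3) := by
      have : (G.card : ℝ) - 3 ≠ 0 := by linarith
      rw [hrdef]; field_simp; ring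
    have hx0 : 0 ≤ 3 / ((G.card : ℝ) - 3) := div_nonneg (by norm_num) (by linarith)
    have hx1 : 3 / ((G.card : ℝ) - 3) ≤ 4 / (G.card : ℝ) := by
      rw [div_le_div_iff₀ (by linarith) hE]; linarith
    have hx2 : 4 / (G.card : ℝ) ≤ 1 := by rw [div_le_one hE]; linarith
    rw [hA, ← one_div_pow, hx]
    refine (one_add_pow_le hx0 (hx1.trans hx2) _).trans ?_
    rw [show 4 * 2 ^ (2 * k + 1) / (G.card : ℝ) = 2 ^ (2 * k + 1) * (4 / G.card) by ring]
    gcongr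
  rw [hX, hX', show 1 / (r ^ (2 * k + 1) * (G.card : ℝ)) *
    ((triangles G).card * (G.card * X k G M) - G.card * (mG G * X (k + 1) G M)) =
      A * ((triangles G).card * X k G M) - A * (mG G * X (k + 1) G M) by rw [hA]; field_simp]
  have hXk : 0 ≤ X k G M := X_nonneg k
  have hXk' : 0 ≤ X (k + 1) G M := X_nonneg (k + 1)
  have h1 := mul_le_mul_of_nonneg_right hA2 (mul_nonneg hT.le hXk)
  have h2 : mG G * X (k + 1) G M ≤ A * (mG G * X (k + 1) G M) :=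
    le_mul_of_one_le_left (mul_nonneg hm.le hXk') hA1
  have h3 : 297 / 100 * ((triangles G).card : ℝ) / G.card ≤ mG G := by
    rw [div_le_iff₀ hE]; linarith
  have h4 := mul_le_mul_of_nonneg_right h3 hXk'
  have h5 := mul_le_mul_of_nonneg_left key
    (show 0 ≤ ((triangles G).card : ℝ) / G.card by positivity)
  have h6 : 0 ≤ ((triangles G).card : ℝ) / G.card * X (k + 1) G M :=
    mul_nonneg (by positivity) hXk'
  have h7 : 0 ≤ ((triangles G).card : ℝ) / G.card * c ^ (k + 1) := by positivity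
  rw [hc] at h5 h7 ⊢
  ring_nf at h1 h2 h4 h5 h6 h7 ⊢
  linarith

/-- The first order term is killed by the damping. -/
lemma noise_first_le {a w L c β : ℝ} (i : ℕ) (haw : a ^ 2 = w) (hL0 : 0 ≤ L) (hL3 : L ≤ 3)
    (hc0 : 0 ≤ c) (hβ0 : 0 ≤ β) (hβ2 : β ≤ 2) :
    -((2 * (i : ℝ) + 2) * a ^ (2 * i + 1) * β * (L * c)) ≤
      c * w ^ (i + 1) / 4 + (24 * (2 * (i : ℝ) + 2)) ^ (2 * i + 2) * c := by
  have hk : 0 < 2 * (i : ℝ) + 2 := by positivity
  have hw0 : 0 ≤ w := haw ▸ sq_nonneg a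
  obtain ⟨B, hB⟩ : ∃ B : ℝ, B = 24 * (2 * (i : ℝ) + 2) := ⟨_, rfl⟩
  have hB0 : 0 < B := by rw [hB]; positivity
  have h1 := pow_mul_le_young (abs_nonneg a) zero_le_one (show 0 < 1 / B by positivity) (2 * i + 1)
  have e1 : |a| ^ (2 * i + 1 + 1) = w ^ (i + 1) := by
    rw [show 2 * i + 1 + 1 = 2 * (i + 1) by ring, pow_mul, sq_abs, haw]
  rw [mul_one, one_pow, e1, one_div_pow, one_div_one_div] at h1
  have h2 := mul_le_mul_of_nonneg_left h1 (show 0 ≤ B * c / 4 by positivity)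
  have e2 : B * c / 4 * (1 / B * w ^ (i + 1) + B ^ (2 * i + 1)) =
      c * w ^ (i + 1) / 4 + B ^ (2 * i + 2) * c / 4 := by
    rw [pow_succ B (2 * i + 1)]; field_simp
  rw [e2] at h2
  have h3 : -((2 * (i : ℝ) + 2) * a ^ (2 * i + 1) * β * (L * c)) ≤
      B * c / 4 * |a| ^ (2 * i + 1) := by
    refine (neg_le_abs _).trans ?_
    rw [abs_mul, abs_mul, abs_mul, abs_pow, abs_of_nonneg hk.le, abs_of_nonneg hβ0,
      abs_of_nonneg (mul_nonneg hL0 hc0)]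
    calc _ ≤ (2 * (i : ℝ) + 2) * |a| ^ (2 * i + 1) * 2 * (3 * c) := by gcongr
      _ = _ := by rw [hB]; ring
  rw [← hB]
  have : 0 ≤ B ^ (2 * i + 2) * c := by positivity
  linarith

/-- The second order term, before summing over the triangles at the edge. -/
lemma noise_second_le {m w p C₂ : ℝ} (i : ℕ) (hm : 0 < m) (hw : 0 ≤ w) (hp : 0 ≤ p)
    (hC : 0 < C₂) :
    C₂ * ((1 + w ^ i) * (p / m)) ≤
      w ^ (i + 1) / 4 + (C₂ * (p / m) + C₂ * (4 * C₂) ^ i * (p / m) ^ (i + 1)) := by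
  have h1 := mul_le_mul_of_nonneg_left (pow_mul_le_young hw (div_nonneg hp hm.le)
    (show 0 < 1 / (4 * C₂) by positivity) i) hC.le
  have e1 : C₂ * (1 / (4 * C₂) * w ^ (i + 1) + (p / m) ^ (i + 1) / (1 / (4 * C₂)) ^ i) =
      w ^ (i + 1) / 4 + C₂ * (4 * C₂) ^ i * (p / m) ^ (i + 1) := by
    rw [mul_add, one_div_pow, div_div_eq_mul_div, div_one, ← mul_assoc, ← mul_assoc]
    congr 1
    · field_simp
    · ring
  linarith

lemma one_add_abs_pow_le {a w : ℝ} (haw : a ^ 2 = w) (i : ℕ) :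
    (1 + |a|) ^ (2 * i) ≤ 4 ^ i * (1 + w ^ i) := by
  have hw0 : 0 ≤ w := haw ▸ sq_nonneg a
  have h1 : (1 + |a|) ^ 2 ≤ 2 * (1 + w) := by
    nlinarith [sq_nonneg (1 - |a|), sq_abs a]
  rw [pow_mul]
  refine (pow_le_pow_left₀ (sq_nonneg _) h1 i).trans ?_
  rw [mul_pow, show (4 : ℝ) ^ i = 2 ^ i * 2 ^ i by rw [← mul_pow]; norm_num, mul_assoc]
  refine mul_le_mul_of_nonneg_left ((add_pow_le zero_le_one hw0 i).trans ?_) (by positivity)
  rw [one_pow]
  exact mul_le_mul_of_nonneg_right (pow_le_pow_right₀ (by norm_num) (by omega)) (by positivity)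

/-- The noise of one edge, after all choices that spare it. -/
lemma sum_noise_pow_le (h : Stage G) (M : Sym2 (Fin n) → ℝ) (i : ℕ) {β : ℝ} (hβ0 : 0 ≤ β)
    (hβ2 : β ≤ 2) (hβm : β ^ 2 * mG G ≤ 4) {C₂ : ℝ}
    (hC₂ : C₂ = 24 * (2 * (i : ℝ) + 2) ^ 2 * 4 ^ i) (e : Sym2 (Fin n)) :
    ∑ t ∈ triangles G with e ∉ edgesOf t,
        (Real.sqrt (mG G) * M e - β * ((loss G t e : ℝ) - lam G e)) ^ (2 * i + 2) ≤
      (triangles G).card * (mG G * M e ^ 2) ^ (i + 1) +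
        (24 * (2 * (i : ℝ) + 2)) ^ (2 * i + 2) * cod G e +
        ∑ u ∈ triangles G with e ∈ edgesOf u,
          (C₂ * (cs G u / mG G) + C₂ * (4 * C₂) ^ i * (cs G u / mG G) ^ (i + 1)) := by
  have hm := h.m_pos
  have hm4 := h.big_m
  obtain ⟨a, ha⟩ : ∃ a, a = Real.sqrt (mG G) * M e := ⟨_, rfl⟩
  obtain ⟨w, hw⟩ : ∃ w, w = mG G * M e ^ 2 := ⟨_, rfl⟩
  have haw : a ^ 2 = w := by rw [ha, hw, mul_pow, Real.sq_sqrt hm.le]
  have hw0 : 0 ≤ w := haw ▸ sq_nonneg a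
  obtain ⟨L, hL⟩ : ∃ L, L = lam G e := ⟨_, rfl⟩
  have hL0 : 0 ≤ L := hL ▸ lam_nonneg G e
  have hL3 : L ≤ 3 := hL ▸ lam_le_three G e
  obtain ⟨c, hc⟩ : ∃ c : ℝ, c = (cod G e : ℝ) := ⟨_, rfl⟩
  have hc0 : 0 ≤ c := hc ▸ Nat.cast_nonneg _
  obtain ⟨s, hs⟩ : ∃ s, s = (triangles G).filter fun t => e ∉ edgesOf t := ⟨_, rfl⟩
  rw [← hs, ← hw, ← ha, ← hL, ← hc]
  -- the spared choices
  have hN : (s.card : ℝ) = (triangles G).card - c := by
    rw [hs, hc, cod, eq_sub_iff_add_eq]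
    norm_cast
    rw [add_comm]
    exact card_filter_add_card_filter_not _
  have hl : ∑ t ∈ s, (loss G t e : ℝ) = L * (triangles G).card := by
    rw [hs, hL, lam, div_mul_cancel₀ _ h.T_pos.ne']
  have hz : ∑ t ∈ s, ((loss G t e : ℝ) - L) = L * c := by
    rw [sum_sub_distrib, sum_const, nsmul_eq_mul, hl, hN]; ring
  have hz3 : ∀ t ∈ s, |(loss G t e : ℝ) - L| ≤ 3 := by
    intro t ht
    rw [hs, mem_filter] at ht
    have h1 : (loss G t e : ℝ) ≤ 3 := by exact_mod_cast loss_le_three ht.1 ht.2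
    have h2 : (0 : ℝ) ≤ (loss G t e : ℝ) := Nat.cast_nonneg _
    exact abs_le.2 ⟨by linarith, by linarith⟩
  have hz2 : ∑ t ∈ s, ((loss G t e : ℝ) - L) ^ 2 ≤ 6 * (L * (triangles G).card) := by
    refine (sum_le_sum fun t ht => ?_).trans
      (show ∑ t ∈ s, 3 * ((loss G t e : ℝ) + L) ≤ _ by
        rw [← mul_sum, sum_add_distrib, sum_const, nsmul_eq_mul, hl, hN]
        nlinarith [mul_nonneg hL0 hc0])
    have h2 : (0 : ℝ) ≤ (loss G t e : ℝ) := Nat.cast_nonneg _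
    rw [← sq_abs, sq]
    refine mul_le_mul (hz3 t ht) ?_ (abs_nonneg _) (by norm_num)
    exact abs_le.2 ⟨by linarith, by linarith⟩
  have hb : ∀ t ∈ s, |β * ((loss G t e : ℝ) - L)| ≤ 1 := by
    intro t ht
    rw [← sq_le_one_iff_abs_le_one, mul_pow]
    have h1 : ((loss G t e : ℝ) - L) ^ 2 ≤ 9 := by
      rw [← sq_abs]; nlinarith [hz3 t ht, abs_nonneg ((loss G t e : ℝ) - L)]
    nlinarith [mul_le_mul_of_nonneg_left h1 (sq_nonneg β),
      mul_le_mul_of_nonneg_left hm4 (sq_nonneg β)]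
  -- expansion
  have one : ∀ t ∈ s, (a - β * ((loss G t e : ℝ) - L)) ^ (2 * i + 2) ≤
      w ^ (i + 1) - (2 * (i : ℝ) + 2) * a ^ (2 * i + 1) * β * ((loss G t e : ℝ) - L) +
        (2 * (i : ℝ) + 2) ^ 2 * β ^ 2 * (1 + |a|) ^ (2 * i) * ((loss G t e : ℝ) - L) ^ 2 := by
    intro t ht
    have h1 := (abs_le.1 (abs_pow_taylor_le a (hb t ht) (2 * i))).2
    have e1 : a ^ (2 * i + 2) = w ^ (i + 1) := by rw [← haw, ← pow_mul]; ring
    push_cast at h1
    rw [e1] at h1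
    ring_nf at h1 ⊢
    linarith
  refine (sum_le_sum one).trans ?_
  rw [sum_add_distrib, sum_sub_distrib, sum_const, nsmul_eq_mul, ← mul_sum, ← mul_sum, hz, hN]
  have first := noise_first_le (a := a) i haw hL0 hL3 hc0 hβ0 hβ2
  have hpow := one_add_abs_pow_le haw i
  have hC0 : 0 < C₂ := by rw [hC₂]; positivity
  have second : (2 * (i : ℝ) + 2) ^ 2 * β ^ 2 * (1 + |a|) ^ (2 * i) *
        ∑ t ∈ s, ((loss G t e : ℝ) - L) ^ 2 ≤
      c * w ^ (i + 1) / 4 + ∑ u ∈ triangles G with e ∈ edgesOf u,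
          (C₂ * (cs G u / mG G) + C₂ * (4 * C₂) ^ i * (cs G u / mG G) ^ (i + 1)) := by
    have hLT : L * (triangles G).card ≤
        ∑ u ∈ triangles G with e ∈ edgesOf u, cs G u := by
      rw [hL, lam_mul h]
      exact sum_le_sum fun u _ => by linarith [Nat.cast_nonneg (α := ℝ) (cod G e)]
    have hb2 : β ^ 2 ≤ 4 / mG G := (le_div_iff₀ hm).2 hβm
    have hq0 : 0 ≤ ∑ t ∈ s, ((loss G t e : ℝ) - L) ^ 2 := sum_nonneg fun t _ => sq_nonneg _
    have hk2 : 0 ≤ (2 * (i : ℝ) + 2) ^ 2 := sq_nonneg _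
    have hwi : 0 ≤ 4 ^ i * (1 + w ^ i) := by positivity
    have up := mul_le_mul
      (mul_le_mul (mul_le_mul_of_nonneg_left hb2 hk2) hpow (pow_nonneg (by positivity) _)
        (mul_nonneg hk2 (div_nonneg (by norm_num) hm.le)))
      (hz2.trans (mul_le_mul_of_nonneg_left hLT (by norm_num : (0 : ℝ) ≤ 6))) hq0
      (mul_nonneg (mul_nonneg hk2 (div_nonneg (by norm_num) hm.le)) hwi)
    refine up.trans ?_
    have eq1 : (2 * (i : ℝ) + 2) ^ 2 * (4 / mG G) * (4 ^ i * (1 + w ^ i)) *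
        (6 * ∑ u ∈ triangles G with e ∈ edgesOf u, cs G u) =
        ∑ u ∈ triangles G with e ∈ edgesOf u, C₂ * ((1 + w ^ i) * (cs G u / mG G)) := by
      rw [hC₂, mul_sum, mul_sum]
      exact sum_congr rfl fun u _ => by ring
    rw [eq1]
    refine (sum_le_sum fun u _ => noise_second_le i hm hw0 (cs_nonneg G u) hC0).trans_eq ?_
    rw [sum_add_distrib, sum_const, nsmul_eq_mul]
    have hcard : (((triangles G).filter fun u => e ∈ edgesOf u).card : ℝ) = c := hc.symm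
    rw [hcard, ← mul_div_assoc]
  have hwp : 0 ≤ c * w ^ (i + 1) := mul_nonneg hc0 (pow_nonneg hw0 _)
  linarith

theorem wStep : WStep := by
  intro k hk
  obtain ⟨i, rfl⟩ : ∃ i, k = i + 1 := ⟨k - 1, by omega⟩
  obtain ⟨C₂, hC₂⟩ : ∃ C : ℝ, C = 24 * (2 * (i : ℝ) + 2) ^ 2 * 4 ^ i := ⟨_, rfl⟩
  obtain ⟨C₁, hC₁⟩ : ∃ C : ℝ, C = (24 * (2 * (i : ℝ) + 2)) ^ (2 * i + 2) := ⟨_, rfl⟩
  obtain ⟨C₃, hC₃⟩ : ∃ C : ℝ, C = C₂ * (4 * C₂) ^ i := ⟨_, rfl⟩
  have hC₂0 : 0 ≤ C₂ := by rw [hC₂]; positivity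
  have hC₁0 : 0 ≤ C₁ := by rw [hC₁]; positivity
  have hC₃0 : 0 ≤ C₃ := by rw [hC₃]; positivity
  refine ⟨C₁ + 4 * C₂ + 4 * C₃ * 3 ^ i, by positivity, fun n G M h => driftLE_of_sum h ?_⟩
  obtain ⟨hr9, hr1⟩ := h.one_sub_bounds
  obtain ⟨hEm, -⟩ := h.E_mul_m
  have hT := h.T_pos; have hE := h.E_pos; have hm := h.m_pos; have hm4 := h.big_m
  obtain ⟨r, hrdef⟩ : ∃ r : ℝ, r = 1 - 3 / (G.card : ℝ) := ⟨_, rfl⟩
  rw [← hrdef] at hr9 hr1
  have hr0 : 0 < r := by linarith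
  have hrE : r * (G.card : ℝ) = G.card - 3 := by rw [hrdef]; field_simp
  obtain ⟨β, hβ⟩ : ∃ β : ℝ, β = Real.sqrt (mG G) / (mG G * r ^ 2) := ⟨_, rfl⟩
  have hr2 : 81 / 100 ≤ r ^ 2 := by nlinarith
  have hβ0 : 0 ≤ β := by rw [hβ]; positivity
  have hβ2 : β ≤ 2 := by
    rw [hβ, div_le_iff₀ (by positivity)]
    nlinarith [Real.sq_sqrt hm.le, Real.sqrt_nonneg (mG G), mul_le_mul_of_nonneg_left hr2 hm.le]
  have hβm : β ^ 2 * mG G ≤ 4 := by
    rw [hβ, div_pow, Real.sq_sqrt hm.le, div_mul_eq_mul_div, div_le_iff₀ (by positivity)]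
    nlinarith [mul_le_mul hr2 hr2 (by norm_num) (sq_nonneg r), mul_pos hm hm]
  have step : ∀ t ∈ triangles G, W (i + 1) (G \ edgesOf t) (stepM G M t) =
      r ^ (2 * i + 1) / G.card * ∑ e ∈ G \ edgesOf t,
        (Real.sqrt (mG G) * M e - β * ((loss G t e : ℝ) - lam G e)) ^ (2 * i + 2) := by
    intro t ht
    rw [W, avgE, card_sdiff_edgesOf ht, ← hrE, mul_sum, div_eq_mul_inv, sum_mul]
    refine sum_congr rfl fun e _ => ?_
    rw [stepM, mG_sdiff hE.ne' ht, ← hrdef]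
    have e1 : mG G * r ^ 2 * (M e - ((loss G t e : ℝ) - lam G e) / (mG G * r ^ 2)) ^ 2 =
        r ^ 2 * (Real.sqrt (mG G) * M e - β * ((loss G t e : ℝ) - lam G e)) ^ 2 := by
      rw [show Real.sqrt (mG G) * M e - β * ((loss G t e : ℝ) - lam G e) = Real.sqrt (mG G) *
        (M e - ((loss G t e : ℝ) - lam G e) / (mG G * r ^ 2)) by rw [hβ]; ring]
      rw [mul_pow, Real.sq_sqrt hm.le]; ring
    rw [e1, mul_pow, ← pow_mul, ← pow_mul, show 2 * (i + 1) = 2 * i + 1 + 1 by ring,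
      pow_succ r (2 * i + 1)]
    field_simp
  rw [sum_congr rfl step, ← mul_sum, sum_sdiff_eq]
  have hS := sum_le_sum fun e (_ : e ∈ G) => sum_noise_pow_le h M i hβ0 hβ2 hβm hC₂ e
  rw [← hC₁, ← hC₃, sum_add_distrib, sum_add_distrib, ← mul_sum, ← mul_sum] at hS
  -- the three sums
  have hW : ∑ e ∈ G, (mG G * M e ^ 2) ^ (i + 1) = G.card * W (i + 1) G M := by
    rw [W, avgE, mul_div_cancel₀ _ hE.ne']
  have hswap : ∀ F : Finset (Fin n) → ℝ,
      ∑ e ∈ G, ∑ u ∈ triangles G with e ∈ edgesOf u, F u = 3 * ∑ u ∈ triangles G, F u := by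
    intro F
    simp only [sum_filter]
    rw [sum_comm, mul_sum]
    refine sum_congr rfl fun u hu => ?_
    rw [← sum_filter, filter_mem_eq_inter, inter_eq_right.2 (edgesOf_sub hu), sum_const,
      card_edgesOf (card3_of_mem hu), nsmul_eq_mul]
    norm_num
  have hcs : ∀ j, ∑ u ∈ triangles G, (cs G u / mG G) ^ (j + 1) ≤
      3 ^ j * (4 * (triangles G).card) * X (j + 2) G M := by
    intro j
    simp only [div_pow]
    rw [← sum_div, div_le_iff₀ (by positivity)]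
    refine (sum_cs_pow G j).trans ?_
    rw [sum_cod_pow h M]
    have := mul_le_mul_of_nonneg_left hEm
      (show 0 ≤ 3 ^ j * mG G ^ (j + 1) * X (j + 2) G M by
        have := X_nonneg (G := G) (M := M) (j + 2); positivity)
    ring_nf at this ⊢
    linarith
  obtain ⟨P, hP⟩ : ∃ P, P = 1 + ∑ j ∈ Icc 1 (2 * (i + 1) + 2), X j G M := ⟨_, rfl⟩
  rw [← hP]
  have hPX : ∀ j, 1 ≤ j → j ≤ i + 2 → X j G M ≤ P := by
    intro j h1 h2
    have := single_le_sum (f := fun j => X j G M) (fun j _ => X_nonneg j)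
      (mem_Icc.2 ⟨h1, show j ≤ 2 * (i + 1) + 2 by omega⟩)
    rw [hP]; linarith
  have hP1 : 1 ≤ P := by
    have : 0 ≤ ∑ j ∈ Icc 1 (2 * (i + 1) + 2), X j G M := sum_nonneg fun j _ => X_nonneg j
    rw [hP]; linarith
  rw [hW, sum_cod, hswap, sum_add_distrib, ← mul_sum, ← mul_sum] at hS
  have q1 := hcs 0
  simp only [zero_add, pow_one, pow_zero, one_mul] at q1
  have q1' := q1.trans (mul_le_mul_of_nonneg_left (hPX 2 (by omega) (by omega)) (by positivity))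
  have q2 := (hcs i).trans (mul_le_mul_of_nonneg_left (hPX (i + 2) (by omega) le_rfl) (by positivity))
  have bound : ∑ e ∈ G, ∑ t ∈ triangles G with e ∉ edgesOf t,
      (Real.sqrt (mG G) * M e - β * ((loss G t e : ℝ) - lam G e)) ^ (2 * i + 2) ≤
      (triangles G).card * (G.card * W (i + 1) G M) +
        (triangles G).card * ((3 * (C₁ + 4 * C₂ + 4 * C₃ * 3 ^ i)) * P) := by
    have a1 := mul_le_mul_of_nonneg_left hP1 (show 0 ≤ 3 * ((triangles G).card : ℝ) * C₁ by positivity)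
    have a2 := mul_le_mul_of_nonneg_left q1' hC₂0
    have a3 := mul_le_mul_of_nonneg_left q2 hC₃0
    generalize (∑ e ∈ G, ∑ t ∈ triangles G with e ∉ edgesOf t,
      (Real.sqrt (mG G) * M e - β * ((loss G t e : ℝ) - lam G e)) ^ (2 * i + 2)) = S at hS ⊢
    generalize ∑ u ∈ triangles G, cs G u / mG G = S₁ at hS a2
    generalize ∑ u ∈ triangles G, (cs G u / mG G) ^ (i + 1) = S₂ at hS a3
    ring_nf at hS a1 a2 a3 ⊢
    linarith
  refine (mul_le_mul_of_nonneg_left bound (by positivity)).trans ?_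
  have hW0 : 0 ≤ W (i + 1) G M := W_nonneg _
  have p1 : r ^ (2 * i + 1) ≤ r := by
    simpa using pow_le_pow_of_le_one hr0.le hr1 (show 1 ≤ 2 * i + 1 by omega)
  have p2 : r ^ (2 * i + 1) ≤ 1 := p1.trans hr1
  have b1 := mul_le_mul_of_nonneg_right p1 (show 0 ≤ ((triangles G).card : ℝ) * W (i + 1) G M by positivity)
  have b2 := mul_le_mul_of_nonneg_right p2 (show 0 ≤ ((triangles G).card : ℝ) *
    (3 * (C₁ + 4 * C₂ + 4 * C₃ * 3 ^ i) * P) / G.card by positivity)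
  have b3 : 0 ≤ ((triangles G).card : ℝ) / G.card * W (i + 1) G M := by positivity
  have e0 : r ^ (2 * i + 1) / (G.card : ℝ) * ((triangles G).card * (G.card * W (i + 1) G M)) =
      r ^ (2 * i + 1) * ((triangles G).card * W (i + 1) G M) := by field_simp
  rw [mul_add, e0]
  rw [hrdef] at b1
  rw [hrdef] at b2 ⊢
  ring_nf at b1 b2 b3 ⊢
  linarith

end Vale.Agent.P046.Lin
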