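import Vale.Agent.P046.Lin.Tools

/-!
The noise that one removal feeds into the neighbour sums.

A removal of `t` reaches the neighbour sum of `e` through paths `e, f, g` with `g` in `t`. Two
disjoint edges have at most four common neighbours, and two edges `a b`, `a c` at most one more
than the number of common neighbours of their three vertices, whose square is counted by wheels.
-/

namespace Vale.Agent.P046.Lin

open Finset
open Track
open scoped Classical

variable {n : ℕ} {G : Finset (Sym2 (Fin n))} {M : Sym2 (Fin n) → ℝ}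

/-- The edges sharing a triangle with `e`. -/
noncomputable def nbr (G : Finset (Sym2 (Fin n))) (e : Sym2 (Fin n)) : Finset (Sym2 (Fin n)) :=
  ((triangles G).filter fun u => e ∈ edgesOf u).biUnion fun u => (edgesOf u).erase e

/-- The number of common neighbours of two edges. -/
noncomputable def paths (G : Finset (Sym2 (Fin n))) (e g : Sym2 (Fin n)) : ℕ :=
  #(nbr G e ∩ nbr G g)

/-- The vertices joined to all of `a`, `b`, `c`. -/
noncomputable def common (G : Finset (Sym2 (Fin n))) (a b c : Fin n) : Finset (Fin n) :=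
  univ.filter fun d => s(a, d) ∈ G ∧ s(b, d) ∈ G ∧ s(c, d) ∈ G

/-- The squared common neighbourhoods of the hub pairs `a b`, `a c`. -/
noncomputable def hub (G : Finset (Sym2 (Fin n))) (a c : Fin n) : ℝ :=
  ∑ b, if s(a, b) ∈ G ∧ b ≠ c then (#(common G a b c) : ℝ) ^ 2 else 0

lemma mem_nbr {e f : Sym2 (Fin n)} :
    f ∈ nbr G e ↔ f ≠ e ∧ ∃ u ∈ triangles G, e ∈ edgesOf u ∧ f ∈ edgesOf u := by
  simp only [nbr, mem_biUnion, mem_filter, mem_erase]
  grind

lemma nbr_symm {e f : Sym2 (Fin n)} : f ∈ nbr G e ↔ e ∈ nbr G f := by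
  rw [mem_nbr, mem_nbr]; grind

lemma nbr_sub {e f : Sym2 (Fin n)} (h : f ∈ nbr G e) : f ∈ G := by
  obtain ⟨_, u, hu, _, hf⟩ := mem_nbr.1 h
  exact edgesOf_sub hu hf

lemma ne_of_edge (hG : G ⊆ completeEdges n) {a b : Fin n} (h : s(a, b) ∈ G) : a ≠ b := by
  simpa [completeEdges] using hG h

lemma sum_nbr {R : Type*} [AddCommMonoid R] (e : Sym2 (Fin n)) (h : Sym2 (Fin n) → R) :
    ∑ f ∈ nbr G e, h f =
      ∑ u ∈ triangles G with e ∈ edgesOf u, ∑ f ∈ (edgesOf u).erase e, h f := by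
  refine sum_biUnion fun u hu v hv huv => Finset.disjoint_left.2 fun f hf hf' => huv ?_
  obtain ⟨hu1, hu2⟩ := mem_filter.1 hu
  obtain ⟨hv1, hv2⟩ := mem_filter.1 hv
  exact eq_of_two_edges (card3_of_mem hu1) (card3_of_mem hv1) (mem_erase.1 hf).1.symm hu2
    (mem_erase.1 hf).2 hv2 (mem_erase.1 hf').2

lemma card_nbr (e : Sym2 (Fin n)) : #(nbr G e) = 2 * cod G e := by
  rw [card_eq_sum_ones, sum_nbr, cod, mul_comm, ← smul_eq_mul, ← sum_const]
  refine sum_congr rfl fun u hu => ?_
  obtain ⟨hu1, hu2⟩ := mem_filter.1 hu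
  rw [← card_eq_sum_ones, card_erase_of_mem hu2, card_edgesOf (card3_of_mem hu1)]

lemma mem_edgesOf {u : Finset (Fin n)} {a b : Fin n} :
    s(a, b) ∈ edgesOf u ↔ a ∈ u ∧ b ∈ u ∧ a ≠ b := by
  simp [edgesOf, Finset.mem_sym2_iff, and_assoc]

lemma mem_nbr_mk {a b : Fin n} {f : Sym2 (Fin n)} (h : f ∈ nbr G s(a, b)) :
    ∃ x, x ≠ a ∧ x ≠ b ∧ s(a, x) ∈ G ∧ s(b, x) ∈ G ∧ (f = s(a, x) ∨ f = s(b, x)) := by
  obtain ⟨hne, u, hu, he, hf⟩ := mem_nbr.1 h
  obtain ⟨ha, hb, hab⟩ := mem_edgesOf.1 he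
  obtain ⟨x, hx, hxab⟩ : ∃ x ∈ u, x ∉ ({a, b} : Finset (Fin n)) :=
    exists_mem_notMem_of_card_lt_card (by rw [card_pair hab, card3_of_mem hu]; norm_num)
  simp only [mem_insert, mem_singleton, not_or] at hxab
  have hu3 : u = {a, b, x} := (eq_of_subset_of_card_le (by simp [insert_subset_iff, ha, hb, hx])
    (by rw [card3_of_mem hu, card_insert_of_notMem (by simp [hab, Ne.symm hxab.1]),
      card_pair (Ne.symm hxab.2)])).symm
  refine ⟨x, hxab.1, hxab.2, edgesOf_sub hu (mem_edgesOf.2 ⟨ha, hx, Ne.symm hxab.1⟩),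
    edgesOf_sub hu (mem_edgesOf.2 ⟨hb, hx, Ne.symm hxab.2⟩), ?_⟩
  induction f using Sym2.ind with
  | _ p q =>
    obtain ⟨hp, hq, hpq⟩ := mem_edgesOf.1 hf
    rw [hu3] at hp hq
    simp only [mem_insert, mem_singleton] at hp hq
    simp only [ne_eq, Sym2.eq_iff] at hne ⊢
    grind

lemma triangle_mem (hG : G ⊆ completeEdges n) {a b c : Fin n} (hab : s(a, b) ∈ G)
    (hac : s(a, c) ∈ G) (hbc : s(b, c) ∈ G) : ({a, b, c} : Finset (Fin n)) ∈ triangles G := by
  have h1 := ne_of_edge hG hab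
  have h2 := ne_of_edge hG hac
  have h3 := ne_of_edge hG hbc
  refine mem_filter.2 ⟨mem_powersetCard.2 ⟨subset_univ _, ?_⟩, fun e he => ?_⟩
  · rw [card_insert_of_notMem (by simp [h1, h2]), card_pair h3]
  · induction e using Sym2.ind with
    | _ p q =>
      obtain ⟨hp, hq, hpq⟩ := mem_edgesOf.1 he
      simp only [mem_insert, mem_singleton] at hp hq
      rcases hp with rfl | rfl | rfl <;> rcases hq with rfl | rfl | rfl <;>
        first | contradiction | assumption | (rw [Sym2.eq_swap]; assumption)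

lemma common_le_cod (hG : G ⊆ completeEdges n) {a c : Fin n} (hac : s(a, c) ∈ G) (b : Fin n) :
    #(common G a b c) ≤ cod G s(a, c) := by
  refine card_le_card_of_injOn (fun d => ({a, c, d} : Finset (Fin n))) (fun d hd => ?_) ?_
  · simp only [common, mem_coe, mem_filter, mem_univ, true_and] at hd
    exact mem_filter.2 ⟨triangle_mem hG hac hd.1 hd.2.2,
      mem_edgesOf.2 ⟨by simp, by simp, ne_of_edge hG hac⟩⟩
  · intro d hd d' hd' h
    simp only [common, mem_coe, mem_filter, mem_univ, true_and] at hd hd'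
    have h' : ({a, c, d} : Finset (Fin n)) = {a, c, d'} := h
    have h1 : d ∈ ({a, c, d'} : Finset (Fin n)) := by rw [← h']; simp
    simp only [mem_insert, mem_singleton] at h1
    rcases h1 with h1 | h1 | h1
    · exact absurd h1.symm (ne_of_edge hG hd.1)
    · exact absurd h1.symm (ne_of_edge hG hd.2.2)
    · exact h1

lemma common_le_paths (hG : G ⊆ completeEdges n) {a b c : Fin n} (hab : s(a, b) ∈ G)
    (hac : s(a, c) ∈ G) : #(common G a b c) ≤ paths G s(a, b) s(a, c) := by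
  refine card_le_card_of_injOn (fun d => s(a, d)) (fun d hd => ?_) ?_
  · simp only [common, mem_coe, mem_filter, mem_univ, true_and] at hd
    obtain ⟨h1, h2, h3⟩ := hd
    have da := ne_of_edge hG h1
    refine mem_inter.2 ⟨mem_nbr.2 ⟨?_, _, triangle_mem hG hab h1 h2, ?_⟩,
      mem_nbr.2 ⟨?_, _, triangle_mem hG hac h1 h3, ?_⟩⟩
    · intro h
      rcases Sym2.eq_iff.1 h with ⟨_, h⟩ | ⟨_, h⟩
      · exact ne_of_edge hG h2 h.symm
      · exact da h.symm
    · simp [mem_edgesOf, ne_of_edge hG hab, da]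
    · intro h
      rcases Sym2.eq_iff.1 h with ⟨_, h⟩ | ⟨_, h⟩
      · exact ne_of_edge hG h3 h.symm
      · exact da h.symm
    · simp [mem_edgesOf, ne_of_edge hG hac, da]
  · intro d _ d' _ h
    exact Sym2.congr_right.1 h

lemma paths_adjacent_le {a b c : Fin n} (hab : a ≠ b) (hac : a ≠ c) (hbc : b ≠ c) :
    paths G s(a, b) s(a, c) ≤ #(common G a b c) + 1 := by
  refine le_trans (card_le_card
    (t := insert s(b, c) ((common G a b c).image fun d => s(a, d))) ?_)
    ((card_insert_le _ _).trans (Nat.add_le_add_right card_image_le 1))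
  intro f hf
  obtain ⟨h1, h2⟩ := mem_inter.1 hf
  obtain ⟨x, hxa, hxb, hax, hbx, hf1⟩ := mem_nbr_mk h1
  obtain ⟨y, hya, hyc, hay, hcy, hf2⟩ := mem_nbr_mk h2
  simp only [mem_insert, mem_image, common, mem_filter, mem_univ, true_and]
  rcases hf1 with rfl | rfl
  · right
    have : x = y := by
      rcases hf2 with h | h
      · exact Sym2.congr_right.1 h
      · rcases Sym2.eq_iff.1 h with ⟨h', _⟩ | ⟨h', _⟩
        · exact absurd h' hac
        · exact absurd h'.symm hya
    subst this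
    exact ⟨x, ⟨hax, hbx, hcy⟩, rfl⟩
  · left
    rcases hf2 with h | h <;> rcases Sym2.eq_iff.1 h with ⟨h', h''⟩ | ⟨h', h''⟩
    · exact absurd h'.symm hab
    · exact absurd h'' hxa
    · exact absurd h' hbc
    · rw [h'']

lemma paths_disjoint_le {a b c d : Fin n} (h1 : a ≠ c) (h2 : a ≠ d) (h3 : b ≠ c) (h4 : b ≠ d) :
    paths G s(a, b) s(c, d) ≤ 4 := by
  refine le_trans (card_le_card (t := {s(a, c), s(a, d), s(b, c), s(b, d)}) ?_) card_le_four
  intro f hf
  obtain ⟨hf1, hf2⟩ := mem_inter.1 hf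
  obtain ⟨x, hxa, hxb, _, _, hf1⟩ := mem_nbr_mk hf1
  obtain ⟨y, hyc, hyd, _, _, hf2⟩ := mem_nbr_mk hf2
  simp only [mem_insert, mem_singleton]
  rcases hf1 with rfl | rfl <;> rcases hf2 with h | h <;>
    rcases Sym2.eq_iff.1 h with ⟨h', h''⟩ | ⟨h', h''⟩ <;> grind

lemma sq_paths_adjacent_le {a b c : Fin n} (hab : a ≠ b) (hac : a ≠ c) (hbc : b ≠ c) :
    (paths G s(a, b) s(a, c) : ℝ) ^ 2 ≤
      4 * paths G s(a, b) s(a, c) + 4 * (#(common G a b c) : ℝ) ^ 2 := by
  have h : (paths G s(a, b) s(a, c) : ℝ) ≤ #(common G a b c) + 1 := by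
    exact_mod_cast paths_adjacent_le hab hac hbc
  nlinarith [mul_le_mul_of_nonneg_left h (Nat.cast_nonneg (α := ℝ) (paths G s(a, b) s(a, c))),
    sq_nonneg ((paths G s(a, b) s(a, c) : ℝ) - 4 * #(common G a b c))]

lemma sum_sq_paths_le (hG : G ⊆ completeEdges n) {a c : Fin n} (hac : s(a, c) ∈ G) :
    ∑ e ∈ G.erase s(a, c), (paths G e s(a, c) : ℝ) ^ 2 ≤
      4 * (∑ e ∈ G, (paths G e s(a, c) : ℝ)) + 4 * (hub G a c + hub G c a) := by
  have key : ∀ e ∈ G.erase s(a, c), (paths G e s(a, c) : ℝ) ^ 2 ≤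
      4 * paths G e s(a, c) + 4 *
        ((∑ b, if s(a, b) = e ∧ b ≠ c then (#(common G a b c) : ℝ) ^ 2 else 0) +
          ∑ b, if s(c, b) = e ∧ b ≠ a then (#(common G c b a) : ℝ) ^ 2 else 0) := by
    intro e he
    obtain ⟨hne, he⟩ := mem_erase.1 he
    have hA : ∀ x y, 0 ≤ ∑ b, if s(x, b) = e ∧ b ≠ y then (#(common G x b y) : ℝ) ^ 2 else 0 :=
      fun x y => sum_nonneg fun b _ => by split_ifs <;> positivity
    have hA' : ∀ x y b, s(x, b) = e → b ≠ y → (#(common G x b y) : ℝ) ^ 2 ≤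
        ∑ b, if s(x, b) = e ∧ b ≠ y then (#(common G x b y) : ℝ) ^ 2 else 0 := by
      intro x y b h1 h2
      refine le_trans (le_of_eq ?_) (single_le_sum (fun b' _ => ?_) (mem_univ b))
      · rw [if_pos ⟨h1, h2⟩]
      · split_ifs <;> positivity
    have adj : ∀ x y b, x ≠ y → s(x, b) = e → b ≠ y → s(x, y) = s(a, c) →
        (paths G e s(a, c) : ℝ) ^ 2 ≤ 4 * paths G e s(a, c) + 4 *
          ∑ b, if s(x, b) = e ∧ b ≠ y then (#(common G x b y) : ℝ) ^ 2 else 0 := by
      intro x y b hxy h1 h2 h3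
      have := hA' x y b h1 h2
      subst h1
      rw [← h3]
      have := sq_paths_adjacent_le (G := G) (ne_of_edge hG he) hxy h2
      linarith
    by_cases ha : a ∈ e
    · obtain ⟨b, rfl⟩ := Sym2.mem_iff_exists.1 ha
      have hb : b ≠ c := fun h => hne (by rw [h])
      have := adj a c b (ne_of_edge hG hac) rfl hb rfl
      have := hA c a
      linarith
    by_cases hc : c ∈ e
    · obtain ⟨b, rfl⟩ := Sym2.mem_iff_exists.1 hc
      have hb : b ≠ a := fun h => hne (by rw [h, Sym2.eq_swap])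
      have := adj c a b (ne_of_edge hG hac).symm rfl hb Sym2.eq_swap
      have := hA a c
      linarith
    induction e using Sym2.ind with
    | _ p q =>
      simp only [Sym2.mem_iff, not_or] at ha hc
      have h4 : (paths G s(p, q) s(a, c) : ℝ) ≤ 4 := by
        exact_mod_cast paths_disjoint_le (Ne.symm ha.1) (Ne.symm hc.1) (Ne.symm ha.2) (Ne.symm hc.2)
      have := hA a c; have := hA c a
      nlinarith [mul_le_mul_of_nonneg_right h4 (Nat.cast_nonneg (α := ℝ) (paths G s(p, q) s(a, c)))]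
  refine (sum_le_sum key).trans ?_
  rw [sum_add_distrib, ← mul_sum, ← mul_sum, sum_add_distrib]
  have hh : ∀ x y : Fin n, (∑ e ∈ G.erase s(a, c), ∑ b,
      if s(x, b) = e ∧ b ≠ y then (#(common G x b y) : ℝ) ^ 2 else 0) ≤ hub G x y := by
    intro x y
    rw [sum_comm, hub]
    refine sum_le_sum fun b _ => ?_
    rw [← sum_filter]
    by_cases hb : s(x, b) ∈ G ∧ b ≠ y
    · rw [if_pos hb]
      refine (sum_le_sum_of_subset_of_nonneg (t := {s(x, b)}) ?_ fun _ _ _ => sq_nonneg _).trans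
        (le_of_eq (sum_singleton _ _))
      intro e he
      exact mem_singleton.2 (mem_filter.1 he).2.1.symm
    · rw [if_neg hb, sum_eq_zero]
      intro e he
      obtain ⟨h1, rfl, h2⟩ := mem_filter.1 he
      exact absurd ⟨(mem_erase.1 h1).2, h2⟩ hb
  gcongr
  · exact erase_subset _ _
  · exact hh a c
  · exact hh c a

/-- A sum over ordered pairs counts each edge twice. -/
lemma sum_ordered (hG : G ⊆ completeEdges n) (F : Sym2 (Fin n) → ℝ) :
    (∑ a, ∑ c, if s(a, c) ∈ G then F s(a, c) else 0) = 2 * ∑ g ∈ G, F g := by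
  rw [← Fintype.sum_prod_type', ← sum_filter,
    ← sum_fiberwise_of_maps_to (g := fun p : Fin n × Fin n => s(p.1, p.2)) (t := G)
      (fun p hp => (mem_filter.1 hp).2), mul_sum]
  refine sum_congr rfl fun g hg => ?_
  induction g using Sym2.ind with
  | _ a c =>
    have h : ((univ : Finset (Fin n × Fin n)).filter (fun p => s(p.1, p.2) ∈ G)).filter
        (fun p => s(p.1, p.2) = s(a, c)) = {(a, c), (c, a)} := by
      ext p
      simp only [mem_filter, mem_univ, true_and, mem_insert, mem_singleton, Prod.ext_iff]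
      constructor
      · exact fun h => Sym2.eq_iff.1 h.2
      · intro h
        have := Sym2.eq_iff.2 h
        exact ⟨this ▸ hg, this⟩
    rw [h, sum_pair (by simp [ne_of_edge hG hg]), Sym2.eq_swap (a := c)]
    ring

lemma common_sum_le (hG : G ⊆ completeEdges n) :
    (∑ a, ∑ c, if s(a, c) ∈ G then
      (∑ b, if s(a, b) ∈ G ∧ b ≠ c then (#(common G a b c) : ℝ) else 0) else 0) ≤
      2 * ∑ e ∈ G, (cod G e : ℝ) ^ 2 := by
  have h1 : ∀ a c, (if s(a, c) ∈ G then
      (∑ b, if s(a, b) ∈ G ∧ b ≠ c then (#(common G a b c) : ℝ) else 0) else 0) ≤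
      ∑ b, ∑ d, (if s(a, d) ∈ G then (1 : ℝ) else 0) *
        ((if s(a, b) ∈ G ∧ s(b, d) ∈ G then 1 else 0) *
          (if s(a, c) ∈ G ∧ s(c, d) ∈ G then 1 else 0)) := by
    intro a c
    have hp : ∀ b d, 0 ≤ (if s(a, d) ∈ G then (1 : ℝ) else 0) *
        ((if s(a, b) ∈ G ∧ s(b, d) ∈ G then 1 else 0) *
          (if s(a, c) ∈ G ∧ s(c, d) ∈ G then 1 else 0)) := fun b d => by
      split_ifs <;> norm_num
    split_ifs with hac
    · refine sum_le_sum fun b _ => ?_
      split_ifs with hab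
      · refine le_of_eq ?_
        rw [common, ← sum_boole]
        refine sum_congr rfl fun d _ => ?_
        simp only [hab.1, hac, true_and]
        split_ifs <;> grind
      · exact sum_nonneg fun d _ => hp b d
    · exact sum_nonneg fun b _ => sum_nonneg fun d _ => hp b d
  refine (sum_le_sum fun a _ => sum_le_sum fun c _ => h1 a c).trans ?_
  rw [← sum_ordered hG fun e => (cod G e : ℝ) ^ 2]
  refine sum_le_sum fun a _ => ?_
  rw [sum_comm, sum_congr rfl fun b _ => sum_comm, sum_comm]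
  refine sum_le_sum fun d _ => ?_
  simp only [← mul_sum, ← sum_mul, sum_boole]
  split_ifs with had
  · rw [one_mul, ← sq]
    gcongr
    refine le_trans (card_le_card ?_) (common_le_cod hG had a)
    intro b hb
    simp only [common, mem_filter, mem_univ, true_and] at hb ⊢
    exact ⟨hb.1, hb.1, by rw [Sym2.eq_swap]; exact hb.2⟩
  · simp

lemma hub_sum_le (hG : G ⊆ completeEdges n) :
    (∑ a, ∑ c, if s(a, c) ∈ G then hub G a c else 0) ≤
      (wheels G).card + 2 * ∑ e ∈ G, (cod G e : ℝ) ^ 2 := by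
  have hw : ((wheels G).card : ℝ) = ∑ a, ∑ c, ∑ b, ∑ d, ∑ d',
      (if b ≠ c ∧ d ≠ d' ∧ s(a, b) ∈ G ∧ s(a, c) ∈ G ∧ s(a, d) ∈ G ∧ s(a, d') ∈ G ∧
        s(b, d) ∈ G ∧ s(c, d) ∈ G ∧ s(b, d') ∈ G ∧ s(c, d') ∈ G then (1 : ℝ) else 0) := by
    rw [wheels, ← sum_boole]
    simp only [Fintype.sum_prod_type]
    exact sum_congr rfl fun a _ => sum_comm
  refine le_trans ?_ (add_le_add le_rfl (common_sum_le hG))
  rw [hw, ← sum_add_distrib]
  refine sum_le_sum fun a _ => ?_
  rw [← sum_add_distrib]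
  refine sum_le_sum fun c _ => ?_
  split_ifs with hac
  · rw [hub, ← sum_add_distrib]
    refine sum_le_sum fun b _ => ?_
    split_ifs with hab
    · refine le_of_eq ?_
      rw [← sub_eq_iff_eq_add, show (#(common G a b c) : ℝ) ^ 2 - #(common G a b c) =
        ((common G a b c).offDiag.card : ℝ) by
          rw [offDiag_card, Nat.cast_sub (Nat.le_mul_self _), Nat.cast_mul, sq],
        ← Fintype.sum_prod_type', sum_boole]
      congr 2
      ext p
      simp only [common, mem_offDiag, mem_filter, mem_univ, true_and, hac, hab.1]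
      tauto
    · rw [add_zero]
      exact sum_nonneg fun d _ => sum_nonneg fun d' _ => by split_ifs <;> norm_num
  · rw [add_zero]
    exact sum_nonneg fun b _ => sum_nonneg fun d _ => sum_nonneg fun d' _ => by
      split_ifs <;> norm_num

lemma sum_paths_le (g : Sym2 (Fin n)) :
    ∑ e ∈ G, (paths G e g : ℝ) ≤ 2 * ∑ u ∈ triangles G with g ∈ edgesOf u, cs G u := by
  have h : ∑ e ∈ G, (paths G e g : ℝ) ≤ ∑ f ∈ nbr G g, (#(nbr G f) : ℝ) := by
    simp only [paths, inter_comm _ (nbr G g), ← filter_mem_eq_inter, ← sum_boole]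
    rw [sum_comm]
    refine sum_le_sum fun f _ => ?_
    rw [sum_boole]
    gcongr
    exact fun e he => nbr_symm.1 (mem_filter.1 he).2
  refine h.trans ?_
  rw [sum_congr rfl fun f _ => by rw [card_nbr, Nat.cast_mul, Nat.cast_ofNat], ← mul_sum,
    sum_nbr g fun f => (cod G f : ℝ)]
  gcongr with u hu
  exact sum_le_sum_of_subset_of_nonneg (erase_subset _ _) fun e _ _ => Nat.cast_nonneg _

lemma sum_weighted_paths_le (G : Finset (Sym2 (Fin n))) (F : Sym2 (Fin n) → ℝ)
    (hF : ∀ g, 0 ≤ F g) :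
    ∑ g ∈ G, F g * ∑ e ∈ G, (paths G e g : ℝ) ≤
      2 * ∑ u ∈ triangles G, (∑ g ∈ edgesOf u, F g) * cs G u := by
  refine (sum_le_sum fun g _ => mul_le_mul_of_nonneg_left (sum_paths_le g) (hF g)).trans
    (le_of_eq ?_)
  rw [mul_sum, sum_congr rfl fun g _ => by rw [mul_left_comm, mul_sum, sum_filter, mul_sum],
    sum_comm]
  refine sum_congr rfl fun u hu => ?_
  rw [← mul_sum, ← sum_filter, filter_mem_eq_inter, inter_eq_right.2 (edgesOf_sub hu), sum_mul]

/-- The mean square deviation weighted by a low power of `y`. -/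
lemma avg_dev_sq_pow_le (h : Stage G) {a : ℕ} (ha : a ≤ 5) :
    avgE G (fun e => dev G e ^ 2 * rel G e ^ a) ≤ 620 * (Rest G M / rt G ^ 12) := by
  have hr := h.rt_pos
  have hm := rt_pow G
  have h1 : avgE G (fun e => dev G e ^ 2 * rel G e ^ a) ≤
      avgE G (fun e => 2 * rt G ^ 4 * Dv G M e ^ 2 +
        (2 / rt G ^ 12 * (Dv G M e ^ 2 * (rel G e ^ (4 * a) * (mG G * M e ^ 2) ^ 0)) +
          2 / rt G ^ 16 * (rel G e ^ a * (mG G * M e ^ 2) ^ 1))) := by
    refine avgE_mono fun e _ => ?_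
    have hd : dev G e = Dv G M e + M e := by rw [Dv]; ring
    have hp := pow_nonneg (rel_nonneg G e) a
    refine (mul_le_mul_of_nonneg_right (hd ▸ add_sq_le) hp).trans ?_
    have := mul_threshold (Dv G M e ^ 2) (sq_nonneg _) hp (pow_pos hr 4) 3
    rw [← pow_mul, mul_comm a] at this
    rw [pow_zero, mul_one, pow_one]
    have e1 : 2 / rt G ^ 16 * (rel G e ^ a * (mG G * M e ^ 2)) = 2 * M e ^ 2 * rel G e ^ a := by
      rw [← hm]; field_simp
    rw [e1]
    have e2 : Dv G M e ^ 2 * (rel G e ^ (4 * a) / (rt G ^ 4) ^ 3) =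
        1 / rt G ^ 12 * (Dv G M e ^ 2 * rel G e ^ (4 * a)) := by ring
    rw [show (3 + 1 : ℕ) = 4 from rfl, e2] at this
    refine (le_of_eq (by ring)).trans ((add_le_add_left (mul_le_mul_of_nonneg_left this
      (zero_le_two : (0 : ℝ) ≤ 2)) (2 * M e ^ 2 * rel G e ^ a)).trans_eq (by ring))
  rw [avgE_add, avgE_add, avgE_mul, avgE_mul, avgE_mul] at h1
  have h2 := avg_Dsq_le (M := M) h
  have h3 := avg_Dsq_mixed_le (M := M) h (a := 4 * a) (b := 0) (by unfold K; omega) (by norm_num [K])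
  have h4 := mixed_le (G := G) (M := M) (a := a) (b := 1) (by unfold K; omega) (by norm_num [K])
  refine h1.trans ?_
  have hR := Rest_nonneg (G := G) (M := M)
  calc _ ≤ 2 * rt G ^ 4 * (300 * Rest G M / rt G ^ 16) +
        (2 / rt G ^ 12 * (9 * Rest G M) + 2 / rt G ^ 16 * Rest G M) := by
        gcongr
        rw [le_div_iff₀ (by positivity), hm]; linarith
    _ ≤ 2 * rt G ^ 4 * (300 * Rest G M / rt G ^ 16) +
        (2 / rt G ^ 12 * (9 * Rest G M) + 2 / rt G ^ 12 * Rest G M) := by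
        gcongr
        · exact h.one_le_rt
        · norm_num
    _ = _ := by field_simp; ring

lemma inject_sum_cod_pow (h : Stage G) (k : ℕ) :
    ∑ e ∈ G, (cod G e : ℝ) ^ k = (G.card : ℝ) * mG G ^ k * X k G M := by
  unfold X avgE rel
  rw [mul_comm (G.card : ℝ), mul_assoc, mul_div_cancel₀ _ h.E_pos.ne', mul_sum]
  refine sum_congr rfl fun e _ => ?_
  rw [div_pow, mul_div_cancel₀ _ (pow_ne_zero _ h.m_pos.ne')]

/-- Edges with `y > 2` carry little. -/
lemma heavy_le (h : Stage G) :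
    ∑ u ∈ triangles G,
        (∑ g ∈ edgesOf u, if 2 * mG G < (cod G g : ℝ) then (cod G g : ℝ) ^ 2 else 0) * cs G u ≤
      1000 * ((G.card : ℝ) * mG G ^ 4 * (Rest G M / rt G ^ 4)) := by
  have hm := h.m_pos
  have hr := h.rt_pos
  set I : Sym2 (Fin n) → ℝ := fun g => if 2 * mG G < (cod G g : ℝ) then 1 else 0
  set F : Sym2 (Fin n) → ℝ := fun g => rt G ^ 2 / mG G * (I g * (cod G g : ℝ) ^ 2)
  set F' : Sym2 (Fin n) → ℝ := fun g => (cod G g : ℝ) / rt G ^ 2
  have e0 : ∀ u, (∑ g ∈ edgesOf u, if 2 * mG G < (cod G g : ℝ) then (cod G g : ℝ) ^ 2 else 0) *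
      cs G u = mG G * ((∑ g ∈ edgesOf u, F g) * ∑ g ∈ edgesOf u, F' g) := by
    intro u
    simp only [F, F', I, ← mul_sum, ← sum_div, cs, ite_mul, one_mul, zero_mul]
    field_simp
  rw [sum_congr rfl fun u _ => e0 u, ← mul_sum]
  refine (mul_le_mul_of_nonneg_left (sum_tri_mul_le G F F') hm.le).trans ?_
  have h1 : ∑ g ∈ G, (cod G g : ℝ) * (F g ^ 2 + F' g ^ 2) ≤
      (G.card : ℝ) * mG G ^ 3 * (rt G ^ 4 * avgE G (fun g => dev G g ^ 2 * rel G g ^ 5)) +
        1 / rt G ^ 4 * ∑ g ∈ G, (cod G g : ℝ) ^ 3 := by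
    rw [avgE, ← mul_div_assoc, mul_sum, sum_div, mul_sum, mul_sum, ← sum_add_distrib]
    · refine sum_le_sum fun g _ => ?_
      have hI : I g ^ 2 ≤ dev G g ^ 2 := by
        simp only [I]
        split_ifs with hy
        · have : 1 ≤ dev G g := by
            rw [dev_eq, rel, le_sub_iff_add_le, le_div_iff₀ hm]; linarith
          nlinarith
        · simpa using sq_nonneg (dev G g)
      have hp : 0 ≤ rt G ^ 4 / mG G ^ 2 * (cod G g : ℝ) ^ 5 := by positivity
      have := mul_le_mul_of_nonneg_left hI hp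
      simp only [F, F', rel]
      have := h.E_pos
      calc _ = rt G ^ 4 / mG G ^ 2 * (cod G g : ℝ) ^ 5 * I g ^ 2 +
            1 / rt G ^ 4 * (cod G g : ℝ) ^ 3 := by field_simp
        _ ≤ rt G ^ 4 / mG G ^ 2 * (cod G g : ℝ) ^ 5 * dev G g ^ 2 +
            1 / rt G ^ 4 * (cod G g : ℝ) ^ 3 := by linarith
        _ = _ := by field_simp
  rw [inject_sum_cod_pow (M := M) h] at h1
  have h2 := avg_dev_sq_pow_le (M := M) h (le_refl 5)
  have h3 := X_le_Rest (G := G) (M := M) (show 3 ≤ 2 * K + 2 by norm_num [K])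
  have hE := h.E_pos
  have hR := Rest_nonneg (G := G) (M := M)
  calc _ ≤ mG G * (3 / 2 * ((G.card : ℝ) * mG G ^ 3 * (rt G ^ 4 * (620 * (Rest G M / rt G ^ 12))) +
        1 / rt G ^ 4 * ((G.card : ℝ) * mG G ^ 3 * Rest G M))) := by
        refine mul_le_mul_of_nonneg_left (mul_le_mul_of_nonneg_left (h1.trans ?_) (by norm_num)) hm.le
        gcongr
    _ = (G.card : ℝ) * mG G ^ 4 * (930 * (Rest G M / rt G ^ 8) + 3 / 2 * (Rest G M / rt G ^ 4)) := by
        field_simp; ring
    _ ≤ (G.card : ℝ) * mG G ^ 4 *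
        (930 * (Rest G M / rt G ^ 4) + 3 / 2 * (Rest G M / rt G ^ 4)) := by
        gcongr
        · exact h.one_le_rt
        · norm_num
    _ ≤ _ := by
        have : 0 ≤ (G.card : ℝ) * mG G ^ 4 * (Rest G M / rt G ^ 4) := by positivity
        linarith

/-- The squared paths, weighted by the codegree of their last edge. -/
lemma sum_cod_sq_paths_le (h : Stage G) :
    ∑ g ∈ G, (cod G g : ℝ) * ∑ e ∈ G.erase g, (paths G e g : ℝ) ^ 2 ≤
      ((G.card : ℝ) * mG G ^ 4) * (20000 * (Wh G M + Rest G M / rt G ^ 4)) := by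
  have hG := h.sub
  have hm := h.m_pos
  have hE := h.E_pos
  set J : Sym2 (Fin n) → ℝ := fun g => ∑ e ∈ G, (paths G e g : ℝ)
  set B : Sym2 (Fin n) → ℝ :=
    fun g => if 2 * mG G < (cod G g : ℝ) then (cod G g : ℝ) ^ 2 else 0
  have hhub : ∀ a c, s(a, c) ∈ G →
      (cod G s(a, c) : ℝ) * hub G a c ≤ 2 * mG G * hub G a c + B s(a, c) * J s(a, c) := by
    intro a c hac
    have h0 : 0 ≤ hub G a c := sum_nonneg fun b _ => by split_ifs <;> positivity
    have hJ : 0 ≤ J s(a, c) := sum_nonneg fun e _ => Nat.cast_nonneg _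
    simp only [B]
    split_ifs with hy
    · have h1 : hub G a c ≤ (cod G s(a, c) : ℝ) * J s(a, c) := by
        calc hub G a c ≤ ∑ b, if s(a, b) ∈ G then
              (cod G s(a, c) : ℝ) * paths G s(a, b) s(a, c) else 0 := by
              refine sum_le_sum fun b _ => ?_
              split_ifs with h1 h2
              · rw [sq]
                exact mul_le_mul (by exact_mod_cast common_le_cod hG hac b)
                  (by exact_mod_cast common_le_paths hG h1.1 hac) (Nat.cast_nonneg _)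
                  (Nat.cast_nonneg _)
              · exact absurd h1.1 h2
              · positivity
              · exact le_rfl
          _ ≤ _ := by
              rw [← sum_filter, ← mul_sum,
                ← sum_image (g := fun b => s(a, b)) (f := fun e => (paths G e s(a, c) : ℝ))
                  fun b _ b' _ h => Sym2.congr_right.1 h]
              refine mul_le_mul_of_nonneg_left ?_ (Nat.cast_nonneg _)
              refine sum_le_sum_of_subset_of_nonneg ?_ fun e _ _ => Nat.cast_nonneg _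
              exact image_subset_iff.2 fun b hb => (mem_filter.1 hb).2
      have := mul_le_mul_of_nonneg_left h1 (Nat.cast_nonneg (α := ℝ) (cod G s(a, c)))
      nlinarith [mul_nonneg hm.le h0]
    · rw [zero_mul, add_zero]
      exact mul_le_mul_of_nonneg_right (not_lt.1 hy) h0
  have hstep : 2 * ∑ g ∈ G, (cod G g : ℝ) * ∑ e ∈ G.erase g, (paths G e g : ℝ) ^ 2 ≤
      8 * ∑ g ∈ G, (cod G g : ℝ) * J g +
        8 * (2 * mG G * (∑ a, ∑ c, if s(a, c) ∈ G then hub G a c else 0) +
          2 * ∑ g ∈ G, B g * J g) := by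
    have e1 : (8 : ℝ) * ∑ g ∈ G, (cod G g : ℝ) * J g =
        4 * (2 * ∑ g ∈ G, (cod G g : ℝ) * J g) := by ring
    rw [e1, ← sum_ordered hG, ← sum_ordered hG, ← sum_ordered hG]
    have sw : (∑ a, ∑ c, if s(a, c) ∈ G then (cod G s(a, c) : ℝ) * hub G c a else 0) =
        ∑ a, ∑ c, if s(a, c) ∈ G then (cod G s(a, c) : ℝ) * hub G a c else 0 := by
      rw [sum_comm]
      refine sum_congr rfl fun a _ => sum_congr rfl fun c _ => ?_
      rw [Sym2.eq_swap]
    have hb : (∑ a, ∑ c, if s(a, c) ∈ G then (cod G s(a, c) : ℝ) * hub G a c else 0) ≤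
        2 * mG G * (∑ a, ∑ c, if s(a, c) ∈ G then hub G a c else 0) +
          ∑ a, ∑ c, if s(a, c) ∈ G then B s(a, c) * J s(a, c) else 0 := by
      simp only [mul_sum, ← sum_add_distrib]
      refine sum_le_sum fun a _ => sum_le_sum fun c _ => ?_
      split_ifs with hac
      · exact hhub a c hac
      · simp
    calc _ ≤ ∑ a, ∑ c, (4 * (if s(a, c) ∈ G then (cod G s(a, c) : ℝ) * J s(a, c) else 0) +
          (4 * (if s(a, c) ∈ G then (cod G s(a, c) : ℝ) * hub G a c else 0) +
            4 * (if s(a, c) ∈ G then (cod G s(a, c) : ℝ) * hub G c a else 0))) := by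
          refine sum_le_sum fun a _ => sum_le_sum fun c _ => ?_
          split_ifs with hac
          · refine (mul_le_mul_of_nonneg_left (sum_sq_paths_le hG hac)
              (Nat.cast_nonneg _)).trans_eq ?_
            simp only [J]; ring
          · simp
      _ ≤ _ := by
          simp only [sum_add_distrib, ← mul_sum]
          rw [sw]
          linarith
  have h1 : ∑ g ∈ G, (cod G g : ℝ) * J g ≤ 6 * ((G.card : ℝ) * mG G ^ 3 * Rest G M) := by
    refine (sum_weighted_paths_le G _ fun g => Nat.cast_nonneg _).trans ?_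
    have h2 := sum_cs_pow_le (M := M) h (j := 1) (by norm_num [K])
    norm_num at h2
    simp only [cs, sq] at h2 ⊢
    linarith
  have h2 : ∑ g ∈ G, B g * J g ≤ 2000 * ((G.card : ℝ) * mG G ^ 4 * (Rest G M / rt G ^ 4)) := by
    refine (sum_weighted_paths_le G B fun g => by simp only [B]; split_ifs <;> positivity).trans ?_
    linarith [heavy_le (M := M) h]
  have h3 := hub_sum_le hG
  rw [inject_sum_cod_pow (M := M) h, show ((wheels G).card : ℝ) = G.card * mG G ^ 3 * Wh G M by
    rw [Wh]; field_simp] at h3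
  have hX := X_le_Rest (G := G) (M := M) (show 2 ≤ 2 * K + 2 by norm_num [K])
  have h3' : 2 * mG G * (∑ a, ∑ c, if s(a, c) ∈ G then hub G a c else 0) ≤
      2 * mG G * (G.card * mG G ^ 3 * Wh G M + 2 * (G.card * mG G ^ 2 * Rest G M)) :=
    mul_le_mul_of_nonneg_left (h3.trans (by gcongr)) (by positivity)
  have h4 : (G.card : ℝ) * mG G ^ 3 * Rest G M ≤
      G.card * mG G ^ 4 * (Rest G M / rt G ^ 4) := by
    have hp : rt G ^ 4 ≤ mG G := by
      rw [← rt_pow G]; exact pow_le_pow_right₀ h.one_le_rt (by norm_num)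
    rw [show (G.card : ℝ) * mG G ^ 4 * (Rest G M / rt G ^ 4) =
      G.card * mG G ^ 3 * Rest G M * (mG G / rt G ^ 4) by ring]
    refine le_mul_of_one_le_right ?_ ((one_le_div (pow_pos h.rt_pos 4)).2 hp)
    have := Rest_nonneg (G := G) (M := M); positivity
  have h5 : 0 ≤ (G.card : ℝ) * mG G ^ 4 * Wh G M :=
    mul_nonneg (by positivity) Wh_nonneg
  have h6 : 0 ≤ (G.card : ℝ) * mG G ^ 4 * (Rest G M / rt G ^ 4) := by
    have := Rest_nonneg (G := G) (M := M); have := h.rt_pos; positivity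
  rw [show 2 * mG G * (G.card * mG G ^ 3 * Wh G M + 2 * (G.card * mG G ^ 2 * Rest G M)) =
    2 * ((G.card : ℝ) * mG G ^ 4 * Wh G M) + 4 * ((G.card : ℝ) * mG G ^ 3 * Rest G M) by ring]
    at h3'
  rw [show (G.card : ℝ) * mG G ^ 4 * (20000 * (Wh G M + Rest G M / rt G ^ 4)) =
    20000 * ((G.card : ℝ) * mG G ^ 4 * Wh G M) +
      20000 * ((G.card : ℝ) * mG G ^ 4 * (Rest G M / rt G ^ 4)) by ring]
  linarith

/-- The noise fed into the neighbour sums by one removal. -/
theorem injectBound : InjectBound := by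
  refine ⟨60000, by norm_num, fun n G M h => ?_⟩
  have key : ∀ t ∈ triangles G, ∀ e ∈ G \ edgesOf t,
      (∑ u ∈ triangles G with e ∈ edgesOf u,
        ∑ f ∈ ((edgesOf u).erase e).filter (fun f => f ∉ edgesOf t), (loss G t f : ℝ)) ^ 2 ≤
      3 * ∑ g ∈ edgesOf t, (paths G e g : ℝ) ^ 2 := by
    intro t ht e _
    have h0 : (∑ u ∈ triangles G with e ∈ edgesOf u,
        ∑ f ∈ ((edgesOf u).erase e).filter (fun f => f ∉ edgesOf t), (loss G t f : ℝ)) ≤
        ∑ g ∈ edgesOf t, (paths G e g : ℝ) := by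
      have hloss : ∀ f, f ∉ edgesOf t →
          loss G t f ≤ #{g ∈ edgesOf t | f ∈ nbr G g} := by
        intro f hf
        have : Nonempty (Sym2 (Fin n)) := ⟨f⟩
        have hex : ∀ u ∈ {u ∈ triangles G | f ∈ edgesOf u ∧ ¬ Disjoint (edgesOf u) (edgesOf t)},
            ∃ g, g ∈ edgesOf u ∧ g ∈ edgesOf t := fun u hu =>
          Finset.not_disjoint_iff.1 (mem_filter.1 hu).2.2
        choose! q hq1 hq2 using hex
        refine card_le_card_of_injOn q (fun u hu => mem_filter.2 ⟨hq2 u hu, mem_nbr.2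
          ⟨fun h => hf (h ▸ hq2 u hu), u, (mem_filter.1 hu).1, hq1 u hu, (mem_filter.1 hu).2.1⟩⟩) ?_
        intro u hu v hv huv
        exact eq_of_two_edges (card3_of_mem (mem_filter.1 hu).1) (card3_of_mem (mem_filter.1 hv).1)
          (fun h => hf (by rw [h]; exact hq2 u hu)) (mem_filter.1 hu).2.1 (hq1 u hu) (mem_filter.1 hv).2.1
          (huv ▸ hq1 v hv)
      calc _ = ∑ f ∈ nbr G e, if f ∉ edgesOf t then (loss G t f : ℝ) else 0 := by
            rw [sum_nbr]; simp only [sum_filter]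
        _ ≤ ∑ f ∈ nbr G e, (#{g ∈ edgesOf t | f ∈ nbr G g} : ℝ) := by
            refine sum_le_sum fun f _ => ?_
            split_ifs with hf
            · positivity
            · exact_mod_cast hloss f hf
        _ = _ := by
            simp only [← sum_boole, paths, ← filter_mem_eq_inter]
            rw [sum_comm]
    have h1 := sq_sum_le_card_mul_sum_sq (s := edgesOf t) (f := fun g => (paths G e g : ℝ))
    rw [card_edgesOf (card3_of_mem ht)] at h1
    refine le_trans (pow_le_pow_left₀ (by positivity) h0 2) ?_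
    exact_mod_cast h1
  refine (sum_le_sum fun t ht => sum_le_sum (key t ht)).trans ?_
  calc _ ≤ ∑ t ∈ triangles G, ∑ g ∈ edgesOf t, 3 * ∑ e ∈ G.erase g, (paths G e g : ℝ) ^ 2 := by
        refine sum_le_sum fun t _ => ?_
        simp only [← mul_sum]
        rw [sum_comm]
        refine mul_le_mul_of_nonneg_left (sum_le_sum fun g hg => ?_) (by norm_num)
        refine sum_le_sum_of_subset_of_nonneg (fun e he => ?_) fun e _ _ => sq_nonneg _
        exact mem_erase.2 ⟨fun h => (mem_sdiff.1 he).2 (h ▸ hg), (mem_sdiff.1 he).1⟩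
    _ = 3 * ∑ g ∈ G, (cod G g : ℝ) * ∑ e ∈ G.erase g, (paths G e g : ℝ) ^ 2 := by
        rw [swap_sum, mul_sum]
        exact sum_congr rfl fun g _ => by ring
    _ ≤ _ := by
        refine (mul_le_mul_of_nonneg_left (sum_cod_sq_paths_le (M := M) h) (by norm_num)).trans_eq ?_
        ring

end Vale.Agent.P046.Lin
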