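import Vale.Agent.P046.Lin.Tools
import Vale.Agent.P046.Lin.Inject

/-!
The neighbour sums of the noise field are damped.
-/

namespace Vale.Agent.P046.Lin

open Finset
open Track
open scoped Classical

variable {n : ℕ} {G : Finset (Sym2 (Fin n))} {M : Sym2 (Fin n) → ℝ}

/-- The noise on the two other edges of a triangle. -/
noncomputable def side (M : Sym2 (Fin n) → ℝ) (u : Finset (Fin n)) (e : Sym2 (Fin n)) : ℝ :=
  ∑ f ∈ (edgesOf u).erase e, M f

/-- The triangles at `e`. -/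
noncomputable def star (G : Finset (Sym2 (Fin n))) (e : Sym2 (Fin n)) : Finset (Finset (Fin n)) :=
  {u ∈ triangles G | e ∈ edgesOf u}

lemma mem_star {u : Finset (Fin n)} {e : Sym2 (Fin n)} :
    u ∈ star G e ↔ u ∈ triangles G ∧ e ∈ edgesOf u := mem_filter

/-- The sum of `aM`, before normalisation. -/
noncomputable def sumM (G : Finset (Sym2 (Fin n))) (M : Sym2 (Fin n) → ℝ) (e : Sym2 (Fin n)) : ℝ :=
  ∑ u ∈ star G e, side M u e

/-- The part of `sumM` destroyed by `t`. -/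
noncomputable def lostM (G : Finset (Sym2 (Fin n))) (M : Sym2 (Fin n) → ℝ) (t : Finset (Fin n))
    (e : Sym2 (Fin n)) : ℝ :=
  ∑ u ∈ (star G e).filter (fun u => ¬ Disjoint (edgesOf u) (edgesOf t)), side M u e

/-- The centred losses arriving at `e`, before normalisation. -/
noncomputable def inM (G : Finset (Sym2 (Fin n))) (t : Finset (Fin n)) (e : Sym2 (Fin n)) : ℝ :=
  ∑ u ∈ (star G e).filter (fun u => Disjoint (edgesOf u) (edgesOf t)),
    side (fun f => (loss G t f : ℝ) - lam G f) u e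

lemma star_sdiff (t : Finset (Fin n)) (e : Sym2 (Fin n)) :
    star (G \ edgesOf t) e = (star G e).filter (fun u => Disjoint (edgesOf u) (edgesOf t)) := by
  ext u
  simp only [star, triangles_sdiff, mem_filter]
  tauto

lemma sumM_sdiff (M : Sym2 (Fin n) → ℝ) (t : Finset (Fin n)) (e : Sym2 (Fin n)) :
    sumM (G \ edgesOf t) (stepM G M t) e =
      sumM G M e - lostM G M t e - inM G t e / mG (G \ edgesOf t) := by
  have hs : ∀ u, side (stepM G M t) u e =
      side M u e - side (fun f => (loss G t f : ℝ) - lam G f) u e / mG (G \ edgesOf t) := by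
    intro u
    simp only [side, stepM, sum_sub_distrib, ← sum_div]
  have split := Finset.sum_filter_add_sum_filter_not (star G e)
    (fun u => Disjoint (edgesOf u) (edgesOf t)) (fun u => side M u e)
  unfold sumM lostM inM
  rw [star_sdiff, sum_congr rfl fun u _ => hs u, sum_sub_distrib, sum_div]
  linarith

lemma sum_star_eq (G : Finset (Sym2 (Fin n))) (F : Finset (Fin n) → Sym2 (Fin n) → ℝ) :
    ∑ e ∈ G, ∑ u ∈ star G e, F u e = ∑ u ∈ triangles G, ∑ e ∈ edgesOf u, F u e := by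
  simp only [star, sum_filter]
  rw [sum_comm]
  refine sum_congr rfl fun u hu => ?_
  rw [← sum_filter, filter_mem_eq_inter, inter_eq_right.2 (edgesOf_sub hu)]

lemma card_star (G : Finset (Sym2 (Fin n))) (e : Sym2 (Fin n)) : ((star G e).card : ℝ) = cod G e :=
  rfl

lemma card_kill_avoid {u : Finset (Fin n)} (hu : u ∈ triangles G) {e : Sym2 (Fin n)}
    (he : e ∈ edgesOf u) :
    (#{t ∈ triangles G | e ∉ edgesOf t ∧ ¬ Disjoint (edgesOf u) (edgesOf t)} : ℝ) =
      cs G u - 2 - cod G e := by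
  rw [← kill_eq hu, eq_sub_iff_add_eq, kill, cod]
  norm_cast
  rw [← card_union_of_disjoint]
  · congr 1; ext t
    simp only [mem_union, mem_filter]
    constructor
    · rintro (⟨ht, _, hd⟩ | ⟨ht, het⟩)
      · exact ⟨ht, fun h => hd h.symm⟩
      · exact ⟨ht, fun h => Finset.disjoint_left.1 h het he⟩
    · rintro ⟨ht, hd⟩
      by_cases het : e ∈ edgesOf t
      · exact Or.inr ⟨ht, het⟩
      · exact Or.inl ⟨ht, het, fun h => hd h.symm⟩
  · exact disjoint_filter.2 fun t _ h h' => h.1 h'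

lemma sum_lost (G : Finset (Sym2 (Fin n))) (e : Sym2 (Fin n)) (F : Finset (Fin n) → ℝ) :
    ∑ t ∈ triangles G with e ∉ edgesOf t,
        ∑ u ∈ (star G e).filter (fun u => ¬ Disjoint (edgesOf u) (edgesOf t)), F u =
      ∑ u ∈ star G e, (cs G u - 2 - cod G e) * F u := by
  rw [sum_congr rfl fun t _ => sum_filter _ _, sum_comm]
  refine sum_congr rfl fun u hu => ?_
  obtain ⟨hu1, hu2⟩ := mem_star.1 hu
  rw [← sum_filter, filter_filter, sum_const, nsmul_eq_mul, card_kill_avoid hu1 hu2]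

lemma abs_loss_sub_lam {t : Finset (Fin n)} (ht : t ∈ triangles G) {f : Sym2 (Fin n)}
    (hf : f ∉ edgesOf t) : |(loss G t f : ℝ) - lam G f| ≤ 3 := by
  have h1 : (loss G t f : ℝ) ≤ 3 := by exact_mod_cast loss_le_three ht hf
  have h2 : (0 : ℝ) ≤ loss G t f := Nat.cast_nonneg _
  have := lam_le_three G f
  have := lam_nonneg G f
  rw [abs_le]; constructor <;> linarith

/-- The centred losses have nearly mean zero, also along the surviving triangles. -/
lemma abs_sum_in (h : Stage G) {u : Finset (Fin n)} (hu : u ∈ triangles G) {e f : Sym2 (Fin n)}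
    (he : e ∈ edgesOf u) (hf : f ∈ edgesOf u) :
    |∑ t ∈ triangles G with e ∉ edgesOf t ∧ Disjoint (edgesOf u) (edgesOf t),
        ((loss G t f : ℝ) - lam G f)| ≤ 6 * cs G u := by
  obtain ⟨A, hA⟩ : ∃ A : Finset (Finset (Fin n)), A = {t ∈ triangles G | f ∉ edgesOf t} := ⟨_, rfl⟩
  have hAsum : ∑ t ∈ A, ((loss G t f : ℝ) - lam G f) = lam G f * cod G f := by
    have hc : (A.card : ℝ) + cod G f = (triangles G).card := by
      rw [hA, cod, add_comm]
      exact_mod_cast Finset.card_filter_add_card_filter_not _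
    rw [sum_sub_distrib, sum_const, nsmul_eq_mul, eq_sub_of_add_eq hc]
    rw [hA, lam, sum_div]
    have := h.T_pos.ne'
    rw [← sum_div]
    field_simp
    ring
  obtain ⟨B, hB⟩ : ∃ B : Finset (Finset (Fin n)),
      B = {t ∈ triangles G | e ∉ edgesOf t ∧ Disjoint (edgesOf u) (edgesOf t)} := ⟨_, rfl⟩
  have hBA : B ⊆ A := by
    intro t ht
    rw [hB, mem_filter] at ht
    rw [hA, mem_filter]
    exact ⟨ht.1, Finset.disjoint_left.1 ht.2.2 hf⟩
  rw [← hB]
  have split := Finset.sum_sdiff (f := fun t => (loss G t f : ℝ) - lam G f) hBA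
  rw [hAsum] at split
  have hrest : |∑ t ∈ A \ B, ((loss G t f : ℝ) - lam G f)| ≤ 3 * cs G u := by
    refine (abs_sum_le_sum_abs _ _).trans ((sum_le_card_nsmul _ _ (3 : ℝ) fun t ht => ?_).trans ?_)
    · rw [mem_sdiff, hA, mem_filter] at ht
      exact abs_loss_sub_lam ht.1.1 ht.1.2
    · have hsub : A \ B ⊆ {t ∈ triangles G | ¬ Disjoint (edgesOf t) (edgesOf u)} := by
        intro t ht
        rw [mem_sdiff, hA, hB, mem_filter, mem_filter] at ht
        refine mem_filter.2 ⟨ht.1.1, fun hd => ht.2 ⟨ht.1.1, ?_, hd.symm⟩⟩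
        exact Finset.disjoint_right.1 hd he
      have h1 : ((A \ B).card : ℝ) ≤ kill G u := by exact_mod_cast card_le_card hsub
      rw [kill_eq hu] at h1
      rw [nsmul_eq_mul]; linarith
  have hY : (cod G f : ℝ) ≤ cs G u :=
    single_le_sum (f := fun e => (cod G e : ℝ)) (fun _ _ => Nat.cast_nonneg _) hf
  have hl : |lam G f * cod G f| ≤ 3 * cs G u := by
    rw [abs_of_nonneg (mul_nonneg (lam_nonneg G f) (Nat.cast_nonneg _))]
    exact mul_le_mul (lam_le_three G f) hY (Nat.cast_nonneg _) (by norm_num)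
  have := abs_le.1 hrest
  have := abs_le.1 hl
  rw [abs_le]; constructor <;> linarith

lemma abs_sum_inM (h : Stage G) (e : Sym2 (Fin n)) :
    |∑ t ∈ triangles G with e ∉ edgesOf t, inM G t e| ≤ 12 * ∑ u ∈ star G e, cs G u := by
  have e1 : ∑ t ∈ triangles G with e ∉ edgesOf t, inM G t e =
      ∑ u ∈ star G e, ∑ f ∈ (edgesOf u).erase e,
        ∑ t ∈ triangles G with e ∉ edgesOf t ∧ Disjoint (edgesOf u) (edgesOf t),
          ((loss G t f : ℝ) - lam G f) := by
    unfold inM side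
    rw [sum_congr rfl fun t _ => sum_filter _ _, sum_comm]
    refine sum_congr rfl fun u _ => ?_
    rw [← sum_filter, filter_filter, sum_comm]
  rw [e1, mul_sum]
  refine (abs_sum_le_sum_abs _ _).trans (sum_le_sum fun u hu => ?_)
  obtain ⟨hu1, hu2⟩ := mem_star.1 hu
  refine (abs_sum_le_sum_abs _ _).trans
    ((sum_le_card_nsmul _ _ (6 * cs G u) fun f hf => abs_sum_in h hu1 hu2 (erase_subset _ _ hf)).trans_eq ?_)
  rw [card_erase_of_mem hu2, card_edgesOf (card3_of_mem hu1), nsmul_eq_mul]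
  push_cast; ring

lemma side_sq_sum_le (M : Sym2 (Fin n) → ℝ) {u : Finset (Fin n)} (hu : u ∈ triangles G) :
    ∑ e ∈ edgesOf u, side M u e ^ 2 ≤ 6 * ∑ f ∈ edgesOf u, M f ^ 2 := by
  refine (sum_le_card_nsmul _ _ (2 * ∑ f ∈ edgesOf u, M f ^ 2) fun e he => ?_).trans_eq ?_
  · have h1 := sq_sum_le_card_mul_sum_sq (s := (edgesOf u).erase e) (f := M)
    rw [card_erase_of_mem he, card_edgesOf (card3_of_mem hu)] at h1
    push_cast at h1
    refine h1.trans ?_
    gcongr
    exact erase_subset _ _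
  · rw [card_edgesOf (card3_of_mem hu), nsmul_eq_mul]; push_cast; ring

/-- The losses arriving at `e` along all triangles. -/
noncomputable def inW (G : Finset (Sym2 (Fin n))) (t : Finset (Fin n)) (e : Sym2 (Fin n)) : ℝ :=
  ∑ u ∈ triangles G with e ∈ edgesOf u,
    ∑ f ∈ ((edgesOf u).erase e).filter (fun f => f ∉ edgesOf t), (loss G t f : ℝ)

/-- The mean losses arriving at `e`. -/
noncomputable def inL (G : Finset (Sym2 (Fin n))) (e : Sym2 (Fin n)) : ℝ :=
  ∑ u ∈ star G e, side (lam G) u e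

lemma inM_sq_le (t : Finset (Fin n)) (e : Sym2 (Fin n)) :
    inM G t e ^ 2 ≤ 2 * inW G t e ^ 2 + 2 * inL G e ^ 2 := by
  obtain ⟨S, hS⟩ : ∃ S : Finset (Finset (Fin n)),
      S = (star G e).filter (fun u => Disjoint (edgesOf u) (edgesOf t)) := ⟨_, rfl⟩
  have e1 : inM G t e =
      ∑ u ∈ S, side (fun f => (loss G t f : ℝ)) u e - ∑ u ∈ S, side (lam G) u e := by
    unfold inM
    rw [← hS, ← sum_sub_distrib]
    refine sum_congr rfl fun u _ => ?_
    simp only [side, sum_sub_distrib]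
  have p0 : ∀ u, 0 ≤ side (fun f => (loss G t f : ℝ)) u e := fun u =>
    sum_nonneg fun _ _ => Nat.cast_nonneg _
  have l0 : ∀ u, 0 ≤ side (lam G) u e := fun u => sum_nonneg fun f _ => lam_nonneg G f
  have hsub : S ⊆ star G e := hS ▸ filter_subset _ _
  have a1 : ∑ u ∈ S, side (fun f => (loss G t f : ℝ)) u e ≤ inW G t e := by
    refine le_trans (sum_le_sum fun u hu => le_of_eq ?_)
      (sum_le_sum_of_subset_of_nonneg hsub fun u _ _ => sum_nonneg fun _ _ => Nat.cast_nonneg _)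
    rw [hS, mem_filter] at hu
    rw [filter_true_of_mem fun f hf => Finset.disjoint_left.1 hu.2 (erase_subset _ _ hf)]
    rfl
  have a2 : ∑ u ∈ S, side (lam G) u e ≤ inL G e :=
    sum_le_sum_of_subset_of_nonneg hsub fun u _ _ => l0 u
  have b1 := sum_nonneg fun u (_ : u ∈ S) => p0 u
  have b2 := sum_nonneg fun u (_ : u ∈ S) => l0 u
  rw [e1]
  nlinarith [mul_le_mul a1 a1 b1 (b1.trans a1), mul_le_mul a2 a2 b2 (b2.trans a2),
    mul_nonneg b1 b2]

/-- The quadratic forcing. -/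
noncomputable def forceM (G : Finset (Sym2 (Fin n))) (M : Sym2 (Fin n) → ℝ) (e : Sym2 (Fin n)) :
    ℝ :=
  ∑ u ∈ star G e, side (dev G) u e * side M u e

lemma sum_lostM (h : Stage G) {e : Sym2 (Fin n)} :
    ∑ t ∈ triangles G with e ∉ edgesOf t, lostM G M t e =
      (2 * mG G - 2) * sumM G M e + mG G * forceM G M e := by
  have hm := h.m_pos.ne'
  unfold lostM sumM forceM
  rw [sum_lost, mul_sum, mul_sum, ← sum_add_distrib]
  refine sum_congr rfl fun u hu => ?_
  obtain ⟨hu1, hu2⟩ := mem_star.1 hu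
  have hc : cs G u - cod G e = mG G * (2 + side (dev G) u e) := by
    rw [cs, ← sum_erase_add _ _ hu2, add_sub_cancel_right, side]
    simp only [dev, sum_sub_distrib, sum_const, card_erase_of_mem hu2,
      card_edgesOf (card3_of_mem hu1), ← sum_div, nsmul_eq_mul]
    push_cast
    field_simp
    ring
  linear_combination side M u e * hc

lemma sum_lostM_sq (e : Sym2 (Fin n)) :
    ∑ t ∈ triangles G with e ∉ edgesOf t, lostM G M t e ^ 2 ≤
      3 * ∑ u ∈ star G e, cs G u * side M u e ^ 2 := by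
  have one : ∀ t ∈ ({t ∈ triangles G | e ∉ edgesOf t} : Finset _), lostM G M t e ^ 2 ≤
      3 * ∑ u ∈ (star G e).filter (fun u => ¬ Disjoint (edgesOf u) (edgesOf t)), side M u e ^ 2 := by
    intro t ht
    obtain ⟨ht1, ht2⟩ := mem_filter.1 ht
    refine sq_sum_le_card_mul_sum_sq.trans ?_
    refine mul_le_mul_of_nonneg_right ?_ (sum_nonneg fun _ _ => sq_nonneg _)
    have h3 := loss_le_three ht1 ht2
    rw [loss] at h3
    rw [star, filter_filter]
    exact_mod_cast h3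
  refine (sum_le_sum one).trans ?_
  rw [← mul_sum, sum_lost]
  gcongr with u hu
  · linarith [show (0 : ℝ) ≤ cod G e from Nat.cast_nonneg _]

/-- One edge's share of the next potential. -/
lemma edge_bound (h : Stage G) {m' : ℝ} (hm' : mG G / 2 ≤ m') (e : Sym2 (Fin n)) :
    ∑ t ∈ triangles G with e ∉ edgesOf t,
        (sumM G M e - lostM G M t e - inM G t e / m') ^ 2 ≤
      ((triangles G).card - 157 / 40 * mG G + 4) * sumM G M e ^ 2 +
        20 * mG G * forceM G M e ^ 2 +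
        23040 / mG G ^ 3 * (∑ u ∈ star G e, cs G u) ^ 2 +
        6 * ∑ u ∈ star G e, cs G u * side M u e ^ 2 +
        16 / mG G ^ 2 * ((∑ t ∈ triangles G with e ∉ edgesOf t, inW G t e ^ 2) +
          (triangles G).card * inL G e ^ 2) := by
  obtain ⟨S, hS⟩ : ∃ S, S = sumM G M e := ⟨_, rfl⟩
  obtain ⟨A, hA⟩ : ∃ A : Finset (Finset (Fin n)), A = {t ∈ triangles G | e ∉ edgesOf t} := ⟨_, rfl⟩
  have hm := h.m_pos
  have hm'0 : 0 < m' := by linarith
  have hcard : (A.card : ℝ) ≤ (triangles G).card := by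
    rw [hA]; exact_mod_cast card_le_card (filter_subset _ _)
  have h1 := sum_lostM (M := M) h (e := e)
  have h2 := sum_lostM_sq (G := G) (M := M) e
  have h3 := abs_sum_inM h e
  rw [← hA] at h1 h2 h3 ⊢
  rw [← hS] at h1 ⊢
  obtain ⟨cse, hcse⟩ : ∃ c, c = ∑ u ∈ star G e, cs G u := ⟨_, rfl⟩
  have hcs0 : 0 ≤ cse := by rw [hcse]; exact sum_nonneg fun u _ => cs_nonneg G u
  rw [← hcse] at h3 ⊢
  have hN : ∑ t ∈ A, inM G t e ^ 2 ≤
      2 * (∑ t ∈ A, inW G t e ^ 2) + 2 * ((triangles G).card * inL G e ^ 2) := by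
    refine (sum_le_sum fun t _ => inM_sq_le t e).trans ?_
    rw [sum_add_distrib, ← mul_sum, sum_const, nsmul_eq_mul]
    nlinarith [mul_le_mul_of_nonneg_right hcard (sq_nonneg (inL G e))]
  have expand : ∑ t ∈ A, (S - lostM G M t e - inM G t e / m') ^ 2 ≤
      A.card * S ^ 2 - 2 * S * (∑ t ∈ A, lostM G M t e) - 2 * S / m' * (∑ t ∈ A, inM G t e) +
        2 * (∑ t ∈ A, lostM G M t e ^ 2) + 2 / m' ^ 2 * ∑ t ∈ A, inM G t e ^ 2 := by
    rw [mul_sum, mul_sum, mul_sum, mul_sum, show (A.card : ℝ) * S ^ 2 = ∑ _t ∈ A, S ^ 2 by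
      rw [sum_const, nsmul_eq_mul], ← sum_sub_distrib, ← sum_sub_distrib, ← sum_add_distrib,
      ← sum_add_distrib]
    refine sum_le_sum fun t _ => ?_
    have : (lostM G M t e + inM G t e / m') ^ 2 ≤
        2 * lostM G M t e ^ 2 + 2 / m' ^ 2 * inM G t e ^ 2 := by
      refine (add_sq_le).trans_eq ?_
      ring
    rw [show (S - lostM G M t e - inM G t e / m') ^ 2 =
      S ^ 2 - 2 * S * lostM G M t e - 2 * S / m' * inM G t e +
        (lostM G M t e + inM G t e / m') ^ 2 by ring]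
    linarith
  have t1 : -(2 * S * (∑ t ∈ A, lostM G M t e)) ≤
      (-(4 * mG G) + 4 + mG G / 20) * S ^ 2 + 20 * mG G * forceM G M e ^ 2 := by
    rw [h1]
    nlinarith [mul_nonneg hm.le (sq_nonneg (S + 20 * forceM G M e)), sq_nonneg (forceM G M e)]
  have t2 : -(2 * S / m' * (∑ t ∈ A, inM G t e)) ≤
      mG G / 40 * S ^ 2 + 23040 * cse ^ 2 / mG G ^ 3 := by
    have hi : |∑ t ∈ A, inM G t e / m'| ≤ 24 * cse / mG G := by
      rw [← sum_div, abs_div, abs_of_pos hm'0, div_le_div_iff₀ hm'0 hm]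
      nlinarith [mul_le_mul_of_nonneg_right h3 hm.le, mul_le_mul_of_nonneg_left hm' hcs0]
    rw [← sum_div] at hi
    refine le_trans (neg_le_abs _) ?_
    rw [show 2 * S / m' * (∑ t ∈ A, inM G t e) = 2 * S * ((∑ t ∈ A, inM G t e) / m') by ring,
      abs_mul]
    refine (mul_le_mul_of_nonneg_left hi (abs_nonneg _)).trans ?_
    have key := sq_nonneg (|S| * mG G ^ 2 - 960 * cse)
    rw [abs_mul, abs_two, mul_assoc, show |S| * (24 * cse / mG G) = |S| * 24 * cse / mG G by ring,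
      show mG G / 40 * S ^ 2 + 23040 * cse ^ 2 / mG G ^ 3 =
        (mG G ^ 4 * S ^ 2 + 921600 * cse ^ 2) / (40 * mG G ^ 3) by field_simp; ring,
      ← mul_div_assoc, div_le_div_iff₀ hm (by positivity)]
    rw [← sq_abs S]
    nlinarith [mul_nonneg hm.le key]
  have t3 : 2 / m' ^ 2 * ∑ t ∈ A, inM G t e ^ 2 ≤
      16 / mG G ^ 2 * ((∑ t ∈ A, inW G t e ^ 2) + (triangles G).card * inL G e ^ 2) := by
    have hc : 2 / m' ^ 2 ≤ 8 / mG G ^ 2 := by
      rw [div_le_div_iff₀ (by positivity) (by positivity)]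
      nlinarith
    refine (mul_le_mul hc hN (sum_nonneg fun _ _ => sq_nonneg _) (by positivity)).trans_eq ?_
    ring
  have t4 : (A.card : ℝ) * S ^ 2 ≤ (triangles G).card * S ^ 2 :=
    mul_le_mul_of_nonneg_right hcard (sq_nonneg _)
  rw [show 23040 / mG G ^ 3 * cse ^ 2 = 23040 * cse ^ 2 / mG G ^ 3 by ring]
  nlinarith [mul_nonneg hm.le (sq_nonneg (forceM G M e))]

lemma sum_y_pow_le (h : Stage G) {k : ℕ} (hk : k + 1 ≤ 2 * K + 2) :
    ∑ e ∈ G, (cod G e : ℝ) * rel G e ^ k ≤ G.card * mG G * Rest G M := by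
  have := X_le_Rest (G := G) (M := M) hk
  rw [X, avgE, div_le_iff₀ h.E_pos] at this
  have e1 : ∑ e ∈ G, (cod G e : ℝ) * rel G e ^ k = mG G * ∑ e ∈ G, rel G e ^ (k + 1) := by
    rw [mul_sum]
    refine sum_congr rfl fun e _ => ?_
    have hY : (cod G e : ℝ) = mG G * rel G e := by
      have := h.m_pos.ne'
      rw [rel]; field_simp
    rw [hY, pow_succ]; ring
  rw [e1]
  nlinarith [mul_le_mul_of_nonneg_left this h.m_pos.le]

lemma sum_y_w_le (h : Stage G) {a b : ℕ} (ha : a + 1 ≤ K + 1) (hb : 2 * b ≤ K) :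
    ∑ e ∈ G, (cod G e : ℝ) * (rel G e ^ a * (mG G * M e ^ 2) ^ b) ≤
      G.card * mG G * Rest G M := by
  have := mixed_le (G := G) (M := M) ha hb
  rw [avgE, div_le_iff₀ h.E_pos] at this
  have e1 : ∑ e ∈ G, (cod G e : ℝ) * (rel G e ^ a * (mG G * M e ^ 2) ^ b) =
      mG G * ∑ e ∈ G, rel G e ^ (a + 1) * (mG G * M e ^ 2) ^ b := by
    rw [mul_sum]
    refine sum_congr rfl fun e _ => ?_
    have hY : (cod G e : ℝ) = mG G * rel G e := by
      have := h.m_pos.ne'
      rw [rel]; field_simp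
    rw [hY, pow_succ]; ring
  rw [e1]
  nlinarith [mul_le_mul_of_nonneg_left this h.m_pos.le]

lemma force_sq_le (h : Stage G) :
    ∑ e ∈ G, forceM G M e ^ 2 ≤ 20000000000 * ((G.card : ℝ) * mG G * Rest G M / rt G ^ 4) := by
  have hm := h.m_pos; have hE := h.E_pos; have hr := h.rt_pos
  obtain ⟨w, hw⟩ : ∃ w : Sym2 (Fin n) → ℝ, w = fun e => mG G * M e ^ 2 := ⟨_, rfl⟩
  have hw0 : ∀ e, 0 ≤ w e := fun e => by rw [hw]; positivity
  -- one edge
  have one : ∑ e ∈ G, forceM G M e ^ 2 ≤ 36 *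
      ∑ u ∈ triangles G, cs G u * (∑ f ∈ edgesOf u, dev G f ^ 2) * ∑ f ∈ edgesOf u, M f ^ 2 := by
    have h0 : ∑ e ∈ G, forceM G M e ^ 2 ≤
        ∑ e ∈ G, ∑ u ∈ star G e, (cod G e : ℝ) * (side (dev G) u e * side M u e) ^ 2 := by
      refine sum_le_sum fun e _ => ?_
      rw [← mul_sum, ← card_star]
      exact sq_sum_le_card_mul_sum_sq
    refine h0.trans ?_
    rw [sum_star_eq, mul_sum]
    refine sum_le_sum fun u hu => ?_
    refine (sum_le_sum fun e he => mul_le_mul_of_nonneg_right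
      (single_le_sum (f := fun e => (cod G e : ℝ)) (fun _ _ => Nat.cast_nonneg _) he)
      (sq_nonneg _)).trans ?_
    rw [← mul_sum, show (36 : ℝ) * (cs G u * (∑ f ∈ edgesOf u, dev G f ^ 2) *
        ∑ f ∈ edgesOf u, M f ^ 2) =
      cs G u * ((6 * ∑ f ∈ edgesOf u, dev G f ^ 2) * (6 * ∑ f ∈ edgesOf u, M f ^ 2)) by ring]
    refine mul_le_mul_of_nonneg_left ?_ (cs_nonneg G u)
    refine le_trans (sum_le_sum fun e _ => (mul_pow _ _ 2).le) ?_
    refine le_trans ?_ (mul_le_mul (side_sq_sum_le (dev G) hu) (side_sq_sum_le M hu)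
      (sum_nonneg fun _ _ => sq_nonneg _) (by positivity))
    rw [sum_mul_sum]
    exact sum_le_sum fun e he => single_le_sum
      (f := fun e' => side (dev G) u e ^ 2 * side M u e' ^ 2) (fun _ _ => by positivity) he
  -- one triangle
  have tri : ∀ u ∈ triangles G,
      cs G u * (∑ f ∈ edgesOf u, dev G f ^ 2) * (∑ f ∈ edgesOf u, M f ^ 2) ≤
        ∑ f ∈ edgesOf u, (2 * mG G / rt G ^ 14 * Dv G M f ^ 2 +
          100000000 / rt G ^ 4 * (1 + rel G f ^ 8 + w f ^ 8)) := by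
    intro u hu
    obtain ⟨s, hs⟩ : ∃ s, s = ∑ f ∈ edgesOf u, (1 + rel G f + w f) := ⟨_, rfl⟩
    obtain ⟨Ys, hYs⟩ : ∃ Ys, Ys = ∑ f ∈ edgesOf u, rel G f := ⟨_, rfl⟩
    obtain ⟨Ws, hWs⟩ : ∃ Ws, Ws = ∑ f ∈ edgesOf u, w f := ⟨_, rfl⟩
    obtain ⟨Ds, hDs⟩ : ∃ Ds, Ds = ∑ f ∈ edgesOf u, Dv G M f ^ 2 := ⟨_, rfl⟩
    have hY0 : 0 ≤ Ys := hYs ▸ sum_nonneg fun f _ => rel_nonneg G f
    have hW0 : 0 ≤ Ws := hWs ▸ sum_nonneg fun f _ => hw0 f
    have hD0 : 0 ≤ Ds := hDs ▸ sum_nonneg fun f _ => sq_nonneg _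
    have hsY : Ys ≤ s ∧ Ws ≤ s ∧ 3 ≤ s := by
      rw [hs, sum_add_distrib, sum_add_distrib, sum_const, card_edgesOf (card3_of_mem hu),
        ← hYs, ← hWs, nsmul_eq_mul]
      push_cast
      refine ⟨?_, ?_, ?_⟩ <;> linarith
    obtain ⟨hs1, hs2, hs3⟩ := hsY
    have hs0 : 0 ≤ s := by linarith
    have ecs : cs G u = mG G * Ys := by
      rw [hYs, cs, mul_sum]
      refine sum_congr rfl fun f _ => ?_
      rw [rel]; field_simp
    have eM : ∑ f ∈ edgesOf u, M f ^ 2 = Ws / mG G := by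
      rw [hWs, sum_div, hw]
      refine sum_congr rfl fun f _ => ?_
      field_simp
    have hd : ∑ f ∈ edgesOf u, dev G f ^ 2 ≤ 2 * Ds + 2 * (Ws / mG G) := by
      rw [← eM, hDs, mul_sum, mul_sum, ← sum_add_distrib]
      refine sum_le_sum fun f _ => ?_
      rw [show dev G f = Dv G M f + M f by rw [Dv]; ring]
      exact (add_sq_le).trans_eq (by ring)
    have hDs3 : Ds ≤ 9 * s ^ 2 := by
      rw [hDs]
      refine (sum_le_card_nsmul _ _ (3 * s ^ 2) fun f hf => ?_).trans_eq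
        (by rw [card_edgesOf (card3_of_mem hu), nsmul_eq_mul]; push_cast; ring)
      have h1 : 1 + rel G f + w f ≤ s := hs ▸
        single_le_sum (f := fun f => 1 + rel G f + w f)
          (fun f _ => by linarith [rel_nonneg G f, hw0 f]) hf
      have h2 : M f ^ 2 ≤ w f := by
        rw [hw]; exact le_mul_of_one_le_left (sq_nonneg _) h.one_le_m
      have := rel_nonneg G f
      rw [Dv, dev_eq]
      nlinarith [sq_nonneg (rel G f + M f), sq_nonneg (rel G f + 1), sq_nonneg (M f - 1),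
        mul_nonneg (sub_nonneg.2 h1) (show 0 ≤ s + (1 + rel G f + w f) by linarith [hw0 f]), hw0 f]
    have mt := mul_threshold Ds (z := Ys * (Ws / mG G)) (τ := 1 / rt G ^ 14) hD0 (by positivity)
      (by positivity) 2
    rw [ecs, eM]
    have hpoly : Ys * Ws ^ 2 ≤ s ^ 8 ∧ Ds * (Ys * Ws) ^ 3 ≤ 9 * s ^ 8 := by
      constructor
      · calc Ys * Ws ^ 2 ≤ s * s ^ 2 := by gcongr
          _ = s ^ 3 := by ring
          _ ≤ s ^ 8 := pow_le_pow_right₀ (by linarith) (by norm_num)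
      · calc Ds * (Ys * Ws) ^ 3 ≤ 9 * s ^ 2 * (s * s) ^ 3 := by gcongr
          _ = _ := by ring
    have hs8 : s ^ 8 ≤ ∑ f ∈ edgesOf u, 3 ^ 7 * (3 ^ 7 * (1 + rel G f ^ 8 + w f ^ 8)) := by
      rw [hs]
      refine (pow_sum_le_card_mul_sum_pow (fun f _ => by linarith [rel_nonneg G f, hw0 f]) 7).trans ?_
      rw [card_edgesOf (card3_of_mem hu), mul_sum]
      push_cast
      refine sum_le_sum fun f _ => mul_le_mul_of_nonneg_left ?_ (by norm_num)
      have h3 := pow_sum_le_card_mul_sum_pow (s := (Finset.univ : Finset (Fin 3)))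
        (f := ![1, rel G f, w f]) (fun i _ => by
          fin_cases i
          · simp
          · simpa using rel_nonneg G f
          · simpa using hw0 f) 7
      simpa [Fin.sum_univ_three] using h3
    have hm1 := h.one_le_m
    calc mG G * Ys * (∑ f ∈ edgesOf u, dev G f ^ 2) * (Ws / mG G)
        ≤ mG G * Ys * (2 * Ds + 2 * (Ws / mG G)) * (Ws / mG G) := by gcongr
      _ = 2 * mG G * (Ds * (Ys * (Ws / mG G))) + 2 / mG G * (Ys * Ws ^ 2) := by
          field_simp
      _ ≤ 2 * mG G * (1 / rt G ^ 14 * Ds + Ds * ((Ys * (Ws / mG G)) ^ (2 + 1) / (1 / rt G ^ 14) ^ 2)) +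
            2 / mG G * (Ys * Ws ^ 2) := by gcongr
      _ = 2 * mG G / rt G ^ 14 * Ds +
            (2 / rt G ^ 4 * (Ds * (Ys * Ws) ^ 3) + 2 / mG G * (Ys * Ws ^ 2)) := by
          rw [← rt_pow]
          simp only [div_pow, mul_pow, one_pow]
          field_simp; ring
      _ ≤ 2 * mG G / rt G ^ 14 * Ds + 20 / rt G ^ 4 * s ^ 8 := by
          have h4 : 2 / mG G ≤ 2 / rt G ^ 4 := by
            rw [← rt_pow]; gcongr
            · exact h.one_le_rt
            · norm_num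
          have := mul_le_mul h4 hpoly.1 (by positivity) (by positivity)
          have := mul_le_mul_of_nonneg_left hpoly.2 (show 0 ≤ 2 / rt G ^ 4 by positivity)
          rw [show 20 / rt G ^ 4 * s ^ 8 = 2 / rt G ^ 4 * (9 * s ^ 8) + 2 / rt G ^ 4 * s ^ 8 by ring]
          linarith
      _ ≤ 2 * mG G / rt G ^ 14 * Ds +
            20 / rt G ^ 4 * ∑ f ∈ edgesOf u, 3 ^ 7 * (3 ^ 7 * (1 + rel G f ^ 8 + w f ^ 8)) := by
          gcongr
      _ ≤ _ := by
          rw [hDs, mul_sum, mul_sum, sum_add_distrib]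
          refine add_le_add le_rfl (sum_le_sum fun f _ => ?_)
          have : 0 ≤ 1 / rt G ^ 4 * (1 + rel G f ^ 8 + w f ^ 8) := by
            have := rel_nonneg G f; have := hw0 f; positivity
          rw [show 20 / rt G ^ 4 * (3 ^ 7 * (3 ^ 7 * (1 + rel G f ^ 8 + w f ^ 8))) =
            95659380 * (1 / rt G ^ 4 * (1 + rel G f ^ 8 + w f ^ 8)) by ring,
            show 100000000 / rt G ^ 4 * (1 + rel G f ^ 8 + w f ^ 8) =
            100000000 * (1 / rt G ^ 4 * (1 + rel G f ^ 8 + w f ^ 8)) by ring]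
          linarith
  refine one.trans ((mul_le_mul_of_nonneg_left (sum_le_sum tri) (by norm_num)).trans ?_)
  rw [swap_sum G fun f => 2 * mG G / rt G ^ 14 * Dv G M f ^ 2 +
    100000000 / rt G ^ 4 * (1 + rel G f ^ 8 + w f ^ 8)]
  have e1 : ∑ e ∈ G, (cod G e : ℝ) * (2 * mG G / rt G ^ 14 * Dv G M e ^ 2 +
      100000000 / rt G ^ 4 * (1 + rel G e ^ 8 + w e ^ 8)) =
      2 * mG G / rt G ^ 14 * ((G.card : ℝ) * (mG G * avgE G fun e => Dv G M e ^ 2 * rel G e ^ 1)) +
        100000000 / rt G ^ 4 * (∑ e ∈ G, (cod G e : ℝ) * rel G e ^ 0 +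
          ∑ e ∈ G, (cod G e : ℝ) * rel G e ^ 8 +
          ∑ e ∈ G, (cod G e : ℝ) * (rel G e ^ 0 * (mG G * M e ^ 2) ^ 8)) := by
    rw [avgE, mul_left_comm (G.card : ℝ), mul_div_cancel₀ _ hE.ne', mul_sum, mul_sum,
      ← sum_add_distrib, ← sum_add_distrib, mul_sum, ← sum_add_distrib]
    refine sum_congr rfl fun e _ => ?_
    rw [hw, pow_one, rel]; field_simp
  rw [e1]
  have a1 := avg_Dsq_rel_le (M := M) h (a := 1) (by norm_num [K])
  have a2 := sum_y_pow_le (M := M) h (k := 0) (by norm_num [K])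
  have a3 := sum_y_pow_le (M := M) h (k := 8) (by norm_num [K])
  have a4 := sum_y_w_le (M := M) h (a := 0) (b := 8) (by norm_num [K]) (by norm_num [K])
  have hR := Rest_nonneg (G := G) (M := M)
  calc 36 * (2 * mG G / rt G ^ 14 * ((G.card : ℝ) * (mG G * avgE G fun e => Dv G M e ^ 2 * rel G e ^ 1)) +
        100000000 / rt G ^ 4 * (∑ e ∈ G, (cod G e : ℝ) * rel G e ^ 0 +
          ∑ e ∈ G, (cod G e : ℝ) * rel G e ^ 8 +
          ∑ e ∈ G, (cod G e : ℝ) * (rel G e ^ 0 * (mG G * M e ^ 2) ^ 8)))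
      ≤ 36 * (2 * mG G / rt G ^ 14 * ((G.card : ℝ) * (309 * (rt G * Rest G M))) +
        100000000 / rt G ^ 4 * (G.card * mG G * Rest G M + G.card * mG G * Rest G M +
          G.card * mG G * Rest G M)) := by gcongr
    _ = 22248 * ((G.card : ℝ) * mG G * Rest G M / rt G ^ 13) +
        10800000000 * ((G.card : ℝ) * mG G * Rest G M / rt G ^ 4) := by field_simp; ring
    _ ≤ 22248 * ((G.card : ℝ) * mG G * Rest G M / rt G ^ 4) +
        10800000000 * ((G.card : ℝ) * mG G * Rest G M / rt G ^ 4) := by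
      gcongr
      · exact h.one_le_rt
      · norm_num
    _ ≤ _ := by
      have : 0 ≤ (G.card : ℝ) * mG G * Rest G M / rt G ^ 4 := by positivity
      linarith

lemma lost_sq_le (h : Stage G) :
    ∑ e ∈ G, ∑ u ∈ star G e, cs G u * side M u e ^ 2 ≤ 18 * ((G.card : ℝ) * mG G * Rest G M) := by
  have hm := h.m_pos
  rw [sum_star_eq]
  calc ∑ u ∈ triangles G, ∑ e ∈ edgesOf u, cs G u * side M u e ^ 2
      ≤ ∑ u ∈ triangles G, 6 * ((∑ e ∈ edgesOf u, rel G e) *
          ∑ e ∈ edgesOf u, mG G * M e ^ 2) := by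
        refine sum_le_sum fun u hu => ?_
        rw [← mul_sum]
        refine (mul_le_mul_of_nonneg_left (side_sq_sum_le M hu) (cs_nonneg G u)).trans_eq ?_
        have e1 : cs G u = mG G * ∑ e ∈ edgesOf u, rel G e := by
          rw [cs, mul_sum]
          refine sum_congr rfl fun f _ => ?_
          rw [rel]; field_simp
        rw [e1, ← mul_sum]; ring
    _ ≤ 6 * (3 / 2 * ∑ e ∈ G, (cod G e : ℝ) * (rel G e ^ 2 + (mG G * M e ^ 2) ^ 2)) := by
        rw [← mul_sum]
        exact mul_le_mul_of_nonneg_left (sum_tri_mul_le G _ _) (by norm_num)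
    _ ≤ _ := by
        have a3 := sum_y_pow_le (M := M) h (k := 2) (by norm_num [K])
        have a4 := sum_y_w_le (M := M) h (a := 0) (b := 2) (by norm_num [K]) (by norm_num [K])
        simp only [pow_zero, one_mul] at a4
        simp only [mul_add, sum_add_distrib]
        linarith

lemma bias_sq_le (h : Stage G) :
    ∑ e ∈ G, (∑ u ∈ star G e, cs G u) ^ 2 ≤ 9 * ((G.card : ℝ) * mG G ^ 4 * Rest G M) := by
  refine (sum_le_sum fun e _ => sq_sum_le_card_mul_sum_sq).trans ?_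
  simp only [card_star, mul_sum]
  rw [sum_star_eq]
  refine (sum_le_sum fun u _ => ?_).trans (sum_cs_pow_le (M := M) h (j := 2) (by norm_num [K]) |>.trans_eq (by ring))
  rw [← sum_mul, show (∑ e ∈ edgesOf u, (cod G e : ℝ)) = cs G u from rfl]
  exact le_of_eq (by ring)

lemma mean_sq_le (h : Stage G) :
    ∑ e ∈ G, inL G e ^ 2 ≤ 3000 * (mG G ^ 4 * Rest G M / G.card) := by
  have hm := h.m_pos; have hE := h.E_pos; have hT := h.T_pos
  have hc := fun e : Sym2 (Fin n) => (Nat.cast_nonneg (α := ℝ) (cod G e))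
  -- pass to squares of the mean losses
  have step1 : ∑ e ∈ G, inL G e ^ 2 ≤
      2 * ∑ f ∈ G, lam G f ^ 2 * ∑ u ∈ star G f, cs G u := by
    refine (sum_le_sum fun e _ => sq_sum_le_card_mul_sum_sq).trans ?_
    simp only [card_star, mul_sum]
    rw [sum_star_eq, sum_star_eq]
    refine sum_le_sum fun u hu => ?_
    refine (sum_le_sum fun e he => mul_le_mul_of_nonneg_left ?_ (hc e)).trans
      (le_of_eq (?_ : ∑ e ∈ edgesOf u, (cod G e : ℝ) * (2 * ∑ f ∈ edgesOf u, lam G f ^ 2) = _))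
    · have h1 := sq_sum_le_card_mul_sum_sq (s := (edgesOf u).erase e) (f := lam G)
      rw [card_erase_of_mem he, card_edgesOf (card3_of_mem hu)] at h1
      push_cast at h1
      refine h1.trans ?_
      gcongr
      exact erase_subset _ _
    · rw [← sum_mul, cs]
      simp only [mul_sum, sum_mul]
      exact sum_congr rfl fun f _ => sum_congr rfl fun e _ => by ring
  have step2 : ∀ f ∈ G, lam G f ^ 2 * (∑ u ∈ star G f, cs G u) ≤
      (∑ u ∈ star G f, (cod G f : ℝ) ^ 2 * cs G u ^ 3) / ((triangles G).card : ℝ) ^ 2 := by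
    intro f _
    have hl : lam G f * (triangles G).card ≤ ∑ u ∈ star G f, cs G u := by
      rw [lam_mul h]
      exact sum_le_sum fun u _ => by linarith [hc f]
    have h0 : 0 ≤ ∑ u ∈ star G f, cs G u := sum_nonneg fun u _ => cs_nonneg G u
    have h3 := pow_sum_le_card_mul_sum_pow (s := star G f) (f := cs G) (fun u _ => cs_nonneg G u) 2
    rw [card_star, mul_sum] at h3
    rw [le_div_iff₀ (by positivity)]
    calc lam G f ^ 2 * (∑ u ∈ star G f, cs G u) * ((triangles G).card : ℝ) ^ 2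
        = (lam G f * (triangles G).card) ^ 2 * ∑ u ∈ star G f, cs G u := by ring
      _ ≤ (∑ u ∈ star G f, cs G u) ^ 2 * ∑ u ∈ star G f, cs G u := by
          have := lam_nonneg G f
          gcongr
      _ = (∑ u ∈ star G f, cs G u) ^ (2 + 1) := by ring
      _ ≤ _ := h3
  have step3 : ∑ f ∈ G, (∑ u ∈ star G f, (cod G f : ℝ) ^ 2 * cs G u ^ 3) ≤
      81 * ((G.card : ℝ) * mG G ^ 6 * Rest G M) := by
    rw [sum_star_eq]
    refine (sum_le_sum fun u _ => ?_).trans (sum_cs_pow_le (M := M) h (j := 4) (by norm_num [K]) |>.trans_eq (by ring))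
    rw [← sum_mul]
    have : ∑ f ∈ edgesOf u, (cod G f : ℝ) ^ 2 ≤ cs G u ^ 2 :=
      sum_sq_le_sq_sum_of_nonneg fun f _ => hc f
    calc (∑ f ∈ edgesOf u, (cod G f : ℝ) ^ 2) * cs G u ^ 3 ≤ cs G u ^ 2 * cs G u ^ 3 :=
          mul_le_mul_of_nonneg_right this (pow_nonneg (cs_nonneg G u) 3)
      _ = _ := by ring
  have hTl : (G.card : ℝ) * mG G / 4 ≤ (triangles G).card := by
    have := abs_le.1 h.abs_mu_le_hundredth
    nlinarith [h.card_T, mul_pos hE hm]
  calc ∑ e ∈ G, inL G e ^ 2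
      ≤ 2 * ((∑ f ∈ G, ∑ u ∈ star G f, (cod G f : ℝ) ^ 2 * cs G u ^ 3) /
          ((triangles G).card : ℝ) ^ 2) := by
        refine step1.trans (mul_le_mul_of_nonneg_left ?_ (by norm_num))
        rw [sum_div]; exact sum_le_sum step2
    _ ≤ 2 * (81 * ((G.card : ℝ) * mG G ^ 6 * Rest G M) / ((G.card : ℝ) * mG G / 4) ^ 2) := by
        have := Rest_nonneg (G := G) (M := M)
        gcongr
    _ = 2592 * (mG G ^ 4 * Rest G M / G.card) := by field_simp; ring
    _ ≤ _ := by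
        have : 0 ≤ mG G ^ 4 * Rest G M / G.card := by
          have := Rest_nonneg (G := G) (M := M); positivity
        linarith

lemma Psi_eq (h : 0 < mG G) : Psi G M = (∑ e ∈ G, sumM G M e ^ 2) / (mG G * G.card) := by
  have e : ∀ e, aM G M e = sumM G M e / mG G := fun e => rfl
  simp only [Psi, avgE, e, div_pow, ← sum_div]
  field_simp

lemma edge_sum (h : Stage G) {m' : ℝ} (hm' : mG G / 2 ≤ m') {CI Wp R : ℝ} (hCI : 0 ≤ CI)
    (hWp : 0 ≤ Wp) (hR : 0 ≤ R)
    (r1 : 20 * mG G * ∑ e ∈ G, forceM G M e ^ 2 ≤ 400000000000 * R)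
    (r2 : 23040 / mG G ^ 3 * ∑ e ∈ G, (∑ u ∈ star G e, cs G u) ^ 2 ≤ 207360 * R)
    (r3 : 6 * ∑ e ∈ G, ∑ u ∈ star G e, cs G u * side M u e ^ 2 ≤ 108 * R)
    (r4 : 16 / mG G ^ 2 * ((∑ e ∈ G, ∑ t ∈ triangles G with e ∉ edgesOf t, inW G t e ^ 2) +
      (triangles G).card * ∑ e ∈ G, inL G e ^ 2) ≤ 16 * CI * (Wp + R) + 96000 * R) :
    ∑ e ∈ G, ∑ t ∈ triangles G with e ∉ edgesOf t,
        (sumM G M e - lostM G M t e - inM G t e / m') ^ 2 ≤
      ((triangles G).card - 157 / 40 * mG G + 4) * ∑ e ∈ G, sumM G M e ^ 2 +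
        (500000000000 + 16 * CI) * (Wp + R) := by
  refine (sum_le_sum fun e _ => edge_bound h hm' e).trans ?_
  rw [sum_add_distrib, sum_add_distrib, sum_add_distrib, sum_add_distrib, ← mul_sum, ← mul_sum,
    ← mul_sum, ← mul_sum, ← mul_sum, sum_add_distrib, ← mul_sum]
  have : (400000000000 + 207360 + 108 + 96000) * R ≤ 500000000000 * (Wp + R) := by linarith
  linarith

lemma psi_coef (h : Stage G) {ρ T : ℝ} (hρ : ρ - 1 - 9 / (G.card : ℝ) ≤ 100 / (G.card : ℝ) ^ 2)
    (hT : T = (triangles G).card) :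
    ρ * (T - 157 / 40 * mG G + 4) ≤ T * (1 - 3 / (G.card : ℝ) * (1 / 2)) ∧
      98 / 100 * mG G ≤ T * (3 / (G.card : ℝ)) := by
  have hm := h.m_pos; have hE := h.E_pos
  obtain ⟨E, hEd⟩ : ∃ E : ℝ, E = G.card := ⟨_, rfl⟩
  obtain ⟨m, hmd⟩ : ∃ m : ℝ, m = mG G := ⟨_, rfl⟩
  obtain ⟨c, hc⟩ : ∃ c : ℝ, c = 1 + mu G := ⟨_, rfl⟩
  have h3T := h.card_T
  have hmu := abs_le.1 h.abs_mu_le_hundredth
  have hm100 : 10000 ≤ m := hmd ▸ h.big.trans
    (rt_pow G ▸ le_self_pow₀ h.one_le_rt (by norm_num))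
  have h1 := h.m_div_E_le'
  rw [← hT, ← hEd, ← hmd, ← hc] at h3T
  rw [← hEd] at hρ hE
  rw [← hmd] at hm
  rw [← hEd, ← hmd, div_le_div_iff₀ hE hm] at h1
  rw [← hEd, ← hmd]
  have hc1 : 99 / 100 ≤ c ∧ c ≤ 101 / 100 := by constructor <;> linarith
  have hE5 : 5000 * m ≤ E := by nlinarith
  obtain ⟨r, hr⟩ : ∃ r, r = T / E := ⟨_, rfl⟩
  have hr1 : r = c * m / 3 := by
    rw [hr, eq_div_iff (by norm_num : (3:ℝ) ≠ 0), div_mul_eq_mul_div, div_eq_iff hE.ne']
    linarith
  have hr2 : 98 / 300 * m ≤ r ∧ r ≤ 338 / 1000 * m := by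
    rw [hr1]; constructor <;> nlinarith [hc1.1, hc1.2]
  refine ⟨?_, ?_⟩
  · have hq : ρ ≤ 1 + 10 / E := by
      have : 100 / E ^ 2 ≤ 1 / E := by
        rw [div_le_div_iff₀ (by positivity) hE]; nlinarith
      have : 9 / E + 1 / E = 10 / E := by ring
      linarith
    have hT4 : 157 / 40 * m ≤ T := by
      have e : T = r * E := by rw [hr, div_mul_cancel₀ _ hE.ne']
      rw [e]; nlinarith [hr2.1]
    refine (mul_le_mul_of_nonneg_right hq (by linarith)).trans ?_
    have e1 : (1 + 10 / E) * (T - 157 / 40 * m + 4) =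
        T + 10 * r - 157 / 40 * m + 4 - (157 * 10 / 40) * (m / E) + 40 / E := by rw [hr]; ring
    have e2 : T * (1 - 3 / E * (1 / 2)) = T - 3 / 2 * r := by rw [hr]; ring
    have : 40 / E ≤ 2 := by rw [div_le_iff₀ hE]; linarith
    have : 0 ≤ m / E := by positivity
    rw [e1, e2]; linarith [hr2.1, hr2.2]
  · rw [show T * (3 / E) = 3 * r by rw [hr]; ring]; linarith [hr2.1]

lemma psi_finish {E m ρ T S P Q c S' CI : ℝ} (hm : 0 < m) (hE : 0 < E) (hρ : 0 < ρ) (hρ2 : ρ ≤ 2)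
    (hcoef : ρ * c ≤ T * (1 - 3 / E * (1 / 2))) (h98 : 98 / 100 * m ≤ T * (3 / E)) (hS : 0 ≤ S)
    (hCI : 0 ≤ CI) (hP : 0 ≤ P) (hQ : Q = E * m * (m * P))
    (hsum : S' ≤ c * S + (500000000000 + 16 * CI) * Q) :
    ρ / (m * E) * S' ≤
      T * (S / (m * E) + 3 / E * (-(S / (m * E)) / 2 + (2000000000000 + 100 * CI) * P)) := by
  have h2 : ρ * ((500000000000 + 16 * CI) * Q) ≤
      T * (3 / E) * (2000000000000 + 100 * CI) * (E * m * P) := by
    rw [hQ]
    calc ρ * ((500000000000 + 16 * CI) * (E * m * (m * P)))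
        ≤ 2 * ((500000000000 + 16 * CI) * (E * m * (m * P))) :=
          mul_le_mul_of_nonneg_right hρ2 (by positivity)
      _ = (2 * (500000000000 + 16 * CI) * m) * (E * m * P) := by ring
      _ ≤ _ := by
          refine mul_le_mul_of_nonneg_right ?_ (by positivity)
          nlinarith [mul_le_mul_of_nonneg_right h98
            (show 0 ≤ 2000000000000 + 100 * CI by linarith)]
  calc ρ / (m * E) * S' = ρ * S' / (m * E) := by ring
    _ ≤ (T * (1 - 3 / E * (1 / 2)) * S + T * (3 / E) * (2000000000000 + 100 * CI) * (E * m * P)) /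
          (m * E) := by
        refine div_le_div_of_nonneg_right ?_ (by positivity)
        calc ρ * S' ≤ ρ * (c * S + (500000000000 + 16 * CI) * Q) :=
              mul_le_mul_of_nonneg_left hsum hρ.le
          _ = ρ * c * S + ρ * ((500000000000 + 16 * CI) * Q) := by ring
          _ ≤ _ := add_le_add (mul_le_mul_of_nonneg_right hcoef hS) h2
    _ = _ := by field_simp; ring

theorem psi_step_of (hI : InjectBound) : PsiStep := by
  obtain ⟨CI, hCI, hI⟩ := hI
  refine ⟨2000000000000 + 100 * CI, by linarith, fun n G M h => driftLE_of_sum h ?_⟩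
  have hm := h.m_pos; have hE := h.E_pos; have hT := h.T_pos; have hE30 := h.big_E
  have hm1 := h.one_le_m; have hr := h.rt_pos
  obtain ⟨q1, _, q2, q3⟩ := q3_bounds hE30
  obtain ⟨ρ, hρ⟩ : ∃ ρ, ρ = 1 / (1 - 3 / (G.card : ℝ)) ^ 3 := ⟨_, rfl⟩
  rw [← hρ] at q1 q2 q3
  obtain ⟨m', hm'⟩ : ∃ m', m' = mG G * (1 - 3 / (G.card : ℝ)) ^ 2 := ⟨_, rfl⟩
  have h3E : 3 / (G.card : ℝ) ≤ 1 / 10 := by rw [div_le_iff₀ hE]; linarith
  have h3E0 : 0 ≤ 3 / (G.card : ℝ) := by positivity
  have hm'2 : mG G / 2 ≤ m' := by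
    rw [hm']
    nlinarith [mul_le_mul_of_nonneg_left (show (1:ℝ) / 2 ≤ (1 - 3 / (G.card : ℝ)) ^ 2 by nlinarith)
      hm.le]
  have hnext : ∀ t ∈ triangles G, Psi (G \ edgesOf t) (stepM G M t) =
      ρ / (mG G * G.card) *
        ∑ e ∈ G \ edgesOf t, (sumM G M e - lostM G M t e - inM G t e / m') ^ 2 := by
    intro t ht
    have e1 : mG (G \ edgesOf t) = m' := by rw [mG_sdiff hE.ne' ht, hm']
    rw [Psi_eq (by rw [e1]; linarith), card_sdiff_edgesOf ht, e1]
    simp only [sumM_sdiff, e1]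
    rw [hm', hρ]
    have : (G.card : ℝ) - 3 ≠ 0 := by linarith
    field_simp
    exact sum_congr rfl fun x _ => by ring
  rw [sum_congr rfl hnext, ← mul_sum, sum_sdiff_eq]
  -- the four error sums
  obtain ⟨Sq, hSq⟩ : ∃ Sq, Sq = ∑ e ∈ G, sumM G M e ^ 2 := ⟨_, rfl⟩
  obtain ⟨R, hR⟩ : ∃ R, R = (G.card : ℝ) * mG G * (mG G * (Rest G M / rt G ^ 4)) := ⟨_, rfl⟩
  obtain ⟨Wp, hWp⟩ : ∃ Wp, Wp = (G.card : ℝ) * mG G * (mG G * Wh G M) := ⟨_, rfl⟩
  have hR0 : 0 ≤ R := by
    rw [hR]; have := Rest_nonneg (G := G) (M := M); positivity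
  have hWp0 : 0 ≤ Wp := by
    rw [hWp]; have := Wh_nonneg (G := G) (M := M); positivity
  have hrm : rt G ^ 4 ≤ mG G := rt_pow G ▸ pow_le_pow_right₀ h.one_le_rt (by norm_num)
  have hB : (G.card : ℝ) * mG G * Rest G M ≤ R := by
    rw [hR, ← mul_div_assoc, mul_comm (mG G) (Rest G M), mul_div_assoc]
    refine mul_le_mul_of_nonneg_left ?_ (by positivity)
    exact le_mul_of_one_le_right Rest_nonneg ((one_le_div (by positivity)).2 hrm)
  have r1 : 20 * mG G * ∑ e ∈ G, forceM G M e ^ 2 ≤ 400000000000 * R := by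
    refine (mul_le_mul_of_nonneg_left (force_sq_le h) (by positivity)).trans_eq ?_
    rw [hR]; ring
  have r2 : 23040 / mG G ^ 3 * ∑ e ∈ G, (∑ u ∈ star G e, cs G u) ^ 2 ≤ 207360 * R := by
    refine (mul_le_mul_of_nonneg_left (bias_sq_le (M := M) h) (by positivity)).trans ?_
    refine le_trans (le_of_eq ?_) (mul_le_mul_of_nonneg_left hB (by norm_num))
    field_simp; ring
  have r3 : 6 * ∑ e ∈ G, ∑ u ∈ star G e, cs G u * side M u e ^ 2 ≤ 108 * R := by
    refine (mul_le_mul_of_nonneg_left (lost_sq_le h) (by norm_num)).trans ?_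
    linarith
  have hTle : ((triangles G).card : ℝ) ≤ G.card * mG G := by
    have := abs_le.1 h.abs_mu_le_hundredth
    nlinarith [h.card_T, mul_pos hE hm]
  have r4 : 16 / mG G ^ 2 * ((∑ e ∈ G, ∑ t ∈ triangles G with e ∉ edgesOf t, inW G t e ^ 2) +
      (triangles G).card * ∑ e ∈ G, inL G e ^ 2) ≤ 16 * CI * (Wp + R) + 96000 * R := by
    rw [mul_add]
    refine add_le_add ?_ ?_
    · rw [← sum_sdiff_eq G fun t e => inW G t e ^ 2]
      refine (mul_le_mul_of_nonneg_left (hI n G M h) (by positivity)).trans_eq ?_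
      rw [hWp, hR]; field_simp
    · refine (mul_le_mul_of_nonneg_left (mul_le_mul hTle (mean_sq_le (M := M) h)
        (sum_nonneg fun _ _ => sq_nonneg _) (by positivity)) (by positivity)).trans ?_
      have hme := h.m_div_E_le'
      calc 16 / mG G ^ 2 * ((G.card : ℝ) * mG G * (3000 * (mG G ^ 4 * Rest G M / G.card)))
          = 48000 * ((G.card : ℝ) * mG G ^ 2 * Rest G M) * (mG G / G.card) := by field_simp; ring
        _ ≤ 48000 * ((G.card : ℝ) * mG G ^ 2 * Rest G M) * (2 / mG G) := by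
            have := Rest_nonneg (G := G) (M := M)
            gcongr
        _ = 96000 * ((G.card : ℝ) * mG G * Rest G M) := by field_simp; ring
        _ ≤ _ := by linarith
  have hsum : ∑ e ∈ G, ∑ t ∈ triangles G with e ∉ edgesOf t,
      (sumM G M e - lostM G M t e - inM G t e / m') ^ 2 ≤
      ((triangles G).card - 157 / 40 * mG G + 4) * Sq +
        (500000000000 + 16 * CI) * (Wp + R) :=
    (edge_sum h hm'2 hCI hWp0 hR0 r1 r2 r3 r4).trans_eq (by rw [hSq])
  -- the factor of the square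
  obtain ⟨T, hTd⟩ : ∃ T : ℝ, T = (triangles G).card := ⟨_, rfl⟩
  rw [← hTd] at hsum hT ⊢
  have hq0 := q2
  obtain ⟨hcoef, h98⟩ := psi_coef h (by rw [← hρ] at *; exact (abs_le.1 q1).2) hTd
  have hSq0 : 0 ≤ Sq := hSq ▸ sum_nonneg fun _ _ => sq_nonneg _
  have hP0 : 0 ≤ Wh G M + Rest G M / rt G ^ 4 :=
    add_nonneg Wh_nonneg (div_nonneg Rest_nonneg (by positivity))
  have hZ : Wp + R = (G.card : ℝ) * mG G * (mG G * (Wh G M + Rest G M / rt G ^ 4)) := by
    rw [hWp, hR]; ring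
  rw [Psi_eq hm, ← hSq]
  exact psi_finish hm hE hq0 q3 hcoef h98 hSq0 hCI hP0 hZ hsum

theorem psiStep : PsiStep := psi_step_of injectBound

end Vale.Agent.P046.Lin
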