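import Vale.Agent.P046.Lin.Tools

/-!
The two weighted squares of the deviation of the triangle count.
-/

namespace Vale.Agent.P046.Lin

open Finset
open Track
open scoped Classical

variable {n : ℕ} {G : Finset (Sym2 (Fin n))} {M : Sym2 (Fin n) → ℝ}

/-- The mean square deviation is measured by `Rest`. -/
lemma avg_dev_sq_le (h : Stage G) :
    mG G * avgE G (fun e => dev G e ^ 2) ≤ 602 * Rest G M := by
  have h1 : mG G * avgE G (fun e => dev G e ^ 2) ≤
      2 * (mG G * avgE G (fun e => Dv G M e ^ 2)) +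
        2 * avgE G (fun e => rel G e ^ 0 * (mG G * M e ^ 2) ^ 1) := by
    rw [← avgE_mul, ← avgE_mul (mG G) fun e => Dv G M e ^ 2, ← avgE_mul, ← avgE_mul, ← avgE_add]
    refine avgE_mono fun e _ => ?_
    rw [show dev G e = Dv G M e + M e by rw [Dv]; ring, pow_zero, pow_one, one_mul]
    nlinarith [mul_le_mul_of_nonneg_left (add_sq_le (a := Dv G M e) (b := M e)) h.m_pos.le]
  have := avg_Dsq_le (M := M) h
  have := mixed_le (G := G) (M := M) (a := 0) (b := 1) (by norm_num [K]) (by norm_num [K])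
  linarith

lemma mu_step (h : Stage G) {t : Finset (Fin n)} (ht : t ∈ triangles G) :
    mu (G \ edgesOf t) - mu G = (1 / (1 - 3 / (G.card : ℝ)) ^ 3 - 1) * (1 + mu G) -
      1 / (1 - 3 / (G.card : ℝ)) ^ 3 * (3 / (G.card * mG G)) * kill G t := by
  have hE := h.E_pos; have := h.m_pos
  have : (G.card : ℝ) - 3 ≠ 0 := by linarith [h.big_E]
  rw [mu, mu, mG_sdiff hE.ne' ht, card_sdiff_edgesOf ht, card_triangles_sdiff]
  field_simp
  ring

lemma mean_arith {E m μ v q R : ℝ} (hE : 0 < E) (hE30 : 30 ≤ E) (hm : 0 < m) (hm1 : 1 ≤ m) (hmE : m ≤ E)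
    (hR : 1 ≤ R) (hv0 : 0 ≤ v) (hvR : v ≤ 602 * (R / m)) (hmu : -(1 / 100) ≤ μ ∧ μ ≤ 1 / 100)
    (q1 : |q - 1 - 9 / E| ≤ 100 / E ^ 2) (q2 : |q - 1| ≤ 13 / E) (q0 : 0 < q) (q3 : q ≤ 2) :
    |9 / E * ((μ ^ 2 - v) / (1 + μ)) + (q - 1 - 9 / E) * (1 + μ) -
        (q - 1) * (9 / E) * ((1 + 2 * μ + v) / (1 + μ)) + q * (6 / (E * m))| ≤
      160000 / E * (μ ^ 2 + R / m) := by
  have hτ : 0 < 1 + μ := by linarith
  have p1 : |(μ ^ 2 - v) / (1 + μ)| ≤ 2 * (μ ^ 2 + v) := by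
    rw [abs_div, abs_of_pos hτ, div_le_iff₀ hτ]
    have h1 : |μ ^ 2 - v| ≤ μ ^ 2 + v := abs_le.2 ⟨by linarith [sq_nonneg μ], by linarith⟩
    have h2 : μ ^ 2 + v ≤ 2 * (μ ^ 2 + v) * (1 + μ) :=
      le_of_le_of_eq (le_mul_of_one_le_right (by linarith [sq_nonneg μ])
        (show 1 ≤ 2 * (1 + μ) by linarith)) (by ring)
    linarith
  have p3 : |(1 + 2 * μ + v) / (1 + μ)| ≤ 2 * (2 + v) := by
    rw [abs_div, abs_of_pos hτ, div_le_iff₀ hτ, abs_of_nonneg (by linarith)]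
    have : 2 + v ≤ 2 * (2 + v) * (1 + μ) :=
      le_of_le_of_eq (le_mul_of_one_le_right (by linarith) (show 1 ≤ 2 * (1 + μ) by linarith))
        (by ring)
    linarith
  have i1 : 1 / E ≤ 1 / m := one_div_le_one_div_of_le hm hmE
  obtain ⟨a, ha⟩ : ∃ a, a = 1 / E := ⟨_, rfl⟩
  obtain ⟨b, hb⟩ : ∃ b, b = R / m := ⟨_, rfl⟩
  obtain ⟨c, hc⟩ : ∃ c, c = 1 / m := ⟨_, rfl⟩
  have ha0 : 0 ≤ a := by rw [ha]; positivity
  have hc0 : 0 ≤ c := by rw [hc]; positivity
  have hcb : c ≤ b := by rw [hb, hc]; gcongr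
  have hc1 : c ≤ 1 := by rw [hc]; exact (div_le_one hm).2 hm1
  have hac : a ≤ c := by rw [ha, hc]; exact i1
  rw [← hb] at hvR ⊢
  rw [show 9 / E = 9 * a by rw [ha]; ring] at q1 ⊢
  rw [show 13 / E = 13 * a by rw [ha]; ring] at q2
  rw [show 100 / E ^ 2 = 100 * a * a by rw [ha]; ring] at q1
  rw [show 6 / (E * m) = 6 * (a * c) by rw [ha, hc]; ring, show 160000 / E = 160000 * a by rw [ha]; ring]
  refine (abs_add_le _ _).trans (le_trans (add_le_add ((abs_sub _ _).trans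
    (add_le_add (abs_add_le _ _) le_rfl)) le_rfl) ?_)
  have t1 : |9 * a * ((μ ^ 2 - v) / (1 + μ))| ≤ 18 * (a * μ ^ 2) + 18 * (a * v) := by
    rw [abs_mul, abs_of_nonneg (by positivity : 0 ≤ 9 * a)]
    exact (mul_le_mul_of_nonneg_left p1 (by positivity)).trans_eq (by ring)
  have t2 : |(q - 1 - 9 * a) * (1 + μ)| ≤ 200 * (a * c) := by
    rw [abs_mul, abs_of_pos hτ]
    calc _ ≤ 100 * a * a * 2 := mul_le_mul q1 (by linarith) hτ.le (by positivity)
      _ ≤ 100 * a * c * 2 := by gcongr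
      _ = _ := by ring
  have t3 : |(q - 1) * (9 * a) * ((1 + 2 * μ + v) / (1 + μ))| ≤ 468 * (a * c) + 234 * (a * (c * v)) := by
    rw [abs_mul, abs_mul, abs_of_nonneg (by positivity : 0 ≤ 9 * a)]
    calc _ ≤ 13 * a * (9 * a) * (2 * (2 + v)) := by gcongr
      _ ≤ 13 * a * (9 * c) * (2 * (2 + v)) := by gcongr
      _ = _ := by ring
  have t4 : |q * (6 * (a * c))| ≤ 12 * (a * c) := by
    rw [abs_of_nonneg (by positivity)]
    calc _ ≤ 2 * (6 * (a * c)) := by gcongr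
      _ = _ := by ring
  have z1 := mul_le_mul_of_nonneg_left hcb ha0
  have z2 := mul_le_mul_of_nonneg_left hvR ha0
  have z3 : a * (c * v) ≤ a * v := mul_le_mul_of_nonneg_left (mul_le_of_le_one_left hv0 hc1) ha0
  have z4 : 0 ≤ a * μ ^ 2 := by positivity
  have z5 : 0 ≤ a * b := mul_nonneg ha0 (hc0.trans hcb)
  linarith

/-- The mean and mean square of the one-step change of the triangle deviation. -/
lemma mu_moments (h : Stage G) :
    |∑ t ∈ triangles G, (mu (G \ edgesOf t) - mu G)| ≤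
        (triangles G).card * (160000 / G.card * (mu G ^ 2 + Rest G M / mG G)) ∧
      ∑ t ∈ triangles G, (mu (G \ edgesOf t) - mu G) ^ 2 ≤
        (triangles G).card * (2000 / (G.card : ℝ) ^ 2 * Rest G M) := by
  obtain ⟨E, hEdef⟩ : ∃ E : ℝ, E = G.card := ⟨_, rfl⟩
  obtain ⟨m, hmdef⟩ : ∃ m : ℝ, m = mG G := ⟨_, rfl⟩
  obtain ⟨T, hTdef⟩ : ∃ T : ℝ, T = (triangles G).card := ⟨_, rfl⟩
  obtain ⟨R, hRdef⟩ : ∃ R : ℝ, R = Rest G M := ⟨_, rfl⟩
  obtain ⟨v, hv⟩ : ∃ v, v = avgE G fun e => dev G e ^ 2 := ⟨_, rfl⟩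
  have hE : 0 < E := hEdef ▸ h.E_pos
  have hm : 0 < m := hmdef ▸ h.m_pos
  have hT : 0 < T := hTdef ▸ h.T_pos
  have hE30 : 30 ≤ E := hEdef ▸ h.big_E
  have hR1 : 1 ≤ R := hRdef ▸ one_le_Rest
  have hm1 : 1 ≤ m := hmdef ▸ h.one_le_m
  have hmE : m ≤ E := by
    have h2 : (10000 : ℝ) ≤ mG G :=
      h.big.trans (rt_pow G ▸ le_self_pow₀ h.one_le_rt (by norm_num))
    have h1 := h.m_div_E_le'
    rw [div_le_div_iff₀ h.E_pos h.m_pos, ← hmdef, ← hEdef] at h1
    rw [← hmdef] at h2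
    nlinarith
  obtain ⟨q1, q2, q0, q3⟩ := q3_bounds hE30
  have hmu := abs_le.1 h.abs_mu_le_hundredth
  have hTeq : T = (1 + mu G) * (E * m) / 3 := by
    have := h.card_T; rw [← hTdef, ← hEdef, ← hmdef] at this; linarith
  generalize hq : 1 / (1 - 3 / E) ^ 3 = q at *
  have inc : ∀ t ∈ triangles G, mu (G \ edgesOf t) - mu G =
      (q - 1) * (1 + mu G) - q * (3 / (E * m)) * kill G t := by
    intro t ht
    rw [mu_step h ht, ← hEdef, ← hmdef, hq]
  have hk1 : ∑ t ∈ triangles G, (kill G t : ℝ) = ∑ e ∈ G, (cod G e : ℝ) ^ 2 - 2 * T := by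
    rw [sum_congr rfl fun t ht => kill_eq ht, sum_sub_distrib, sum_cs, sum_const, nsmul_eq_mul,
      hTdef]
    ring
  have hk2 : ∑ t ∈ triangles G, (kill G t : ℝ) ^ 2 ≤ 3 * (E * m ^ 3 * R) := by
    have h1 := sum_cs_pow_le (M := M) h (j := 1) (by norm_num [K])
    rw [← hEdef, ← hmdef, ← hRdef] at h1
    refine le_trans (sum_le_sum fun t ht => ?_) (h1.trans_eq (by ring))
    have h2 : (0 : ℝ) ≤ kill G t := Nat.cast_nonneg _
    rw [pow_two (cs G t), pow_two (kill G t : ℝ)]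
    have h3 : (kill G t : ℝ) ≤ cs G t := by rw [kill_eq ht]; linarith
    exact mul_le_mul h3 h3 h2 (h2.trans h3)
  have hY : ∑ e ∈ G, (cod G e : ℝ) ^ 2 = m ^ 2 * (E * (1 + 2 * mu G + v)) := by
    have s0 : ∑ e ∈ G, dev G e = E * mu G := by
      simp only [dev, sum_sub_distrib, ← sum_div, sum_cod, sum_const, nsmul_eq_mul, mu]
      rw [← hEdef, ← hmdef]
      field_simp
    have s2 : ∑ e ∈ G, dev G e ^ 2 = E * v := by
      rw [hv, avgE, ← hEdef, mul_div_cancel₀ _ hE.ne']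
    calc ∑ e ∈ G, (cod G e : ℝ) ^ 2 = ∑ e ∈ G, m ^ 2 * (1 + 2 * dev G e + dev G e ^ 2) := by
          refine sum_congr rfl fun e _ => ?_
          rw [dev, ← hmdef]; field_simp; ring
      _ = _ := by
          rw [← mul_sum, sum_add_distrib, sum_add_distrib, ← mul_sum, s0, s2, sum_const,
            nsmul_eq_mul, ← hEdef]
          ring
  have hv0 : 0 ≤ v := hv ▸ avgE_nonneg fun _ _ => sq_nonneg _
  have hvR : v ≤ 602 * (R / m) := by
    have h1 := avg_dev_sq_le (M := M) h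
    rw [← hv, ← hmdef, ← hRdef] at h1
    rw [← mul_div_assoc, le_div_iff₀ hm]; linarith
  rw [← hTdef, ← hEdef, ← hmdef, ← hRdef]
  refine ⟨?_, ?_⟩
  · rw [sum_congr rfl inc, sum_sub_distrib, sum_const, nsmul_eq_mul, ← mul_sum, hk1, hY, ← hTdef]
    have hτ : 0 < 1 + mu G := by linarith
    have e : T * ((q - 1) * (1 + mu G)) - q * (3 / (E * m)) *
        (m ^ 2 * (E * (1 + 2 * mu G + v)) - 2 * T) =
        T * (9 / E * ((mu G ^ 2 - v) / (1 + mu G)) + (q - 1 - 9 / E) * (1 + mu G) -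
          (q - 1) * (9 / E) * ((1 + 2 * mu G + v) / (1 + mu G)) + q * (6 / (E * m))) := by
      rw [hTeq]; field_simp; ring
    rw [e, abs_mul, abs_of_pos hT]
    refine mul_le_mul_of_nonneg_left ?_ hT.le
    exact mean_arith hE hE30 hm hm1 hmE hR1 hv0 hvR hmu q1 q2 q0 q3
  · rw [sum_congr rfl fun t ht => by rw [inc t ht]]
    have one : ∀ t ∈ triangles G, ((q - 1) * (1 + mu G) - q * (3 / (E * m)) * kill G t) ^ 2 ≤
        800 / E ^ 2 + 72 / (E * m) ^ 2 * (kill G t : ℝ) ^ 2 := by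
      intro t _
      have b1 : ((q - 1) * (1 + mu G)) ^ 2 ≤ 400 / E ^ 2 := by
        rw [← sq_abs, abs_mul, mul_pow]
        calc |q - 1| ^ 2 * |1 + mu G| ^ 2 ≤ (13 / E) ^ 2 * (3 / 2) ^ 2 := by
              gcongr
              rw [abs_of_pos (by linarith)]; linarith
          _ ≤ _ := by rw [div_pow, div_mul_eq_mul_div]; gcongr; norm_num
      have b2 : (q * (3 / (E * m)) * kill G t) ^ 2 ≤ 36 / (E * m) ^ 2 * (kill G t : ℝ) ^ 2 := by
        rw [mul_pow, mul_pow]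
        refine mul_le_mul_of_nonneg_right ?_ (sq_nonneg _)
        calc _ ≤ 2 ^ 2 * (3 / (E * m)) ^ 2 := by gcongr
          _ = _ := by ring
      have d1 : (800 : ℝ) / E ^ 2 = 2 * (400 / E ^ 2) := by ring
      have d2 : 72 / (E * m) ^ 2 * (kill G t : ℝ) ^ 2 =
          2 * (36 / (E * m) ^ 2 * (kill G t : ℝ) ^ 2) := by ring
      linarith [sub_sq_le_two ((q - 1) * (1 + mu G)) (q * (3 / (E * m)) * kill G t)]
    refine (sum_le_sum one).trans ?_
    rw [sum_add_distrib, sum_const, nsmul_eq_mul, ← mul_sum, ← hTdef]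
    have hTge : E * m ≤ 4 * T := by
      rw [hTeq]
      nlinarith [mul_pos hE hm]
    calc T * (800 / E ^ 2) + 72 / (E * m) ^ 2 * ∑ t ∈ triangles G, (kill G t : ℝ) ^ 2
        ≤ T * (800 / E ^ 2) + 72 / (E * m) ^ 2 * (3 * (E * m ^ 3 * R)) := by gcongr
      _ = T * (800 / E ^ 2) + 216 / E ^ 2 * R * (E * m) := by field_simp; ring
      _ ≤ T * (800 / E ^ 2 * R) + 216 / E ^ 2 * R * (4 * T) := by
          gcongr
          exact le_mul_of_one_le_right (by positivity) hR1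
      _ ≤ _ := by
          have : 0 ≤ T * (1 / E ^ 2 * R) := by positivity
          rw [show T * (800 / E ^ 2 * R) = 800 * (T * (1 / E ^ 2 * R)) by ring,
            show 216 / E ^ 2 * R * (4 * T) = 864 * (T * (1 / E ^ 2 * R)) by ring,
            show T * (2000 / E ^ 2 * R) = 2000 * (T * (1 / E ^ 2 * R)) by ring]
          linarith

lemma rt_sdiff (h : Stage G) {t : Finset (Fin n)} (ht : t ∈ triangles G) :
    rt (G \ edgesOf t) ^ 8 = rt G ^ 8 * (1 - 3 / (G.card : ℝ)) ∧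
      rt (G \ edgesOf t) ^ 2 ≤ rt G ^ 2 := by
  have hE := h.E_pos
  have h3 : 3 / (G.card : ℝ) ≤ 1 := by rw [div_le_one hE]; linarith [h.big_E]
  have h0 : 0 ≤ rt (G \ edgesOf t) := Real.rpow_nonneg (mG_nonneg _) _
  have e1 : rt (G \ edgesOf t) ^ 8 = rt G ^ 8 * (1 - 3 / (G.card : ℝ)) := by
    refine (pow_left_inj₀ (by positivity) ?_ two_ne_zero).1 ?_
    · exact mul_nonneg (by positivity) (by linarith)
    · rw [mul_pow, ← pow_mul, ← pow_mul, rt_pow, rt_pow, mG_sdiff hE.ne' ht]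
  refine ⟨e1, ?_⟩
  refine pow_le_pow_left₀ h0 ?_ 2
  refine (pow_le_pow_iff_left₀ h0 h.rt_pos.le (show (8 : ℕ) ≠ 0 by norm_num)).1 ?_
  rw [e1]
  exact mul_le_of_le_one_right (by positivity) (by linarith [show 0 ≤ 3 / (G.card : ℝ) by positivity])

/-- The square of the deviation after one step. -/
lemma sum_mu_sq (h : Stage G) :
    ∑ t ∈ triangles G, mu (G \ edgesOf t) ^ 2 ≤
      (triangles G).card * (mu G ^ 2 + 320000 / G.card * (mu G ^ 2 * |mu G| + |mu G| * (Rest G M / mG G))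
        + 2000 / (G.card : ℝ) ^ 2 * Rest G M) := by
  obtain ⟨d1, d2⟩ := mu_moments (M := M) h
  have e : ∑ t ∈ triangles G, mu (G \ edgesOf t) ^ 2 = (triangles G).card * mu G ^ 2 +
      2 * mu G * ∑ t ∈ triangles G, (mu (G \ edgesOf t) - mu G) +
      ∑ t ∈ triangles G, (mu (G \ edgesOf t) - mu G) ^ 2 := by
    rw [mul_sum, ← nsmul_eq_mul, ← sum_const, ← sum_add_distrib, ← sum_add_distrib]
    exact sum_congr rfl fun t _ => by ring
  have h2 : 2 * mu G * ∑ t ∈ triangles G, (mu (G \ edgesOf t) - mu G) ≤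
      (triangles G).card * (320000 / G.card * (mu G ^ 2 * |mu G| + |mu G| * (Rest G M / mG G))) := by
    refine (le_abs_self _).trans ?_
    rw [abs_mul, abs_mul, abs_two]
    refine (mul_le_mul_of_nonneg_left d1 (by positivity)).trans_eq ?_
    ring
  rw [e]
  linarith

theorem zStep : ZStep := by
  refine ⟨150000, by norm_num, fun n G M h => driftLE_of_sum h ?_⟩
  have hE := h.E_pos; have hm := h.m_pos; have hr := h.rt_pos; have hE30 := h.big_E
  obtain ⟨a, ha⟩ : ∃ a, a = 3 / (G.card : ℝ) := ⟨_, rfl⟩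
  have ha0 : 0 ≤ a := by rw [ha]; positivity
  have ha1 : a ≤ 1 / 10 := by rw [ha, div_le_iff₀ hE]; linarith
  have step : ∀ t ∈ triangles G, Z (G \ edgesOf t) (stepM G M t) ≤
      rt G ^ 18 * (1 - a) ^ 2 * mu (G \ edgesOf t) ^ 2 := by
    intro t ht
    obtain ⟨e1, e2⟩ := rt_sdiff h ht
    refine mul_le_mul_of_nonneg_right ?_ (sq_nonneg _)
    rw [show rt (G \ edgesOf t) ^ 18 = (rt (G \ edgesOf t) ^ 8) ^ 2 * rt (G \ edgesOf t) ^ 2 by ring,
      e1, ← ha]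
    calc (rt G ^ 8 * (1 - a)) ^ 2 * rt (G \ edgesOf t) ^ 2
        ≤ (rt G ^ 8 * (1 - a)) ^ 2 * rt G ^ 2 := by gcongr
      _ = _ := by ring
  refine (sum_le_sum step).trans ?_
  rw [← mul_sum, ← ha]
  refine (mul_le_mul_of_nonneg_left (sum_mu_sq (M := M) h) (by positivity)).trans ?_
  rw [mul_left_comm]
  refine mul_le_mul_of_nonneg_left ?_ h.T_pos.le
  obtain ⟨P, hP⟩ : ∃ P, P = Rest G M / rt G ^ 2 := ⟨_, rfl⟩
  obtain ⟨z, hz⟩ : ∃ z, z = Z G M := ⟨_, rfl⟩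
  have hP0 : 0 ≤ P := by rw [hP]; exact div_nonneg Rest_nonneg (by positivity)
  have hz0 : 0 ≤ z := by rw [hz, Z]; positivity
  have hmu := h.abs_mu_le
  have h4 : (10000000 : ℝ) ≤ rt G ^ 4 / 4 := by
    nlinarith [pow_le_pow_left₀ (by norm_num) h.big 4]
  have k1 : rt G ^ 18 * (mu G ^ 2 * |mu G|) ≤ z / 10000000 := by
    calc rt G ^ 18 * (mu G ^ 2 * |mu G|) = z * |mu G| := by rw [hz, Z]; ring
      _ ≤ z * (1 / 10000000) := by
          refine mul_le_mul_of_nonneg_left (hmu.trans ?_) hz0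
          exact one_div_le_one_div_of_le (by norm_num) (by linarith)
      _ = _ := by ring
  have k2 : rt G ^ 18 * (|mu G| * (Rest G M / mG G)) ≤ P := by
    have := Rest_nonneg (G := G) (M := M)
    calc rt G ^ 18 * (|mu G| * (Rest G M / mG G)) ≤ rt G ^ 18 * (1 / rt G ^ 4 * (Rest G M / mG G)) := by
          gcongr
      _ = _ := by rw [← rt_pow, hP]; field_simp
  have k3 : rt G ^ 18 / G.card * Rest G M ≤ 2 * P := by
    have := Rest_nonneg (G := G) (M := M)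
    calc rt G ^ 18 / G.card * Rest G M = rt G ^ 2 * (mG G / G.card) * Rest G M := by
          rw [← rt_pow]; field_simp
      _ ≤ rt G ^ 2 * (2 / mG G) * Rest G M :=
          mul_le_mul_of_nonneg_right (mul_le_mul_of_nonneg_left h.m_div_E_le' (by positivity)) this
      _ = 2 / rt G ^ 14 * Rest G M := by rw [← rt_pow]; field_simp
      _ ≤ 2 / rt G ^ 2 * Rest G M := by gcongr; exacts [h.one_le_rt, by norm_num]
      _ = _ := by rw [hP]; ring
  rw [← hz, ← hP]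
  have e : rt G ^ 18 * (1 - a) ^ 2 * (mu G ^ 2 + 320000 / G.card *
        (mu G ^ 2 * |mu G| + |mu G| * (Rest G M / mG G)) + 2000 / (G.card : ℝ) ^ 2 * Rest G M) =
      (1 - a) ^ 2 * (z + a * (320000 / 3 * (rt G ^ 18 * (mu G ^ 2 * |mu G|) +
        rt G ^ 18 * (|mu G| * (Rest G M / mG G))) + 2000 / 3 * (rt G ^ 18 / G.card * Rest G M))) := by
    rw [hz, Z, ha]; ring
  rw [e]
  obtain ⟨B, hB⟩ : ∃ B, B = 320000 / 3 * (rt G ^ 18 * (mu G ^ 2 * |mu G|) +
      rt G ^ 18 * (|mu G| * (Rest G M / mG G))) + 2000 / 3 * (rt G ^ 18 / G.card * Rest G M) :=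
    ⟨_, rfl⟩
  rw [← hB]
  have hB1 : B ≤ z / 12 + 120000 * P := by rw [hB]; linarith
  have hB0 : 0 ≤ B := by
    rw [hB]; have := Rest_nonneg (G := G) (M := M); positivity
  nlinarith [mul_le_mul_of_nonneg_left hB1 ha0, mul_nonneg (mul_nonneg ha0 ha0) hz0,
    mul_nonneg ha0 hP0, mul_nonneg (mul_nonneg ha0 ha0) hB0, mul_nonneg ha0 hz0,
    mul_le_mul_of_nonneg_left ha1 (mul_nonneg ha0 hz0), mul_le_mul_of_nonneg_left ha1 (mul_nonneg ha0 hB0)]

theorem yStep : YStep := by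
  refine ⟨150000, by norm_num, fun n G M h => driftLE_of_sum h ?_⟩
  have hE := h.E_pos; have hm := h.m_pos; have hr := h.rt_pos; have hE30 := h.big_E
  obtain ⟨a, ha⟩ : ∃ a, a = 3 / (G.card : ℝ) := ⟨_, rfl⟩
  have ha0 : 0 ≤ a := by rw [ha]; positivity
  have ha1 : a ≤ 1 / 10 := by rw [ha, div_le_iff₀ hE]; linarith
  have step : ∀ t ∈ triangles G, Yp (G \ edgesOf t) (stepM G M t) =
      rt G ^ 8 * (1 - a) * mu (G \ edgesOf t) ^ 2 := by
    intro t ht
    rw [Yp, (rt_sdiff h ht).1, ha]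
  rw [sum_congr rfl step, ← mul_sum, ← ha]
  refine (mul_le_mul_of_nonneg_left (sum_mu_sq (M := M) h)
    (mul_nonneg (by positivity) (by linarith))).trans ?_
  rw [mul_left_comm]
  refine mul_le_mul_of_nonneg_left ?_ h.T_pos.le
  obtain ⟨P, hP⟩ : ∃ P, P = Rest G M / rt G ^ 12 := ⟨_, rfl⟩
  obtain ⟨z, hz⟩ : ∃ z, z = Yp G M := ⟨_, rfl⟩
  have hP0 : 0 ≤ P := by rw [hP]; exact div_nonneg Rest_nonneg (by positivity)
  have hz0 : 0 ≤ z := by rw [hz, Yp]; positivity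
  have h4 : (10000000 : ℝ) ≤ rt G ^ 4 / 4 := by
    nlinarith [pow_le_pow_left₀ (by norm_num) h.big 4]
  have k1 : rt G ^ 8 * (mu G ^ 2 * |mu G|) ≤ z / 10000000 := by
    calc rt G ^ 8 * (mu G ^ 2 * |mu G|) = z * |mu G| := by rw [hz, Yp]; ring
      _ ≤ z * (1 / 10000000) := by
          refine mul_le_mul_of_nonneg_left (h.abs_mu_le.trans ?_) hz0
          exact one_div_le_one_div_of_le (by norm_num) (by linarith)
      _ = _ := by ring
  have k2 : rt G ^ 8 * (|mu G| * (Rest G M / mG G)) ≤ P := by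
    have := Rest_nonneg (G := G) (M := M)
    calc rt G ^ 8 * (|mu G| * (Rest G M / mG G)) ≤ rt G ^ 8 * (1 / rt G ^ 4 * (Rest G M / mG G)) := by
          gcongr; exact h.abs_mu_le
      _ = _ := by rw [← rt_pow, hP]; field_simp
  have k3 : rt G ^ 8 / G.card * Rest G M ≤ 2 * P := by
    have := Rest_nonneg (G := G) (M := M)
    calc rt G ^ 8 / G.card * Rest G M = 1 / rt G ^ 8 * (mG G / G.card) * Rest G M := by
          rw [← rt_pow]; field_simp
      _ ≤ 1 / rt G ^ 8 * (2 / mG G) * Rest G M :=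
          mul_le_mul_of_nonneg_right (mul_le_mul_of_nonneg_left h.m_div_E_le' (by positivity)) this
      _ = 2 / rt G ^ 24 * Rest G M := by rw [← rt_pow]; field_simp
      _ ≤ 2 / rt G ^ 12 * Rest G M := by gcongr; exacts [h.one_le_rt, by norm_num]
      _ = _ := by rw [hP]; ring
  rw [← hz, ← hP]
  have e : rt G ^ 8 * (1 - a) * (mu G ^ 2 + 320000 / G.card *
        (mu G ^ 2 * |mu G| + |mu G| * (Rest G M / mG G)) + 2000 / (G.card : ℝ) ^ 2 * Rest G M) =
      (1 - a) * (z + a * (320000 / 3 * (rt G ^ 8 * (mu G ^ 2 * |mu G|) +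
        rt G ^ 8 * (|mu G| * (Rest G M / mG G))) + 2000 / 3 * (rt G ^ 8 / G.card * Rest G M))) := by
    rw [hz, Yp, ha]; ring
  rw [e]
  obtain ⟨B, hB⟩ : ∃ B, B = 320000 / 3 * (rt G ^ 8 * (mu G ^ 2 * |mu G|) +
      rt G ^ 8 * (|mu G| * (Rest G M / mG G))) + 2000 / 3 * (rt G ^ 8 / G.card * Rest G M) :=
    ⟨_, rfl⟩
  rw [← hB]
  have hB1 : B ≤ z / 12 + 120000 * P := by rw [hB]; linarith
  have hB0 : 0 ≤ B := by
    rw [hB]; have := Rest_nonneg (G := G) (M := M); positivity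
  nlinarith [mul_le_mul_of_nonneg_left hB1 ha0, mul_nonneg ha0 hP0, mul_nonneg ha0 hz0,
    mul_nonneg (mul_nonneg ha0 ha0) hB0]

end Vale.Agent.P046.Lin
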