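import Vale.Agent.P046.Lin.Tools

/-!
The wheel count decays: a wheel dies at the rate of the sum of its eight codegrees, against the
exponent seven of its normalisation. The wheels with a low codegree sum have all codegrees below
`8 m`, so few of them pass any one deficient edge.
-/

namespace Vale.Agent.P046.Lin

open Finset
open Track
open scoped Classical

variable {n : ℕ} {G : Finset (Sym2 (Fin n))}

/-- Labelled five-tuples of vertices. -/
abbrev Five (n : ℕ) := Fin n × Fin n × Fin n × Fin n × Fin n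

/-- The five vertices of a tuple. -/
def vx (w : Five n) : Fin 5 → Fin n := ![w.1, w.2.1, w.2.2.1, w.2.2.2.1, w.2.2.2.2]

/-- The eight edges of the pattern. -/
def pat : Fin 8 → Sym2 (Fin 5) :=
  ![s(0, 1), s(0, 2), s(0, 3), s(0, 4), s(1, 3), s(2, 3), s(1, 4), s(2, 4)]

/-- The eight edges of a wheel. -/
def we (w : Five n) (i : Fin 8) : Sym2 (Fin n) := Sym2.map (vx w) (pat i)

lemma pat_injective : Function.Injective pat := by
  unfold Function.Injective
  decide

lemma ne_of_mem (hG : G ⊆ completeEdges n) {a b : Fin n} (h : s(a, b) ∈ G) : a ≠ b := by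
  have := hG h
  simpa [completeEdges] using this

lemma we_mem {w : Five n} (hw : w ∈ wheels G) (i : Fin 8) : we w i ∈ G := by
  obtain ⟨a, b, c, d, d'⟩ := w
  simp only [wheels, mem_filter, mem_univ, true_and] at hw
  obtain ⟨_, _, h1, h2, h3, h4, h5, h6, h7, h8⟩ := hw
  fin_cases i <;> assumption

lemma we_injective (hG : G ⊆ completeEdges n) {w : Five n} (hw : w ∈ wheels G) :
    Function.Injective (we w) := by
  obtain ⟨a, b, c, d, d'⟩ := w
  simp only [wheels, mem_filter, mem_univ, true_and] at hw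
  obtain ⟨hbc, hdd, h1, h2, h3, h4, h5, h6, h7, h8⟩ := hw
  have e1 := ne_of_mem hG h1
  have e2 := ne_of_mem hG h2
  have e3 := ne_of_mem hG h3
  have e4 := ne_of_mem hG h4
  have e5 := ne_of_mem hG h5
  have e6 := ne_of_mem hG h6
  have e7 := ne_of_mem hG h7
  have e8 := ne_of_mem hG h8
  have hv : Function.Injective (vx (a, b, c, d, d')) := by
    intro i j hij
    fin_cases i <;> fin_cases j <;> simp_all [vx, eq_comm]
  exact (Sym2.map.injective hv).comp pat_injective

lemma wheels_sdiff_subset (t : Finset (Fin n)) :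
    wheels (G \ edgesOf t) ⊆ (wheels G).filter fun w => ∀ i, we w i ∉ edgesOf t := by
  intro w hw
  refine mem_filter.2 ⟨?_, fun i => (mem_sdiff.1 (we_mem hw i)).2⟩
  obtain ⟨a, b, c, d, d'⟩ := w
  simp only [wheels, mem_filter, mem_univ, true_and, mem_sdiff] at hw ⊢
  tauto

/-- The triangles whose choice kills a wheel. -/
noncomputable def hits (G : Finset (Sym2 (Fin n))) (w : Five n) : ℕ :=
  #{t ∈ triangles G | ∃ i, we w i ∈ edgesOf t}

lemma sum_cod_le_hits (hG : G ⊆ completeEdges n) {w : Five n} (hw : w ∈ wheels G) :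
    ∑ i, cod G (we w i) ≤ hits G w + 64 := by
  have hk : ∀ t ∈ triangles G, (∑ i, if we w i ∈ edgesOf t then 1 else 0 : ℕ) ≤
      (if ∃ i, we w i ∈ edgesOf t then 1 else 0) +
        ∑ i, ∑ j, (if i ≠ j ∧ we w i ∈ edgesOf t ∧ we w j ∈ edgesOf t then 1 else 0 : ℕ) := by
    intro t _
    by_cases hex : ∃ i, we w i ∈ edgesOf t
    · obtain ⟨j, hj⟩ := hex
      rw [if_pos ⟨j, hj⟩]
      calc (∑ i, if we w i ∈ edgesOf t then 1 else 0 : ℕ)
          ≤ ∑ i, ((if i = j then 1 else 0) +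
              ∑ k, (if i ≠ k ∧ we w i ∈ edgesOf t ∧ we w k ∈ edgesOf t then 1 else 0 : ℕ)) := by
            refine sum_le_sum fun i _ => ?_
            split_ifs with hi hij
            · omega
            · refine le_trans ?_ (Nat.le_add_left _ _)
              refine le_trans ?_ (single_le_sum (fun k _ => Nat.zero_le _) (mem_univ j))
              rw [if_pos ⟨hij, hi, hj⟩]
            all_goals omega
        _ = _ := by rw [sum_add_distrib, sum_ite_eq']; simp
    · push Not at hex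
      simp [hex]
  have h2 : ∀ i j, (∑ t ∈ triangles G,
      if i ≠ j ∧ we w i ∈ edgesOf t ∧ we w j ∈ edgesOf t then 1 else 0 : ℕ) ≤ 1 := by
    intro i j
    rw [← card_filter, card_le_one]
    intro u hu v hv
    obtain ⟨hu1, hne, hu2, hu3⟩ := mem_filter.1 hu
    obtain ⟨hv1, _, hv2, hv3⟩ := mem_filter.1 hv
    exact eq_of_two_edges (card3_of_mem hu1) (card3_of_mem hv1)
      (fun e => hne (we_injective hG hw e)) hu2 hu3 hv2 hv3
  have h3 := sum_le_sum hk
  rw [sum_comm, sum_add_distrib] at h3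
  simp only [cod, hits, card_filter]
  refine h3.trans (Nat.add_le_add_left ?_ _)
  rw [sum_comm]
  refine (sum_le_sum fun i _ => ?_).trans (le_of_eq (show (∑ _i : Fin 8, 8) = 64 by simp))
  rw [sum_comm]
  exact (sum_le_sum fun j _ => h2 i j).trans (by simp)

/-- The wheels whose codegrees are all at most `L`. -/
noncomputable def tame (G : Finset (Sym2 (Fin n))) (L : ℕ) : Finset (Five n) :=
  (wheels G).filter fun w => ∀ i, cod G (we w i) ≤ L

/-- The common neighbours of a tame pair. -/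
noncomputable def nb (G : Finset (Sym2 (Fin n))) (L : ℕ) (a b : Fin n) : Finset (Fin n) :=
  if s(a, b) ∈ G ∧ cod G s(a, b) ≤ L then univ.filter fun z => s(a, z) ∈ G ∧ s(b, z) ∈ G else ∅

lemma mem_nb {L : ℕ} {a b z : Fin n} (hab : s(a, b) ∈ G) (hL : cod G s(a, b) ≤ L)
    (haz : s(a, z) ∈ G) (hbz : s(b, z) ∈ G) : z ∈ nb G L a b := by
  rw [nb, if_pos ⟨hab, hL⟩]
  simp [haz, hbz]

lemma card_nb (hG : G ⊆ completeEdges n) (L : ℕ) (a b : Fin n) : (nb G L a b).card ≤ L := by
  unfold nb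
  split_ifs with h
  swap
  · simp
  refine le_trans ?_ h.2
  have hab := ne_of_mem hG h.1
  refine card_le_card_of_injOn (fun z => ({a, b, z} : Finset (Fin n))) (fun z hz => ?_) ?_
  · obtain ⟨hz1, hz2⟩ := (mem_filter.1 hz).2
    have haz := ne_of_mem hG hz1
    have hbz := ne_of_mem hG hz2
    refine mem_filter.2 ⟨?_, by simp [edgesOf, hab]⟩
    simp only [triangles, mem_filter, mem_powersetCard, subset_univ, true_and]
    refine ⟨?_, fun x hx => ?_⟩
    · rw [card_insert_of_notMem (by simp [hab, haz]), card_pair hbz]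
    · induction x using Sym2.ind with
      | _ p q =>
        simp only [edgesOf, mem_filter, Finset.mem_sym2_iff, Sym2.mem_iff, forall_eq_or_imp,
          forall_eq, mem_insert, mem_singleton, Sym2.mk_isDiag_iff] at hx
        obtain ⟨⟨hp, hq⟩, hpq⟩ := hx
        rcases hp with rfl | rfl | rfl <;> rcases hq with rfl | rfl | rfl <;>
          first
          | exact absurd rfl hpq
          | exact h.1
          | exact hz1
          | exact hz2
          | exact Sym2.eq_swap ▸ h.1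
          | exact Sym2.eq_swap ▸ hz1
          | exact Sym2.eq_swap ▸ hz2
  · intro z hz z' hz' hzz
    obtain ⟨hz1, hz2⟩ := (mem_filter.1 hz).2
    have : z ∈ ({a, b, z'} : Finset (Fin n)) := by
      rw [← show ({a, b, z} : Finset (Fin n)) = {a, b, z'} from hzz]; simp
    simp only [mem_insert, mem_singleton] at this
    rcases this with rfl | rfl | rfl
    · exact absurd rfl (ne_of_mem hG hz1)
    · exact absurd rfl (ne_of_mem hG hz2)
    · rfl

/-- The two orientations of a pair. -/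
noncomputable def ori (e : Sym2 (Fin n)) : Finset (Fin n × Fin n) :=
  univ.filter fun p => s(p.1, p.2) = e

lemma card_ori (e : Sym2 (Fin n)) : (ori e).card ≤ 2 := by
  induction e using Sym2.ind with
  | _ x y =>
    refine le_trans (card_le_card (t := {(x, y), (y, x)}) fun p hp => ?_) card_le_two
    obtain ⟨p1, p2⟩ := p
    have h := (mem_filter.1 hp).2
    rw [Sym2.eq_iff] at h
    simp only [mem_insert, mem_singleton, Prod.mk.injEq]
    tauto

lemma card_fib_spoke (hG : G ⊆ completeEdges n) (L : ℕ) (e : Sym2 (Fin n)) :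
    #{w ∈ tame G L | we w 0 = e} ≤ 2 * L ^ 3 := by
  refine le_trans (card_le_card_of_injOn
    (t := (ori e).sigma fun p => (nb G L p.1 p.2 ×ˢ nb G L p.1 p.2).sigma fun q => nb G L p.1 q.1)
    (fun w => ⟨(w.1, w.2.1), ⟨(w.2.2.2.1, w.2.2.2.2), w.2.2.1⟩⟩) ?_ ?_) ?_
  · rintro ⟨a, b, c, d, d'⟩ hw
    obtain ⟨hw, he⟩ := mem_filter.1 hw
    obtain ⟨hw, hL⟩ := mem_filter.1 hw
    have l1 : cod G s(a, b) ≤ L := hL 0
    have l3 : cod G s(a, d) ≤ L := hL 2
    simp only [wheels, mem_filter, mem_univ, true_and] at hw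
    obtain ⟨_, _, h1, h2, h3, h4, h5, h6, h7, h8⟩ := hw
    exact mem_sigma.2 ⟨mem_filter.2 ⟨mem_univ _, he⟩, mem_sigma.2
      ⟨mem_product.2 ⟨mem_nb h1 l1 h3 h5, mem_nb h1 l1 h4 h7⟩,
        mem_nb h3 l3 h2 (Sym2.eq_swap ▸ h6)⟩⟩
  · rintro ⟨a, b, c, d, d'⟩ _ ⟨a', b', c', d2, d3⟩ _ h
    simp only [Sigma.mk.injEq, heq_eq_eq, Prod.mk.injEq] at h
    obtain ⟨⟨rfl, rfl⟩, ⟨rfl, rfl⟩, rfl⟩ := h
    rfl
  · rw [card_sigma]
    refine (sum_le_card_nsmul _ _ (L ^ 3) fun p _ => ?_).trans ?_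
    · rw [card_sigma]
      refine (sum_le_card_nsmul _ _ L fun q _ => card_nb hG L _ _).trans ?_
      rw [card_product, smul_eq_mul, pow_succ, sq]
      gcongr <;> exact card_nb hG L _ _
    · rw [smul_eq_mul]
      exact Nat.mul_le_mul_right _ (card_ori e)

lemma card_fib_rim (hG : G ⊆ completeEdges n) (L : ℕ) (e : Sym2 (Fin n)) :
    #{w ∈ tame G L | we w 4 = e} ≤ 2 * L ^ 3 := by
  refine le_trans (card_le_card_of_injOn
    (t := (ori e).sigma fun p => (nb G L p.1 p.2).sigma fun a => nb G L a p.2 ×ˢ nb G L a p.1)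
    (fun w => ⟨(w.2.1, w.2.2.2.1), ⟨w.1, (w.2.2.1, w.2.2.2.2)⟩⟩) ?_ ?_) ?_
  · rintro ⟨a, b, c, d, d'⟩ hw
    obtain ⟨hw, he⟩ := mem_filter.1 hw
    obtain ⟨hw, hL⟩ := mem_filter.1 hw
    have l1 : cod G s(a, b) ≤ L := hL 0
    have l3 : cod G s(a, d) ≤ L := hL 2
    have l5 : cod G s(b, d) ≤ L := hL 4
    simp only [wheels, mem_filter, mem_univ, true_and] at hw
    obtain ⟨_, _, h1, h2, h3, h4, h5, h6, h7, h8⟩ := hw
    exact mem_sigma.2 ⟨mem_filter.2 ⟨mem_univ _, he⟩, mem_sigma.2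
      ⟨mem_nb h5 l5 (Sym2.eq_swap ▸ h1) (Sym2.eq_swap ▸ h3),
        mem_product.2 ⟨mem_nb h3 l3 h2 (Sym2.eq_swap ▸ h6), mem_nb h1 l1 h4 h7⟩⟩⟩
  · rintro ⟨a, b, c, d, d'⟩ _ ⟨a', b', c', d2, d3⟩ _ h
    simp only [Sigma.mk.injEq, heq_eq_eq, Prod.mk.injEq] at h
    obtain ⟨⟨rfl, rfl⟩, rfl, rfl, rfl⟩ := h
    rfl
  · rw [card_sigma]
    refine (sum_le_card_nsmul _ _ (L ^ 3) fun p _ => ?_).trans ?_
    · rw [card_sigma]
      refine (sum_le_card_nsmul _ _ (L * L) fun a _ => ?_).trans ?_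
      · rw [card_product]; gcongr <;> exact card_nb hG L _ _
      · rw [smul_eq_mul, show L ^ 3 = L * (L * L) by ring]
        gcongr
        exact card_nb hG L _ _
    · rw [smul_eq_mul]
      exact Nat.mul_le_mul_right _ (card_ori e)

/-- Exchange the first pair of opposite rim vertices. -/
def swL (w : Five n) : Five n := (w.1, w.2.2.1, w.2.1, w.2.2.2.1, w.2.2.2.2)

/-- Exchange the two pairs of opposite rim vertices. -/
def swP (w : Five n) : Five n := (w.1, w.2.2.2.1, w.2.2.2.2, w.2.1, w.2.2.1)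

lemma tame_swL (L : ℕ) {w : Five n} (hw : w ∈ tame G L) : swL w ∈ tame G L := by
  obtain ⟨a, b, c, d, d'⟩ := w
  simp [tame, wheels, swL, Fin.forall_fin_succ, we, pat, vx, ne_comm (a := c) (b := b)] at hw ⊢
  tauto

lemma tame_swP (L : ℕ) {w : Five n} (hw : w ∈ tame G L) : swP w ∈ tame G L := by
  obtain ⟨a, b, c, d, d'⟩ := w
  simp [tame, wheels, swP, Fin.forall_fin_succ, we, pat, vx, Sym2.eq_swap (a := d) (b := b),
    Sym2.eq_swap (a := d) (b := c), Sym2.eq_swap (a := d') (b := b),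
    Sym2.eq_swap (a := d') (b := c)] at hw ⊢
  tauto

lemma swL_injective : Function.Injective (swL (n := n)) :=
  Function.LeftInverse.injective (g := swL) fun _ => rfl

lemma swP_injective : Function.Injective (swP (n := n)) :=
  Function.LeftInverse.injective (g := swP) fun _ => rfl

lemma card_fib_le_of_map {L : ℕ} {i j : Fin 8} (σ : Five n → Five n) (hσ : Function.Injective σ)
    (ht : ∀ w ∈ tame G L, σ w ∈ tame G L) (he : ∀ w, we (σ w) j = we w i) {B : ℕ}
    (hB : ∀ e, #{w ∈ tame G L | we w j = e} ≤ B) (e : Sym2 (Fin n)) :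
    #{w ∈ tame G L | we w i = e} ≤ B :=
  le_trans (card_le_card_of_injOn σ
    (fun w hw => mem_filter.2 ⟨ht w (mem_filter.1 hw).1, (he w).trans (mem_filter.1 hw).2⟩)
    hσ.injOn) (hB e)

lemma card_fib_le (hG : G ⊆ completeEdges n) (L : ℕ) (i : Fin 8) (e : Sym2 (Fin n)) :
    #{w ∈ tame G L | we w i = e} ≤ 2 * L ^ 3 := by
  have f0 := card_fib_spoke hG L
  have f4 := card_fib_rim hG L
  have f1 : ∀ e, #{w ∈ tame G L | we w 1 = e} ≤ 2 * L ^ 3 :=
    card_fib_le_of_map swL swL_injective (fun _ => tame_swL L) (fun _ => rfl) f0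
  have f5 : ∀ e, #{w ∈ tame G L | we w 5 = e} ≤ 2 * L ^ 3 :=
    card_fib_le_of_map swL swL_injective (fun _ => tame_swL L) (fun _ => rfl) f4
  have f2 : ∀ e, #{w ∈ tame G L | we w 2 = e} ≤ 2 * L ^ 3 :=
    card_fib_le_of_map swP swP_injective (fun _ => tame_swP L) (fun _ => rfl) f0
  have f3 : ∀ e, #{w ∈ tame G L | we w 3 = e} ≤ 2 * L ^ 3 :=
    card_fib_le_of_map swP swP_injective (fun _ => tame_swP L) (fun _ => rfl) f1
  have f6 : ∀ e, #{w ∈ tame G L | we w 6 = e} ≤ 2 * L ^ 3 :=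
    card_fib_le_of_map (i := 6) (j := 5) swP swP_injective (fun _ => tame_swP L)
      (fun w => by simp [we, pat, vx, swP, Sym2.eq_swap]) f5
  have f7 : ∀ e, #{w ∈ tame G L | we w 7 = e} ≤ 2 * L ^ 3 :=
    card_fib_le_of_map swL swL_injective (fun _ => tame_swL L) (fun _ => rfl) f6
  fin_cases i
  exacts [f0 e, f1 e, f2 e, f3 e, f4 e, f5 e, f6 e, f7 e]

/-- The wheels with a low codegree sum. -/
noncomputable def lowWheels (G : Finset (Sym2 (Fin n))) : Finset (Five n) :=
  (wheels G).filter fun w => ∑ i, rel G (we w i) < 792 / 100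

lemma card_lowWheels_le {M : Sym2 (Fin n) → ℝ} (h : Stage G) :
    ((lowWheels G).card : ℝ) ≤
      10 ^ 11 * ((G.card : ℝ) * mG G ^ 3 * (Rest G M / rt G ^ 4)) := by
  have hm := h.m_pos
  have hE := h.E_pos
  have hr := h.rt_pos
  obtain ⟨L, hL⟩ : ∃ L, L = ⌊8 * mG G⌋₊ := ⟨_, rfl⟩
  have hLm : (L : ℝ) ≤ 8 * mG G := by rw [hL]; exact Nat.floor_le (by positivity)
  have hfib : ∀ i, ∑ w ∈ tame G L, dev G (we w i) ^ 2 ≤
      2 * (8 * mG G) ^ 3 * ∑ e ∈ G, dev G e ^ 2 := by
    intro i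
    have e1 := sum_fiberwise_of_maps_to (s := tame G L) (t := G) (g := fun w => we w i)
      (fun w hw => we_mem (mem_filter.1 hw).1 i) (fun w => dev G (we w i) ^ 2)
    rw [← e1, mul_sum]
    refine sum_le_sum fun e _ => ?_
    rw [sum_congr rfl (fun w hw => by rw [(mem_filter.1 hw).2] :
      ∀ w ∈ (tame G L).filter (fun w => we w i = e), dev G (we w i) ^ 2 = dev G e ^ 2),
      sum_const, nsmul_eq_mul]
    refine mul_le_mul_of_nonneg_right ?_ (sq_nonneg _)
    calc ((#{w ∈ tame G L | we w i = e} : ℕ) : ℝ) ≤ ((2 * L ^ 3 : ℕ) : ℝ) := by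
          exact_mod_cast card_fib_le h.sub L i e
      _ ≤ _ := by push_cast; gcongr
  have hsub : lowWheels G ⊆ tame G L := by
    intro w hw
    obtain ⟨hw1, hw2⟩ := mem_filter.1 hw
    refine mem_filter.2 ⟨hw1, fun i => ?_⟩
    rw [hL]
    refine Nat.le_floor ?_
    have h1 := single_le_sum (f := fun j => rel G (we w j)) (fun j _ => rel_nonneg G _) (mem_univ i)
    have h2 : rel G (we w i) ≤ 8 := by linarith
    rwa [rel, div_le_iff₀ hm] at h2
  have hone : ∀ w ∈ lowWheels G, (1 : ℝ) ≤ 10000 * ∑ i, dev G (we w i) ^ 2 := by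
    intro w hw
    obtain ⟨hw1, hw2⟩ := mem_filter.1 hw
    obtain ⟨i, _, hi⟩ := exists_lt_of_sum_lt (s := univ) (f := fun i => rel G (we w i))
      (g := fun _ : Fin 8 => (99 / 100 : ℝ)) (hw2.trans_eq (by norm_num))
    have h1 := single_le_sum (f := fun j => dev G (we w j) ^ 2) (fun j _ => sq_nonneg _) (mem_univ i)
    have h2 : (1 / 100 : ℝ) ≤ -dev G (we w i) := by rw [dev_eq]; linarith
    have h3 := pow_le_pow_left₀ (by norm_num) h2 2
    rw [neg_sq] at h3
    linarith
  have key : ((lowWheels G).card : ℝ) ≤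
      10000 * (8 * (2 * (8 * mG G) ^ 3 * ∑ e ∈ G, dev G e ^ 2)) := by
    calc ((lowWheels G).card : ℝ) = ∑ _w ∈ lowWheels G, (1 : ℝ) := by simp
      _ ≤ ∑ w ∈ tame G L, 10000 * ∑ i, dev G (we w i) ^ 2 :=
          (sum_le_sum hone).trans (sum_le_sum_of_subset_of_nonneg hsub fun w _ _ => by positivity)
      _ ≤ _ := by
          rw [← mul_sum, sum_comm]
          refine mul_le_mul_of_nonneg_left ((sum_le_sum fun i _ => hfib i).trans_eq ?_) (by norm_num)
          simp
  have hd : ∑ e ∈ G, dev G e ^ 2 ≤ (G.card : ℝ) * (700 * (Rest G M / rt G ^ 4)) := by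
    have h1 := avg_dev_sq_rel_le (M := M) h (a := 0) (by norm_num [K])
    simp only [pow_zero, mul_one, avgE] at h1
    have h2 : rt G * (rt G ^ 4) ≤ mG G := by
      rw [← rt_pow, ← pow_succ']
      exact pow_le_pow_right₀ h.one_le_rt (by norm_num)
    have h3 : rt G / mG G ≤ 1 / rt G ^ 4 := by
      rw [div_le_div_iff₀ hm (by positivity), one_mul]; exact h2
    rw [mul_div_assoc', div_le_iff₀ hE] at h1
    have h4 : ∑ e ∈ G, dev G e ^ 2 ≤ (G.card : ℝ) * (700 * Rest G M) * (rt G / mG G) := by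
      rw [← mul_div_assoc, le_div_iff₀ hm]
      linarith
    refine (h4.trans (mul_le_mul_of_nonneg_left h3
      (mul_nonneg hE.le (mul_nonneg (by norm_num) Rest_nonneg)))).trans_eq ?_
    ring
  refine key.trans ?_
  calc 10000 * (8 * (2 * (8 * mG G) ^ 3 * ∑ e ∈ G, dev G e ^ 2))
      ≤ 10000 * (8 * (2 * (8 * mG G) ^ 3 * ((G.card : ℝ) * (700 * (Rest G M / rt G ^ 4))))) := by
        gcongr
    _ ≤ _ := by
        have : 0 ≤ (G.card : ℝ) * mG G ^ 3 * (Rest G M / rt G ^ 4) := by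
          have := Rest_nonneg (G := G) (M := M); positivity
        linarith

/-- The growth of the normalisation in one step. -/
lemma q7_le {x : ℝ} (h0 : 0 ≤ x) (h1 : x ≤ 1 / 1000) : 1 / (1 - x) ^ 7 ≤ 1 + 36 / 5 * x := by
  have hb := one_add_mul_le_pow (a := -x) (by linarith) 7
  rw [← sub_eq_add_neg] at hb
  push_cast at hb
  rw [div_le_iff₀ (pow_pos (by linarith) 7)]
  nlinarith [mul_le_mul_of_nonneg_left hb (show (0 : ℝ) ≤ 1 + 36 / 5 * x by linarith)]

/-- The wheel count decays up to an integrable error. -/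
theorem whStep : WhStep := by
  refine ⟨8 * 10 ^ 11, by norm_num, fun n G M h => ?_⟩
  refine driftLE_of_sum h ?_
  have hm := h.m_pos
  have hE := h.E_pos
  have hT := h.T_pos
  obtain ⟨x, hx⟩ : ∃ x, x = 3 / (G.card : ℝ) := ⟨_, rfl⟩
  have hm4 : (10000 : ℝ) ≤ mG G := h.big.trans (rt_pow G ▸ le_self_pow₀ h.one_le_rt (by norm_num))
  have hx0 : 0 ≤ x := by rw [hx]; positivity
  have hx1 : x ≤ 1 / 1000 := by
    have h1 := h.m_div_E_le'
    rw [div_le_div_iff₀ hE hm] at h1
    rw [hx, div_le_div_iff₀ hE (by norm_num)]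
    nlinarith
  obtain ⟨q, hq⟩ : ∃ q, q = 1 / (1 - x) ^ 7 := ⟨_, rfl⟩
  have hq1 : q ≤ 1 + 36 / 5 * x := hq ▸ q7_le hx0 hx1
  have hq0 : 1 ≤ q := by
    rw [hq, one_le_div (pow_pos (by linarith) 7)]
    exact pow_le_one₀ (by linarith) (by linarith)
  obtain ⟨D, hD⟩ : ∃ D, D = (G.card : ℝ) * mG G ^ 3 := ⟨_, rfl⟩
  have hD0 : 0 < D := by rw [hD]; positivity
  have hTx : ((triangles G).card : ℝ) * x = (1 + mu G) * mG G := by
    rw [hx, ← mul_div_assoc, div_eq_iff hE.ne']
    linarith [h.card_T]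
  have per : ∀ w ∈ wheels G, q * (((triangles G).card : ℝ) - hits G w) ≤
      ((triangles G).card : ℝ) * (1 - x / 2 + x * (if w ∈ lowWheels G then 8 else 0)) := by
    intro w hw
    have h0 : (0 : ℝ) ≤ hits G w := Nat.cast_nonneg _
    have hqT := mul_le_mul_of_nonneg_left hq1 hT.le
    split_ifs with hl
    · have := mul_nonneg (zero_le_one.trans hq0) h0
      nlinarith [mul_nonneg hT.le hx0]
    · have h1 : 792 / 100 * mG G - 64 ≤ hits G w := by
        have hlow : 792 / 100 ≤ ∑ i, rel G (we w i) := not_lt.1 fun hh => hl (mem_filter.2 ⟨hw, hh⟩)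
        have h2 : (∑ i, (cod G (we w i) : ℝ)) ≤ (hits G w : ℝ) + 64 := by
          exact_mod_cast sum_cod_le_hits h.sub hw
        simp only [rel] at hlow
        rw [← sum_div, le_div_iff₀ hm] at hlow
        linarith
      have h3 : (hits G w : ℝ) ≤ q * hits G w := le_mul_of_one_le_left h0 hq0
      have h4 : ((triangles G).card : ℝ) * x ≤ 101 / 100 * mG G := by
        rw [hTx]
        exact mul_le_mul_of_nonneg_right (by linarith [(abs_le.1 h.abs_mu_le_hundredth).2]) hm.le
      nlinarith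
  have hsum : ∑ t ∈ triangles G, Wh (G \ edgesOf t) (stepM G M t) ≤
      q / D * ∑ w ∈ wheels G, (((triangles G).card : ℝ) - hits G w) := by
    have e : ∑ w ∈ wheels G, (((triangles G).card : ℝ) - hits G w) =
        ∑ t ∈ triangles G, (((wheels G).filter fun w => ∀ i, we w i ∉ edgesOf t).card : ℝ) := by
      simp only [← sum_boole]
      rw [sum_comm (s := triangles G)]
      refine sum_congr rfl fun w _ => ?_
      rw [sum_boole, hits, sub_eq_iff_eq_add]
      norm_cast
      rw [← Finset.card_filter_add_card_filter_not (s := triangles G)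
        (fun t => ∀ i, we w i ∉ edgesOf t)]
      simp only [not_forall, not_not]
    rw [e, mul_sum]
    refine sum_le_sum fun t ht => ?_
    have hden : ((G \ edgesOf t).card : ℝ) * mG (G \ edgesOf t) ^ 3 = D * (1 - x) ^ 7 := by
      rw [card_sdiff_edgesOf ht, mG_sdiff hE.ne' ht, hD, hx]
      field_simp
    rw [Wh, hden, hq, div_div, one_div_mul_eq_div, mul_comm ((1 - x) ^ 7) D]
    refine div_le_div_of_nonneg_right ?_ (mul_nonneg hD0.le (pow_nonneg (by linarith) 7))
    exact_mod_cast card_le_card (wheels_sdiff_subset t)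
  refine hsum.trans ?_
  rw [div_mul_eq_mul_div, mul_sum, div_le_iff₀ hD0]
  refine (sum_le_sum per).trans ?_
  rw [← mul_sum, sum_add_distrib, sum_const, nsmul_eq_mul, ← mul_sum, ← sum_filter,
    filter_mem_eq_inter, sum_const, nsmul_eq_mul, mul_assoc]
  refine mul_le_mul_of_nonneg_left ?_ hT.le
  have hlw := card_lowWheels_le (M := M) h
  have hin : ((wheels G ∩ lowWheels G).card : ℝ) ≤ (lowWheels G).card := by
    exact_mod_cast card_le_card inter_subset_right
  have hWh : Wh G M * D = (wheels G).card := by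
    rw [Wh, hD, div_mul_cancel₀]; positivity
  rw [← hx]
  rw [← hD] at hlw
  have := mul_le_mul_of_nonneg_left (hin.trans hlw) (mul_nonneg hx0 (by norm_num : (0 : ℝ) ≤ 8))
  calc ((wheels G).card : ℝ) * (1 - x / 2) + x * ((wheels G ∩ lowWheels G).card * 8)
      ≤ Wh G M * D * (1 - x / 2) + x * 8 * (10 ^ 11 * (D * (Rest G M / rt G ^ 4))) := by
        rw [hWh]; linarith
    _ = _ := by ring

end Vale.Agent.P046.Lin
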