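import Vale.Agent.P046.Lin.UStep
import Vale.Agent.P046.Lin.Moments
import Vale.Agent.P046.Lin.Wheels
import Vale.Agent.P046.Lin.PsiStep
import Vale.Agent.P046.Lin.Stops

/-!
The combined potential and its one-step bound.
-/

namespace Vale.Agent.P046.Lin

open Finset
open Track
open scoped Classical

variable {n : ℕ}

/-- The sum of the codegree moments carried along. -/
noncomputable def SX : Obs n := fun G M => ∑ k ∈ Icc 1 (2 * K + 2), X k G M

/-- The sum of the noise moments carried along. -/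
noncomputable def SW : Obs n := fun G M => ∑ k ∈ Icc 1 K, W k G M

/-- The combined potential, with weights depending on one constant. -/
structure Wts where
  /-- The common constant of the steps. -/
  C : ℝ
  one_le : 1 ≤ C

/-- The total weight of the forcing `gg * Rest`. -/
noncomputable def Wts.P (w : Wts) : ℝ := w.C + 8 * w.C ^ 2 + 64 * w.C ^ 3 + w.C ^ 2

/-- The combined potential. -/
noncomputable def Wts.B (w : Wts) : Obs n := fun G M =>
  1 + U G M + 4 * w.C * (Psi G M / gg G) + 32 * w.C ^ 2 * (Wh G M / gg G) + w.C * Z G M +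
    4 * (w.P + 256 * w.P * w.C) * (gg G * SX G M) + 4 * w.P * (gg G * SW G M)

/-- The growth rate of the combined potential. -/
noncomputable def Wts.K0 (w : Wts) : ℝ :=
  w.P + 528 * (w.P + 256 * w.P * w.C) * w.C + 256 * w.P * w.C

lemma Wts.one_le_P (w : Wts) : 1 ≤ w.P := by
  have := w.one_le; unfold Wts.P
  have : 0 ≤ 8 * w.C ^ 2 + 64 * w.C ^ 3 + w.C ^ 2 := by positivity
  linarith

lemma DriftLE.mono {Q : Obs n} {r r' : ℝ} {G : Finset (Sym2 (Fin n))} {M : Sym2 (Fin n) → ℝ}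
    (hQ : DriftLE Q r G M) (h : r ≤ r') : DriftLE Q r' G M := by
  unfold DriftLE at *
  have : 0 ≤ 3 / (G.card : ℝ) := by positivity
  nlinarith [mul_le_mul_of_nonneg_left h this]

/-- All steps with one constant. -/
structure Steps (n : ℕ) (C : ℝ) : Prop where
  sx : ∀ G : Finset (Sym2 (Fin n)), ∀ M, Stage G → DriftLE SX (-(SX G M) / 2 + C) G M
  sw : ∀ G : Finset (Sym2 (Fin n)), ∀ M, Stage G → DriftLE SW (-(SW G M) / 2 + C * (1 + SX G M)) G M
  wh : ∀ G : Finset (Sym2 (Fin n)), ∀ M, Stage G →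
    DriftLE Wh (-(Wh G M) / 2 + C * (Rest G M / rt G ^ 4)) G M
  psi : ∀ G : Finset (Sym2 (Fin n)), ∀ M, Stage G →
    DriftLE Psi (-(Psi G M) / 2 + C * (Wh G M + Rest G M / rt G ^ 4)) G M
  u : ∀ G : Finset (Sym2 (Fin n)), ∀ M, Stage G →
    DriftLE U (C * (gg G * Rest G M + Psi G M / gg G + Z G M)) G M
  z : ∀ G : Finset (Sym2 (Fin n)), ∀ M, Stage G →
    DriftLE Z (-(Z G M) + C * (Rest G M / rt G ^ 2)) G M
  y : ∀ G : Finset (Sym2 (Fin n)), ∀ M, Stage G → DriftLE Yp (C * (Rest G M / rt G ^ 12)) G M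

lemma next_sum {ι : Type*} (s : Finset ι) (Q : ι → Obs n) (G : Finset (Sym2 (Fin n)))
    (M : Sym2 (Fin n) → ℝ) :
    next (fun H N => ∑ k ∈ s, Q k H N) G M = ∑ k ∈ s, next (Q k) G M := by
  unfold next
  rw [← sum_div, sum_comm]

theorem exists_steps : ∃ C : ℝ, 1 ≤ C ∧ ∀ n, Steps n C := by
  choose cx hcx0 hcx using xStep
  choose cw hcw0 hcw using wStep
  obtain ⟨c1, h10, h1⟩ := whStep
  obtain ⟨c2, h20, h2⟩ := psiStep
  obtain ⟨c3, h30, h3⟩ := uStep
  obtain ⟨c4, h40, h4⟩ := zStep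
  obtain ⟨c5, h50, h5⟩ := yStep
  obtain ⟨SA, hA⟩ : ∃ SA, SA = ∑ k ∈ (Icc 1 (2 * K + 2)).attach, cx k.1 (mem_Icc.1 k.2).1 := ⟨_, rfl⟩
  obtain ⟨SB, hB⟩ : ∃ SB, SB = ∑ k ∈ (Icc 1 K).attach, cw k.1 (mem_Icc.1 k.2).1 := ⟨_, rfl⟩
  have hA0 : 0 ≤ SA := hA ▸ sum_nonneg fun k _ => hcx0 _ _
  have hB0 : 0 ≤ SB := hB ▸ sum_nonneg fun k _ => hcw0 _ _
  refine ⟨1 + SA + SB + c1 + c2 + c3 + c4 + c5, by linarith, fun n => ?_⟩
  have le : ∀ c, c ≤ SA + SB + c1 + c2 + c3 + c4 + c5 → ∀ v : ℝ, 0 ≤ v →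
      c * v ≤ (1 + SA + SB + c1 + c2 + c3 + c4 + c5) * v := fun c hc v hv =>
    mul_le_mul_of_nonneg_right (by linarith) hv
  refine ⟨?_, ?_, ?_, ?_, ?_, ?_, ?_⟩ <;> intro G M h
  · unfold DriftLE SX
    rw [next_sum, ← sum_attach, ← sum_attach (Icc 1 (2 * K + 2)) fun k => X k G M]
    refine (sum_le_sum fun k _ => hcx k.1 (mem_Icc.1 k.2).1 n G M h).trans ?_
    rw [sum_add_distrib, ← mul_sum, sum_add_distrib, ← sum_div, sum_neg_distrib, ← hA]
    have : 0 ≤ 3 / (G.card : ℝ) := by positivity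
    gcongr
    linarith
  · unfold DriftLE SW
    rw [next_sum, ← sum_attach, ← sum_attach (Icc 1 K) fun k => W k G M]
    have one : ∀ k ∈ (Icc 1 K).attach, next (W k.1) G M ≤ W k.1 G M + 3 / (G.card : ℝ) *
        (-(W k.1 G M) / 2 + cw k.1 (mem_Icc.1 k.2).1 * (1 + SX G M)) := by
      intro k _
      refine (hcw k.1 (mem_Icc.1 k.2).1 n G M h).trans ?_
      have := hcw0 k.1 (mem_Icc.1 k.2).1
      gcongr
      refine sum_le_sum_of_subset_of_nonneg (Icc_subset_Icc_right ?_) fun j _ _ => X_nonneg j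
      have := (mem_Icc.1 k.2).2; omega
    refine (sum_le_sum one).trans ?_
    rw [sum_add_distrib, ← mul_sum, sum_add_distrib, ← sum_div, sum_neg_distrib, ← sum_mul, ← hB]
    have h0 : (0 : ℝ) ≤ 1 + SX G M := by
      have : 0 ≤ SX G M := sum_nonneg fun k _ => X_nonneg k
      linarith
    have : 0 ≤ 3 / (G.card : ℝ) := by positivity
    gcongr
    linarith
  · exact (h1 n G M h).mono (add_le_add le_rfl (le _ (by linarith) _
      (div_nonneg Rest_nonneg (pow_nonneg h.rt_pos.le 4))))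
  · exact (h2 n G M h).mono (add_le_add le_rfl (le _ (by linarith) _
      (add_nonneg Wh_nonneg (div_nonneg Rest_nonneg (pow_nonneg h.rt_pos.le 4)))))
  · refine (h3 n G M h).mono (le _ (by linarith) _ ?_)
    have := mul_nonneg h.gg_pos.le (Rest_nonneg (G := G) (M := M))
    have := div_nonneg (Psi_nonneg (G := G) (M := M)) h.gg_pos.le
    have : 0 ≤ Z G M := by have := h.rt_pos; unfold Z; positivity
    linarith
  · exact (h4 n G M h).mono (add_le_add le_rfl (le _ (by linarith) _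
      (div_nonneg Rest_nonneg (pow_nonneg h.rt_pos.le 2))))
  · exact (h5 n G M h).mono (le _ (by linarith) _
      (div_nonneg Rest_nonneg (pow_nonneg h.rt_pos.le 12)))

/-- How the weights move in one step. -/
lemma weight_step {G : Finset (Sym2 (Fin n))} (h : Stage G) {t : Finset (Fin n)}
    (ht : t ∈ triangles G) :
    rt G * (1 - 1 / 5 * (3 / (G.card : ℝ))) ≤ rt (G \ edgesOf t) ∧
      rt (G \ edgesOf t) ≤ rt G * (1 - 1 / 8 * (3 / (G.card : ℝ))) ∧
      gg (G \ edgesOf t) ≤ gg G * (1 + 1 / 4 * (3 / (G.card : ℝ))) ∧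
      1 / gg (G \ edgesOf t) ≤ 1 / gg G * (1 + 1 / 4 * (3 / (G.card : ℝ))) := by
  obtain ⟨x, hx⟩ : ∃ x, x = 3 / (G.card : ℝ) := ⟨_, rfl⟩
  have hE := h.E_pos
  have hx0 : 0 ≤ x := by rw [hx]; positivity
  have hx1 : x ≤ 1 / 10 := by rw [hx, div_le_iff₀ hE]; linarith [h.big_E]
  obtain ⟨e1, -⟩ := rt_sdiff h ht
  rw [← hx] at e1 ⊢
  have hr := h.rt_pos
  have hr' : 0 ≤ rt (G \ edgesOf t) := Real.rpow_nonneg (mG_nonneg _) _
  have a : rt G * (1 - 1 / 5 * x) ≤ rt (G \ edgesOf t) := by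
    refine (pow_le_pow_iff_left₀ (mul_nonneg hr.le (by linarith)) hr' (show (8 : ℕ) ≠ 0 by norm_num)).1 ?_
    rw [e1, mul_pow]
    refine mul_le_mul_of_nonneg_left ?_ (by positivity)
    obtain ⟨z, hz⟩ : ∃ z, z = 1 - 1 / 5 * x := ⟨_, rfl⟩
    have z2 : z ^ 2 ≤ 1 - 39 / 100 * x := by
      rw [hz]; nlinarith [mul_le_mul_of_nonneg_left hx1 hx0]
    have z4 : z ^ 4 ≤ 1 - 7 / 10 * x := by
      calc z ^ 4 = (z ^ 2) ^ 2 := by ring
        _ ≤ (1 - 39 / 100 * x) ^ 2 := pow_le_pow_left₀ (sq_nonneg _) z2 2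
        _ ≤ _ := by nlinarith [mul_le_mul_of_nonneg_left hx1 hx0]
    rw [← hz]
    calc z ^ 8 = (z ^ 4) ^ 2 := by ring
      _ ≤ (1 - 7 / 10 * x) ^ 2 := pow_le_pow_left₀ (by positivity) z4 2
      _ ≤ _ := by nlinarith [mul_le_mul_of_nonneg_left hx1 hx0]
  have b : rt (G \ edgesOf t) ≤ rt G * (1 - 1 / 8 * x) := by
    refine (pow_le_pow_iff_left₀ hr' (mul_nonneg hr.le (by linarith)) (show (8 : ℕ) ≠ 0 by norm_num)).1 ?_
    rw [e1, mul_pow]
    refine mul_le_mul_of_nonneg_left ?_ (by positivity)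
    have := one_add_mul_le_pow (a := -(1 / 8 * x)) (by linarith) 8
    rw [← sub_eq_add_neg (1:ℝ) (1 / 8 * x)] at this
    push_cast at this; linarith
  have hpos : 0 < rt (G \ edgesOf t) := lt_of_lt_of_le (mul_pos hr (by linarith)) a
  have hrn : 0 < rn n := lt_of_lt_of_le hr h.rt_le_rn
  have hle : rt (G \ edgesOf t) ≤ rt G := b.trans (mul_le_of_le_one_right hr.le (by linarith))
  have hinv : 1 / rt (G \ edgesOf t) ≤ 1 / rt G * (1 + 1 / 4 * x) := by
    rw [div_le_iff₀ hpos]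
    calc (1 : ℝ) ≤ (1 + 1 / 4 * x) * (1 - 1 / 5 * x) := by
          nlinarith [mul_le_mul_of_nonneg_left hx1 hx0]
      _ = 1 / rt G * (1 + 1 / 4 * x) * (rt G * (1 - 1 / 5 * x)) := by field_simp
      _ ≤ _ := mul_le_mul_of_nonneg_left a (by positivity)
  refine ⟨a, b, ?_, ?_⟩
  · unfold gg
    rw [add_mul]
    refine add_le_add hinv ((div_le_div_of_nonneg_right hle hrn.le).trans ?_)
    exact le_mul_of_one_le_right (by positivity) (by linarith)
  · have h1 : gg G * (1 - 1 / 5 * x) ≤ gg (G \ edgesOf t) := by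
      unfold gg
      rw [add_mul]
      refine add_le_add ((mul_le_of_le_one_right (by positivity) (by linarith)).trans
        (one_div_le_one_div_of_le hpos hle)) ?_
      rw [div_mul_eq_mul_div]
      exact div_le_div_of_nonneg_right a hrn.le
    rw [div_le_iff₀ (lt_of_lt_of_le (mul_pos h.gg_pos (by linarith)) h1)]
    calc (1 : ℝ) ≤ (1 + 1 / 4 * x) * (1 - 1 / 5 * x) := by
          nlinarith [mul_le_mul_of_nonneg_left hx1 hx0]
      _ = 1 / gg G * (1 + 1 / 4 * x) * (gg G * (1 - 1 / 5 * x)) := by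
          have := h.gg_pos.ne'
          field_simp
      _ ≤ _ := mul_le_mul_of_nonneg_left h1 (by have := h.gg_pos; positivity)

/-- A damped quantity keeps its damping after multiplication by a slowly growing weight. -/
lemma weighted_le {f Q F q x : ℝ} (hf : 0 ≤ f) (hQ : 0 ≤ Q) (hF : 0 ≤ F) (hx : 0 ≤ x)
    (hx1 : x ≤ 1 / 10) (hq : q ≤ Q + x * (-Q / 2 + F)) :
    f * (1 + 1 / 4 * x) * q ≤ f * Q + x * (-(f * Q) / 4 + 2 * (f * F)) := by
  have h0 : 0 ≤ f * (1 + 1 / 4 * x) := by positivity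
  refine (mul_le_mul_of_nonneg_left hq h0).trans ?_
  have h1 : f * x * (1 / 4 * x * F) ≤ f * x * F := by
    refine mul_le_mul_of_nonneg_left (mul_le_of_le_one_left hF (by linarith)) (by positivity)
  nlinarith [mul_nonneg (mul_nonneg hf hQ) (mul_nonneg hx hx)]

lemma SX_nonneg {G : Finset (Sym2 (Fin n))} {M : Sym2 (Fin n) → ℝ} : 0 ≤ SX G M :=
  sum_nonneg fun k _ => X_nonneg k

lemma SW_nonneg {G : Finset (Sym2 (Fin n))} {M : Sym2 (Fin n) → ℝ} : 0 ≤ SW G M :=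
  sum_nonneg fun k _ => W_nonneg k

lemma Z_nonneg {G : Finset (Sym2 (Fin n))} {M : Sym2 (Fin n) → ℝ} : 0 ≤ Z G M :=
  mul_nonneg (pow_nonneg (Real.rpow_nonneg (mG_nonneg G) _) 18) (sq_nonneg _)

lemma gg_nonneg (G : Finset (Sym2 (Fin n))) : 0 ≤ gg G := by
  have : 0 ≤ rt G := Real.rpow_nonneg (mG_nonneg G) _
  have : 0 ≤ rn n := Real.rpow_nonneg (Nat.cast_nonneg n) _
  unfold gg; positivity

lemma Wts.one_le_B (w : Wts) {G : Finset (Sym2 (Fin n))} {M : Sym2 (Fin n) → ℝ} :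
    1 ≤ w.B G M := by
  have := w.one_le; have := w.one_le_P; have := gg_nonneg G
  have := U_nonneg (G := G) (M := M); have := Psi_nonneg (G := G) (M := M)
  have := Wh_nonneg (G := G) (M := M); have := Z_nonneg (G := G) (M := M)
  have := SX_nonneg (G := G) (M := M); have := SW_nonneg (G := G) (M := M)
  unfold Wts.B
  have h1 : 0 ≤ 4 * w.C * (Psi G M / gg G) := by positivity
  have h2 : 0 ≤ 32 * w.C ^ 2 * (Wh G M / gg G) := by positivity
  have h3 : 0 ≤ w.C * Z G M := by positivity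
  have h4 : 0 ≤ 4 * (w.P + 256 * w.P * w.C) * (gg G * SX G M) := by positivity
  have h5 : 0 ≤ 4 * w.P * (gg G * SW G M) := by positivity
  linarith

lemma Wts.SX_le_B (w : Wts) {G : Finset (Sym2 (Fin n))} {M : Sym2 (Fin n) → ℝ} :
    gg G * (SX G M + SW G M) + U G M + 1 ≤ w.B G M := by
  have := w.one_le; have := w.one_le_P; have hg := gg_nonneg G
  have := Psi_nonneg (G := G) (M := M)
  have := Wh_nonneg (G := G) (M := M); have := Z_nonneg (G := G) (M := M)
  have h1 : 0 ≤ 4 * w.C * (Psi G M / gg G) := by positivity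
  have h2 : 0 ≤ 32 * w.C ^ 2 * (Wh G M / gg G) := by positivity
  have h3 : 0 ≤ w.C * Z G M := by positivity
  have hpc : 0 ≤ w.P * w.C := by positivity
  have h4 : gg G * SX G M ≤ 4 * (w.P + 256 * w.P * w.C) * (gg G * SX G M) :=
    le_mul_of_one_le_left (mul_nonneg hg SX_nonneg) (by linarith)
  have h5 : gg G * SW G M ≤ 4 * w.P * (gg G * SW G M) :=
    le_mul_of_one_le_left (mul_nonneg hg SW_nonneg) (by linarith)
  unfold Wts.B
  rw [mul_add]
  linarith

lemma Rest_eq {G : Finset (Sym2 (Fin n))} {M : Sym2 (Fin n) → ℝ} :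
    Rest G M = 1 + U G M + SX G M + SW G M := rfl

/-- The scalar combination of the steps. -/
lemma combine {T x C P g u ps wh z sx sw q4 q2 R : ℝ} (hR : R = 1 + u + sx + sw)
    (hP : P = C + 8 * C ^ 2 + 64 * C ^ 3 + C ^ 2) (hT : 0 ≤ T) (hx : 0 ≤ x) (hC : 1 ≤ C)
    (hg : 0 < g) (hu : 0 ≤ u) (hps : 0 ≤ ps) (hwh : 0 ≤ wh) (hz : 0 ≤ z) (hsx : 0 ≤ sx)
    (hsw : 0 ≤ sw) (g1 : 1 / g * q4 ≤ g * R) (g2 : q2 ≤ g * R) :
    T * 1 + T * (u + x * (C * (g * R + ps / g + z))) +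
      4 * C * (T * (1 / g * ps + x * (-(1 / g * ps) / 4 + 2 * (1 / g * (C * (wh + q4)))))) +
      32 * C ^ 2 * (T * (1 / g * wh + x * (-(1 / g * wh) / 4 + 2 * (1 / g * (C * q4))))) +
      C * (T * (z + x * (-z + C * q2))) +
      4 * (P + 256 * P * C) * (T * (g * sx + x * (-(g * sx) / 4 + 2 * (g * C)))) +
      4 * P * (T * (g * sw + x * (-(g * sw) / 4 + 2 * (g * (C * (1 + sx)))))) ≤
    T * ((1 + u + 4 * C * (ps / g) + 32 * C ^ 2 * (wh / g) + C * z +
      4 * (P + 256 * P * C) * (g * sx) + 4 * P * (g * sw)) *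
      (1 + x * ((P + 528 * (P + 256 * P * C) * C + 256 * P * C) * g))) := by
  obtain ⟨A, hA⟩ : ∃ A, A = ps / g := ⟨_, rfl⟩
  obtain ⟨B, hB⟩ : ∃ B, B = wh / g := ⟨_, rfl⟩
  obtain ⟨q, hq⟩ : ∃ q, q = 1 / g * q4 := ⟨_, rfl⟩
  have hA0 : 0 ≤ A := by rw [hA]; positivity
  have hB0 : 0 ≤ B := by rw [hB]; positivity
  have hP0 : 0 ≤ P := by rw [hP]; positivity
  obtain ⟨S, hS⟩ : ∃ S, S = 4 * C * A + 32 * C ^ 2 * B + C * z +
      4 * (P + 256 * P * C) * (g * sx) + 4 * P * (g * sw) := ⟨_, rfl⟩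
  have hS0 : 0 ≤ S := by rw [hS]; positivity
  obtain ⟨k0, hk⟩ : ∃ k0, k0 = P + 528 * (P + 256 * P * C) * C + 256 * P * C := ⟨_, rfl⟩
  have hk0 : 0 ≤ k0 := by rw [hk]; positivity
  obtain ⟨dr, hdr⟩ : ∃ dr, dr = C * (g * R + A + z) + 4 * C * (-A / 4 + 2 * (C * B + C * q)) +
      32 * C ^ 2 * (-B / 4 + 2 * (C * q)) + C * (-z + C * q2) +
      4 * (P + 256 * P * C) * (-(g * sx) / 4 + 2 * (g * C)) +
      4 * P * (-(g * sw) / 4 + 2 * (g * C + g * (C * sx))) := ⟨_, rfl⟩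
  have key : dr ≤ k0 * g * (1 + u + S) := by
    have m1 := mul_le_mul_of_nonneg_left (hq ▸ g1 : q ≤ g * R)
      (show 0 ≤ 8 * C ^ 2 + 64 * C ^ 3 by positivity)
    have m2 := mul_le_mul_of_nonneg_left g2 (show 0 ≤ C ^ 2 by positivity)
    have m3 : 0 ≤ k0 * g * S := by positivity
    have m4 : P * (g * u) ≤ k0 * (g * u) := by
      refine mul_le_mul_of_nonneg_right ?_ (by positivity)
      rw [hk]; have : 0 ≤ (P + 256 * P * C) * C := by positivity
      have : 0 ≤ P * C := by positivity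
      linarith
    have m5 : 0 ≤ (P + 256 * P * C) * C * g := by positivity
    have m6 : 0 ≤ P * C * g := by positivity
    have m7 : 0 ≤ P * C * (g * sx) := by positivity
    rw [hdr, hk] at *
    rw [hR] at m1 m2 ⊢
    rw [hP] at *
    nlinarith
  calc _ = T * (1 + u + S) + T * (x * dr) := by rw [hS, hdr, hA, hB, hq]; ring
    _ ≤ T * (1 + u + S) + T * (x * (k0 * g * (1 + u + S))) := by gcongr
    _ = _ := by rw [hS, hk, hA, hB]; ring

/-- One step of the combined potential. -/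
theorem Wts.B_step (w : Wts) (hs : Steps n w.C) {G : Finset (Sym2 (Fin n))}
    {M : Sym2 (Fin n) → ℝ} (h : Stage G) :
    ∑ t ∈ triangles G, w.B (G \ edgesOf t) (stepM G M t) ≤
      (triangles G).card * (w.B G M * (1 + 3 / (G.card : ℝ) * (w.K0 * gg G))) := by
  obtain ⟨x, hx⟩ : ∃ x, x = 3 / (G.card : ℝ) := ⟨_, rfl⟩
  have hE := h.E_pos; have hT := h.T_pos; have hr := h.rt_pos; have hg := h.gg_pos
  have hx0 : 0 ≤ x := by rw [hx]; positivity
  have hx1 : x ≤ 1 / 10 := by rw [hx, div_le_iff₀ hE]; linarith [h.big_E]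
  have hC := w.one_le; have hP := w.one_le_P
  obtain ⟨R, hR⟩ : ∃ R, R = Rest G M := ⟨_, rfl⟩
  have hR0 : 0 ≤ R := hR ▸ Rest_nonneg
  have sum_le : ∀ {Q : Obs n} {r : ℝ}, DriftLE Q r G M →
      ∑ t ∈ triangles G, Q (G \ edgesOf t) (stepM G M t) ≤ (triangles G).card * (Q G M + x * r) := by
    intro Q r hq
    unfold DriftLE next at hq
    rw [div_le_iff₀ hT, ← hx] at hq; linarith
  have wsum : ∀ {Q : Obs n} {f : Finset (Sym2 (Fin n)) → ℝ} {F : ℝ}, 0 ≤ F → 0 ≤ f G →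
      (∀ H N, 0 ≤ Q H N) → (∀ t ∈ triangles G, f (G \ edgesOf t) ≤ f G * (1 + 1 / 4 * x)) →
      DriftLE Q (-(Q G M) / 2 + F) G M →
      ∑ t ∈ triangles G, f (G \ edgesOf t) * Q (G \ edgesOf t) (stepM G M t) ≤
        (triangles G).card * (f G * Q G M + x * (-(f G * Q G M) / 4 + 2 * (f G * F))) := by
    intro Q f F hF hf hQ hw hq
    refine (sum_le_sum fun t ht => mul_le_mul_of_nonneg_right (hw t ht) (hQ _ _)).trans ?_
    rw [← mul_sum]
    refine (mul_le_mul_of_nonneg_left (sum_le hq) (by positivity)).trans ?_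
    rw [mul_left_comm]
    exact mul_le_mul_of_nonneg_left (weighted_le hf (hQ _ _) hF hx0 hx1 le_rfl) hT.le
  have w1 := fun t ht => (weight_step h (t := t) ht).2.2.1
  have w2 := fun t ht => (weight_step h (t := t) ht).2.2.2
  rw [← hx] at w1 w2
  have hg0 : 0 ≤ 1 / gg G := by positivity
  have h4 : 0 ≤ R / rt G ^ 4 := by positivity
  have sPsi := wsum (Q := Psi) (f := fun H => 1 / gg H) (F := w.C * (Wh G M + R / rt G ^ 4))
    (mul_nonneg (by linarith) (add_nonneg Wh_nonneg h4)) hg0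
    (fun _ _ => Psi_nonneg) w2 (hR ▸ hs.psi G M h)
  have sWh := wsum (Q := Wh) (f := fun H => 1 / gg H) (F := w.C * (R / rt G ^ 4))
    (mul_nonneg (by linarith) h4) hg0 (fun _ _ => Wh_nonneg) w2 (hR ▸ hs.wh G M h)
  have sX := wsum (Q := SX) (f := gg) (F := w.C) (by linarith) hg.le
    (fun _ _ => SX_nonneg) w1 (hs.sx G M h)
  have sW := wsum (Q := SW) (f := gg) (F := w.C * (1 + SX G M))
    (mul_nonneg (by linarith) (by linarith [SX_nonneg (G := G) (M := M)])) hg.le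
    (fun _ _ => SW_nonneg) w1 (hs.sw G M h)
  have sU := sum_le (hs.u G M h)
  have sZ := sum_le (hs.z G M h)
  rw [← hR] at sU sZ
  have hsplit : ∑ t ∈ triangles G, w.B (G \ edgesOf t) (stepM G M t) =
      (triangles G).card * 1 + ∑ t ∈ triangles G, U (G \ edgesOf t) (stepM G M t) +
      4 * w.C * ∑ t ∈ triangles G, 1 / gg (G \ edgesOf t) * Psi (G \ edgesOf t) (stepM G M t) +
      32 * w.C ^ 2 * ∑ t ∈ triangles G, 1 / gg (G \ edgesOf t) * Wh (G \ edgesOf t) (stepM G M t) +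
      w.C * ∑ t ∈ triangles G, Z (G \ edgesOf t) (stepM G M t) +
      4 * (w.P + 256 * w.P * w.C) *
        ∑ t ∈ triangles G, gg (G \ edgesOf t) * SX (G \ edgesOf t) (stepM G M t) +
      4 * w.P * ∑ t ∈ triangles G, gg (G \ edgesOf t) * SW (G \ edgesOf t) (stepM G M t) := by
    rw [mul_sum, mul_sum, mul_sum, mul_sum, mul_sum, ← nsmul_eq_mul, ← sum_const,
      ← sum_add_distrib, ← sum_add_distrib, ← sum_add_distrib, ← sum_add_distrib, ← sum_add_distrib,
      ← sum_add_distrib]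
    refine sum_congr rfl fun t _ => ?_
    rw [Wts.B]; ring
  rw [hsplit]
  have u1 := mul_le_mul_of_nonneg_left sPsi (show 0 ≤ 4 * w.C by linarith)
  have u2 := mul_le_mul_of_nonneg_left sWh (show 0 ≤ 32 * w.C ^ 2 by positivity)
  have u3 := mul_le_mul_of_nonneg_left sZ (show 0 ≤ w.C by linarith)
  have u4 := mul_le_mul_of_nonneg_left sX
    (show 0 ≤ 4 * (w.P + 256 * w.P * w.C) by positivity)
  have u5 := mul_le_mul_of_nonneg_left sW (show 0 ≤ 4 * w.P by positivity)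
  refine (add_le_add (add_le_add (add_le_add (add_le_add (add_le_add (add_le_add le_rfl sU) u1) u2)
    u3) u4) u5).trans ?_
  rw [← hx]
  have hgh := h.inv_rt_le_gg
  have g1 : 1 / gg G * (R / rt G ^ 4) ≤ gg G * R := by
    have h1 : (1 / rt G) ^ 2 ≤ gg G ^ 2 := pow_le_pow_left₀ (by positivity) hgh 2
    rw [div_mul_div_comm, one_mul, div_le_iff₀ (by positivity)]
    rw [div_pow, one_pow, div_le_iff₀ (by positivity)] at h1
    have : rt G ^ 2 ≤ rt G ^ 4 := pow_le_pow_right₀ h.one_le_rt (by norm_num)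
    have : 1 ≤ gg G ^ 2 * rt G ^ 4 :=
      h1.trans (mul_le_mul_of_nonneg_left this (sq_nonneg _))
    nlinarith [mul_le_mul_of_nonneg_left this hR0]
  have g2 : R / rt G ^ 2 ≤ gg G * R := by
    rw [div_eq_inv_mul]
    refine mul_le_mul_of_nonneg_right (le_trans ?_ hgh) hR0
    rw [← one_div]
    exact one_div_le_one_div_of_le hr (le_self_pow₀ h.one_le_rt (by norm_num))
  exact combine (hR ▸ Rest_eq) rfl hT.le hx0 hC hg U_nonneg Psi_nonneg Wh_nonneg Z_nonneg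
    SX_nonneg SW_nonneg g1 g2

end Vale.Agent.P046.Lin
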