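import Vale.Agent.P046.Track.G

/-!
The three-edge inequality when the deviations of a triangle are not exactly the arguments of the
potential: an error linear in the mismatch.
-/

namespace Vale.Agent.P046.Lin

open Track

lemma φ_le_sq (x : ℝ) : φ x ≤ x ^ 2 := by
  unfold φ
  split_ifs with h
  · have : 31 / 32 / (1 + x) ≤ 31 / 32 := div_le_self (by norm_num) (by linarith)
    nlinarith [sq_nonneg x]
  · exact div_le_self (sq_nonneg x) (by linarith [not_le.1 h])

lemma abs_ψ_le_all (d : ℝ) : |ψ d| ≤ 2 * |d| := by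
  rcases le_or_gt 0 d with h | h
  · exact abs_ψ_le (by linarith)
  · obtain ⟨e, rfl, he⟩ : ∃ e, d = -e ∧ 0 ≤ e := ⟨-d, by ring, by linarith⟩
    rw [ψ_neg_eq he, abs_neg, abs_neg, abs_of_nonneg he, abs_of_nonneg (κ_nonneg he)]
    have := two_sub_κ he
    have : 0 ≤ 9 * e ^ 2 * (1 + 2 * e) / (1 + 3 * e) ^ 2 := by positivity
    linarith

lemma abs_ψ_sub_le_all (d : ℝ) : |ψ d - 2 * d| ≤ 288 * φ d := by
  rcases le_or_gt 0 d with h | h
  · exact abs_ψ_sub_le (by linarith)
  · obtain ⟨e, rfl, he⟩ : ∃ e, d = -e ∧ 0 ≤ e := ⟨-d, by ring, by linarith⟩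
    rw [ψ_neg_eq he, show -κ e - 2 * -e = 2 * e - κ e by ring, two_sub_κ he,
      abs_of_nonneg (by positivity), φ, if_neg (by linarith),
      show (1 : ℝ) - 3 * -e = 1 + 3 * e by ring, neg_sq, ← mul_div_assoc,
      div_le_div_iff₀ (by positivity) (by positivity)]
    nlinarith [mul_nonneg (mul_nonneg (sq_nonneg e) he) (show (0 : ℝ) ≤ 1 + 3 * e by linarith),
      mul_nonneg (sq_nonneg e) (show (0 : ℝ) ≤ 1 + 3 * e by linarith)]

/-- The second-order Taylor bound on the whole line. -/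
lemma φ_taylor_all (a b : ℝ) : φ b ≤ φ a + ψ a * (b - a) + 3 * (b - a) ^ 2 := by
  have ha := abs_le.1 (abs_ψ_le_all a)
  rcases le_or_gt 0 a with h | h <;> rcases le_or_gt 0 b with h' | h'
  · exact φ_taylor (by linarith) (by linarith)
  · rw [abs_of_nonneg h] at ha
    nlinarith [φ_le_sq b, φ_nonneg a, ha.1, ha.2]
  · rw [abs_of_neg h] at ha
    nlinarith [φ_le_sq b, φ_nonneg a, ha.1, ha.2]
  · have h1 : 1 - 3 * a ≠ 0 := by linarith
    have h2 : 1 - 3 * b ≠ 0 := by linarith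
    have h1' : 1 - a * 3 ≠ 0 := by linarith
    have h2' : 1 - b * 3 ≠ 0 := by linarith
    have key : φ b - φ a - ψ a * (b - a) =
        (b - a) ^ 2 / ((1 - 3 * a) ^ 2 * (1 - 3 * b)) := by
      rw [φ, φ, ψ, if_neg (not_le.2 h), if_neg (not_le.2 h'), if_neg (not_le.2 h)]
      field_simp; ring
    have : (b - a) ^ 2 / ((1 - 3 * a) ^ 2 * (1 - 3 * b)) ≤ (b - a) ^ 2 :=
      div_le_self (sq_nonneg _) (by nlinarith)
    nlinarith [sq_nonneg (b - a)]

/-- The potential grows linearly. -/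
lemma lin_le_φ {d : ℝ} (hd : -2 ≤ d) : 9 / 10 * |d| - 2 ≤ φ d := by
  rcases le_or_gt 0 d with h | h
  · rw [abs_of_nonneg h, φ, if_pos h]
    have e : d ^ 2 * (31 / 32 / (1 + d)) = 31 / 32 * (d - 1 + 1 / (1 + d)) := by
      have : 1 + d ≠ 0 := by linarith
      field_simp; ring
    have : 0 ≤ 1 / (1 + d) := by positivity
    nlinarith [sq_nonneg d]
  · have := φ_nonneg d
    rw [abs_of_neg h]; linarith

/-- One cross term when the other two deviations are at least `-2`. -/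
lemma cross_ge {x y z : ℝ} (hx : -(257 / 256) ≤ x) (hx' : x ≤ 0) (hz : -(257 / 256) ≤ z) :
    -(2.01 + 2.01 / 16 * |y| + |z| / 3) ≤ (x + z) * ψ y := by
  rcases le_or_gt 0 y with h | h
  · have h0 : 0 ≤ ψ y := (ρ_nonneg h).trans (ψ_ge_ρ h)
    have h1 : ψ y ≤ 1 + y / 16 := by
      have : ρ y ≤ 1 := by
        rw [ρ, div_le_one (by positivity)]; nlinarith
      rw [ψ, if_pos h]; linarith
    rw [abs_of_nonneg h]
    have hz3 : 0 ≤ |z| / 3 := by positivity
    nlinarith [mul_le_mul_of_nonneg_right (show -(2.01 : ℝ) ≤ x + z by norm_num; linarith) h0]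
  · obtain ⟨e, rfl, he⟩ : ∃ e, y = -e ∧ 0 ≤ e := ⟨-y, by ring, by linarith⟩
    rw [ψ_neg_eq he]
    have h1 : κ e ≤ 1 / 3 := by
      rw [κ, div_le_iff₀ (by positivity)]; nlinarith
    have h2 := mul_le_mul_of_nonneg_right (show x + z ≤ |z| by linarith [le_abs_self z]) (κ_nonneg he)
    have h3 := mul_le_mul_of_nonneg_left h1 (abs_nonneg z)
    have h4 : 0 ≤ 2.01 / 16 * |(-e : ℝ)| := by positivity
    nlinarith

/-- The left-hand side of the three-edge inequality, in deviations `x y z` and weights `a b c`. -/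
noncomputable def triF (x y z a b c : ℝ) : ℝ :=
  φ x * (1 + 1 / a) + φ y * (1 + 1 / b) + φ z * (1 + 1 / c) +
    ((y + z) * ψ x + (x + z) * ψ y + (x + y) * ψ z)

/-- One deviation next to `-1` makes the expression positive. -/
lemma triF_nonneg_of_low {x y z a b c : ℝ} (ha : 0 < a) (hb : 0 < b) (hc : 0 < c)
    (ha' : a ≤ 3 / 256) (hx : -(257 / 256) ≤ x) (hx' : x ≤ -(127 / 128))
    (hy : -(257 / 256) ≤ y) (hz : -(257 / 256) ≤ z) : 0 ≤ triF x y z a b c := by
  have hφ : 24 / 100 ≤ φ x := by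
    rw [φ, if_neg (by linarith), le_div_iff₀ (by linarith)]
    nlinarith
  have h1 : 20 ≤ φ x * (1 + 1 / a) := by
    have : 256 / 3 ≤ 1 / a := by rw [le_div_iff₀ ha]; linarith
    nlinarith
  have h2 : φ y ≤ φ y * (1 + 1 / b) := by
    have := φ_nonneg y
    have : 0 ≤ 1 / b := by positivity
    nlinarith
  have h3 : φ z ≤ φ z * (1 + 1 / c) := by
    have := φ_nonneg z
    have : 0 ≤ 1 / c := by positivity
    nlinarith
  have h4 : -((|y| + |z|) / 3) ≤ (y + z) * ψ x := by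
    obtain ⟨e, rfl, he⟩ : ∃ e, x = -e ∧ 0 ≤ e := ⟨-x, by ring, by linarith⟩
    rw [ψ_neg_eq he]
    have h5 : κ e ≤ 1 / 3 := by rw [κ, div_le_iff₀ (by positivity)]; nlinarith
    have := mul_le_mul (show y + z ≤ |y| + |z| by linarith [le_abs_self y, le_abs_self z]) h5
      (κ_nonneg he) (by positivity)
    linarith
  have h5 := cross_ge (y := y) hx (by linarith) hz
  have h6 := cross_ge (y := z) hx (by linarith) hy
  have h7 := lin_le_φ (show -2 ≤ y by linarith)
  have h8 := lin_le_φ (show -2 ≤ z by linarith)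
  have := abs_nonneg y
  have := abs_nonneg z
  norm_num at h5 h6
  unfold triF
  linarith

lemma cross_abs_le (x y z : ℝ) : -(4 * (x ^ 2 + y ^ 2 + z ^ 2)) ≤
    (y + z) * ψ x + (x + z) * ψ y + (x + y) * ψ z := by
  have h : ∀ p q r : ℝ, -((|q| + |r|) * (2 * |p|)) ≤ (q + r) * ψ p := fun p q r => by
    have := mul_le_mul (abs_add_le q r) (abs_ψ_le_all p) (abs_nonneg _) (by positivity)
    rw [← abs_mul] at this
    linarith [neg_abs_le ((q + r) * ψ p)]
  nlinarith [h x y z, h y x z, h z x y, sq_abs x, sq_abs y, sq_abs z, sq_nonneg (|x| - |y|),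
    sq_nonneg (|x| - |z|), sq_nonneg (|y| - |z|)]

/-- The robust three-edge inequality. -/
theorem key_robust {x y z a b c : ℝ} (ha : 0 < a) (hb : 0 < b) (hc : 0 < c) :
    -(65536 * ((|a - 1 - x| + |b - 1 - y| + |c - 1 - z|) * (x ^ 2 + y ^ 2 + z ^ 2))) ≤
      triF x y z a b c := by
  obtain ⟨Q, hQ⟩ : ∃ Q, Q = x ^ 2 + y ^ 2 + z ^ 2 := ⟨_, rfl⟩
  have hQ0 : 0 ≤ Q := by rw [hQ]; positivity
  rw [← hQ]
  rcases le_or_gt (1 / 256) (|a - 1 - x| + |b - 1 - y| + |c - 1 - z|) with hM | hM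
  · have h0 : 0 ≤ φ x * (1 + 1 / a) + φ y * (1 + 1 / b) + φ z * (1 + 1 / c) := by
      have := φ_nonneg x; have := φ_nonneg y; have := φ_nonneg z; positivity
    have h1 := cross_abs_le x y z
    rw [← hQ] at h1
    have h2 := mul_le_mul_of_nonneg_right hM hQ0
    unfold triF; linarith
  obtain ⟨hx, hy, hz⟩ : |a - 1 - x| < 1 / 256 ∧ |b - 1 - y| < 1 / 256 ∧ |c - 1 - z| < 1 / 256 := by
    have := abs_nonneg (a - 1 - x); have := abs_nonneg (b - 1 - y)
    have := abs_nonneg (c - 1 - z)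
    exact ⟨by linarith, by linarith, by linarith⟩
  obtain ⟨hx1, hx2⟩ := abs_lt.1 hx
  obtain ⟨hy1, hy2⟩ := abs_lt.1 hy
  obtain ⟨hz1, hz2⟩ := abs_lt.1 hz
  have hR : 0 ≤ 65536 * ((|a - 1 - x| + |b - 1 - y| + |c - 1 - z|) * Q) := by positivity
  rcases le_or_gt x (-(127 / 128)) with h | hxl
  · linarith [triF_nonneg_of_low (y := y) (z := z) ha hb hc (by linarith) (by linarith) h
      (by linarith) (by linarith)]
  rcases le_or_gt y (-(127 / 128)) with h | hyl
  · have := triF_nonneg_of_low (y := x) (z := z) hb ha hc (by linarith) (by linarith) h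
      (by linarith) (by linarith)
    unfold triF at this ⊢; linarith
  rcases le_or_gt z (-(127 / 128)) with h | hzl
  · have := triF_nonneg_of_low (y := x) (z := y) hc ha hb (by linarith) (by linarith) h
      (by linarith) (by linarith)
    unfold triF at this ⊢; linarith
  have h := Track.ineq (show -1 < x by linarith) (show -1 < y by linarith)
    (show -1 < z by linarith)
  have one : ∀ d w : ℝ, -(127 / 128) < d → 1 / 256 ≤ w →
      φ d * (1 + 1 / (1 + d)) - 32768 * (|w - 1 - d| * d ^ 2) ≤ φ d * (1 + 1 / w) := by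
    intro d w hd hw
    have hd0 : 0 < 1 + d := by linarith
    have hw0 : 0 < w := by linarith
    have e1 : 1 / (1 + d) - 1 / w = (w - 1 - d) / ((1 + d) * w) := by field_simp; ring
    have e2 : 1 / (1 + d) - 1 / w ≤ 32768 * |w - 1 - d| := by
      rw [e1, div_le_iff₀ (by positivity)]
      have : (1 : ℝ) / 32768 ≤ (1 + d) * w := by
        have := mul_le_mul (show (1 : ℝ) / 128 ≤ 1 + d by linarith) hw (by norm_num) hd0.le
        linarith
      nlinarith [le_abs_self (w - 1 - d), abs_nonneg (w - 1 - d)]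
    have e3 : φ d * (32768 * |w - 1 - d|) ≤ d ^ 2 * (32768 * |w - 1 - d|) :=
      mul_le_mul_of_nonneg_right (φ_le_sq d) (by positivity)
    have := mul_le_mul_of_nonneg_left e2 (φ_nonneg d)
    linarith
  have o1 := one x a hxl (by linarith)
  have o2 := one y b hyl (by linarith)
  have o3 := one z c hzl (by linarith)
  have hs : |a - 1 - x| * x ^ 2 + |b - 1 - y| * y ^ 2 + |c - 1 - z| * z ^ 2 ≤
      (|a - 1 - x| + |b - 1 - y| + |c - 1 - z|) * Q := by
    rw [hQ]
    nlinarith [mul_nonneg (abs_nonneg (a - 1 - x)) (sq_nonneg y),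
      mul_nonneg (abs_nonneg (a - 1 - x)) (sq_nonneg z),
      mul_nonneg (abs_nonneg (b - 1 - y)) (sq_nonneg x),
      mul_nonneg (abs_nonneg (b - 1 - y)) (sq_nonneg z),
      mul_nonneg (abs_nonneg (c - 1 - z)) (sq_nonneg x),
      mul_nonneg (abs_nonneg (c - 1 - z)) (sq_nonneg y)]
  have hs0 : 0 ≤ |a - 1 - x| * x ^ 2 + |b - 1 - y| * y ^ 2 + |c - 1 - z| * z ^ 2 := by positivity
  simp only [Nd] at h
  unfold triF
  linarith

end Vale.Agent.P046.Lin
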