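import Vale.Agent.P046.Lin.Pot
import Vale.Agent.P046.Lin.Low.Main

/-!
Random triangle removal leaves `n^{3/2}` edges in order, in mean, with an upper tail that decays
like a power above one.
-/

namespace Vale.Agent.P046.Lin

open Finset
open Track
open scoped Classical

variable {n : ℕ}

/-- The number of edges at stage `h0`. -/
noncomputable def stageE (n : ℕ) (h0 : ℝ) : ℝ := h0 ^ 8 * (n : ℝ) ^ (3 / 2 : ℝ) / 2

lemma sq_rpow (n : ℕ) : ((n : ℝ) ^ (3 / 2 : ℝ)) ^ 2 = (n : ℝ) ^ 3 := by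
  rw [← Real.rpow_natCast, ← Real.rpow_mul (Nat.cast_nonneg n)]; norm_num

lemma le_rpow_n (hn : 1 ≤ n) : (1 : ℝ) ≤ (n : ℝ) ^ (3 / 2 : ℝ) :=
  Real.one_le_rpow (by exact_mod_cast hn) (by norm_num)

lemma pow_at (n : ℕ) (hn : 1 ≤ n) (h0 E : ℝ) :
    mE n E = h0 ^ 16 * (E / stageE n h0) ^ 2 ∨ h0 = 0 := by
  rcases eq_or_ne h0 0 with h | h
  · exact Or.inr h
  · left
    have hn0 : (n : ℝ) ≠ 0 := Nat.cast_ne_zero.2 (by omega)
    rw [mE, stageE, div_pow, div_pow, mul_pow, ← pow_mul, sq_rpow]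
    field_simp
    ring

lemma rt16_stage {h0 : ℝ} (hn : 1 ≤ n) (h0pos : 0 < h0) (G : Finset (Sym2 (Fin n))) :
    rt G ^ 16 = h0 ^ 16 * ((G.card : ℝ) / stageE n h0) ^ 2 := by
  rw [rt_pow, mG]
  exact (pow_at n hn h0 _).resolve_right h0pos.ne'

lemma stageE_big {h0 : ℝ} (hn : 1 ≤ n) (hb : 20000 ≤ h0) : 100 ≤ stageE n h0 := by
  unfold stageE
  have h1 : (200 : ℝ) ≤ h0 ^ 8 := le_trans (by linarith) (le_self_pow₀ (by linarith) (by norm_num))
  nlinarith [mul_le_mul h1 (le_rpow_n hn) zero_le_one (by positivity)]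

/-- States above, near and below the stage. -/
lemma stage_facts {h0 : ℝ} (hn : 1 ≤ n) (hb : 20000 ≤ h0) (G : Finset (Sym2 (Fin n))) :
    (stageE n h0 < G.card → h0 ≤ rt G) ∧
      (stageE n h0 - 3 < G.card → 9 / 10 * h0 ^ 16 ≤ rt G ^ 16) ∧
      ((G.card : ℝ) ≤ stageE n h0 → rt G ≤ h0) := by
  have h0pos : 0 < h0 := by linarith
  have hE := stageE_big hn hb
  have hr : 0 ≤ rt G := Real.rpow_nonneg (mG_nonneg G) _
  have e := rt16_stage hn h0pos G
  refine ⟨fun h => ?_, fun h => ?_, fun h => ?_⟩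
  · refine (pow_le_pow_iff_left₀ h0pos.le hr (show (16 : ℕ) ≠ 0 by norm_num)).1 ?_
    rw [e]
    refine le_mul_of_one_le_right (by positivity) (one_le_pow₀ ?_)
    rw [one_le_div (by linarith)]; exact h.le
  · rw [e, mul_comm (h0 ^ 16)]
    refine mul_le_mul_of_nonneg_right ?_ (by positivity)
    have h1 : 97 / 100 ≤ (G.card : ℝ) / stageE n h0 := by
      rw [le_div_iff₀ (by linarith)]; linarith
    nlinarith [mul_le_mul h1 h1 (by norm_num) ((by norm_num : (0:ℝ) ≤ 97/100).trans h1)]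
  · refine (pow_le_pow_iff_left₀ hr h0pos.le (show (16 : ℕ) ≠ 0 by norm_num)).1 ?_
    rw [e]
    refine mul_le_of_le_one_right (by positivity) (pow_le_one₀ (by positivity) ?_)
    rw [div_le_one (by linarith)]; exact h

lemma mkStage {h0 : ℝ} (hb : 20000 ≤ h0) {G : Finset (Sym2 (Fin n))} {M : Sym2 (Fin n) → ℝ}
    (hsub : G ⊆ completeEdges n) (hG : 9 / 10 * h0 ^ 16 ≤ rt G ^ 16) (hY : Yp G M < 1) : Stage G :=
  ⟨hsub, le_trans (by linarith) (allow_nonneg (by linarith) hG).2, hY⟩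

lemma Ev_tail_zero {E0 : ℝ} (G : Finset (Sym2 (Fin n))) (h : (G.card : ℝ) ≤ E0) :
    Ev (tail E0) G = 0 := by
  induction hk : G.card using Nat.strong_induction_on generalizing G with
  | _ k ih =>
    by_cases ht : triangles G = ∅
    · rw [Ev_of_empty ht, tail, if_neg (not_lt.2 h)]
    · rw [Ev_of_nonempty ht, sum_eq_zero, zero_div]
      intro t hT
      refine ih _ (hk ▸ card_sdiff_lt_of_triangle hT) _ ?_ rfl
      rw [card_sdiff_edgesOf hT]; linarith

theorem Wts.tail_bound (w : Wts) (hs : Steps n w.C) {h0 : ℝ} (hn : 1 ≤ n) (hb : 20000 ≤ h0)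
    (G : Finset (Sym2 (Fin n))) (M : Sym2 (Fin n) → ℝ) (hsub : G ⊆ completeEdges n)
    (hE : stageE n h0 < G.card) :
    Ev (tail (stageE n h0)) G ≤ w.pot h0 0 G M := by
  induction hk : G.card using Nat.strong_induction_on generalizing G M with
  | _ k ih =>
    have h0pos : (0 : ℝ) < h0 := by linarith
    obtain ⟨f1, f2, -⟩ := stage_facts hn hb G
    have hr := f2 (by linarith)
    have hx := w.extra_nonneg h0pos le_rfl M hr
    rcases le_or_gt 1 (Yp G M) with hY | hY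
    · refine le_trans ?_ (show (1 : ℝ) ≤ w.pot h0 0 G M by rw [Wts.pot]; linarith)
      refine (le_abs_self _).trans (abs_Ev_le (fun H => ?_) G)
      unfold tail; split_ifs <;> norm_num
    have hst := mkStage hb hsub hr hY
    rw [Ev_of_nonempty hst.triangles_ne, div_le_iff₀ hst.T_pos]
    refine (sum_le_sum fun t ht => ?_).trans
      ((w.pot_step hs h0pos le_rfl hst (f1 hE)).trans_eq (mul_comm _ _))
    rcases lt_or_ge (stageE n h0) (((G \ edgesOf t).card : ℕ) : ℝ) with h | h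
    · exact ih _ (hk ▸ card_sdiff_lt_of_triangle ht) _ (stepM G M t) (sdiff_subset.trans hsub) h rfl
    · rw [Ev_tail_zero _ h, Wts.pot]
      have := w.extra_nonneg h0pos le_rfl (stepM G M t) (rt_child hst h0pos (f1 hE) ht)
      have := Yp_nonneg (G := G \ edgesOf t) (M := stepM G M t)
      linarith

lemma sum_cod_sq_eq {G : Finset (Sym2 (Fin n))} (M : Sym2 (Fin n) → ℝ) (hm : mG G ≠ 0)
    (hE : (G.card : ℝ) ≠ 0) :
    ∑ e ∈ G, (cod G e : ℝ) ^ 2 = mG G ^ 2 * G.card * X 2 G M := by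
  rw [X, avgE, mul_assoc, mul_div_cancel₀ _ hE, mul_sum]
  refine sum_congr rfl fun e _ => ?_
  rw [rel, div_pow, mul_div_cancel₀ _ (pow_ne_zero _ hm)]

theorem Wts.lower_bound (w : Wts) (hs : Steps n w.C) {h0 K2 c : ℝ} (hn : 1 ≤ n) (hb : 20000 ≤ h0)
    (hK2 : 0 < K2) (hc : 0 < c)
    (hlow : ∀ H : Finset (Sym2 (Fin n)), H ⊆ completeEdges n →
      2 * H.card ≤ 3 * (triangles H).card →
      ∑ e ∈ H, (Low.tdeg H e : ℝ) ^ 2 ≤ h0 ^ 32 * K2 * H.card →
      c * H.card ≤ Ev (fun F => (F.card : ℝ)) H)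
    (G : Finset (Sym2 (Fin n))) (M : Sym2 (Fin n) → ℝ) (hsub : G ⊆ completeEdges n)
    (hE : stageE n h0 - 3 < G.card) :
    c * (stageE n h0 - 3) * (1 - w.pot h0 (h0 / K2) G M) ≤ Ev (fun F => (F.card : ℝ)) G := by
  induction hk : G.card using Nat.strong_induction_on generalizing G M with
  | _ k ih =>
    have h0pos : (0 : ℝ) < h0 := by linarith
    have hδ : 0 ≤ h0 / K2 := by positivity
    have hbig := stageE_big hn hb
    have ha : 0 ≤ c * (stageE n h0 - 3) := mul_nonneg hc.le (by linarith)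
    have hEv : 0 ≤ Ev (fun F => (F.card : ℝ)) G := Low.Ev_nonneg (fun H => Nat.cast_nonneg _) G
    obtain ⟨f1, f2, f3⟩ := stage_facts hn hb G
    have hr := f2 hE
    have hx := w.extra_nonneg h0pos hδ M hr
    rcases le_or_gt 1 (w.pot h0 (h0 / K2) G M) with hP | hP
    · exact (mul_nonpos_of_nonneg_of_nonpos ha (by linarith)).trans hEv
    have hY : Yp G M < 1 := by rw [Wts.pot] at hP; linarith
    have hst := mkStage hb hsub hr hY
    rcases lt_or_ge (stageE n h0) (G.card : ℝ) with h | h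
    · rw [Ev_of_nonempty hst.triangles_ne, le_div_iff₀ hst.T_pos]
      refine le_trans ?_ (sum_le_sum fun t ht => ih _ (hk ▸ card_sdiff_lt_of_triangle ht) _
        (stepM G M t) (sdiff_subset.trans hsub)
        (by rw [card_sdiff_edgesOf ht]; linarith) rfl)
      rw [← mul_sum, sum_sub_distrib, sum_const, nsmul_eq_mul, mul_one, mul_assoc]
      refine mul_le_mul_of_nonneg_left ?_ ha
      have := w.pot_step hs h0pos hδ (M := M) hst (f1 h)
      linarith
    · have hm := hst.m_pos; have hEp := hst.E_pos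
      have hB : 1 * (X 2 G M / h0) ≤ w.B G M := by
        have h1 := w.SX_le_B (G := G) (M := M)
        have h2 : X 2 G M ≤ SX G M + SW G M := by
          have := single_le_sum (f := fun j => X j G M) (fun j _ => X_nonneg j)
            (show 2 ∈ Icc 1 (2 * K + 2) by norm_num [K])
          have := SW_nonneg (G := G) (M := M)
          unfold SX; linarith
        have h3 : 1 / h0 ≤ gg G :=
          (one_div_le_one_div_of_le hst.rt_pos (f3 h)).trans hst.inv_rt_le_gg
        have h4 := mul_le_mul h3 h2 (X_nonneg 2) hst.gg_pos.le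
        have := U_nonneg (G := G) (M := M)
        rw [one_mul, div_eq_mul_one_div, mul_comm]; linarith
      have hX : X 2 G M < K2 := by
        by_contra hcon
        have hA := (allow_nonneg h0pos hr).1
        have hcr := w.one_le_corr hst.one_le_rt
        have hB0 : 0 ≤ w.B G M := zero_le_one.trans w.one_le_B
        have h5 : 1 ≤ h0 / K2 * (w.B G M * w.corr G) := by
          calc (1 : ℝ) = h0 / K2 * (K2 / h0 * 1) := by field_simp
            _ ≤ h0 / K2 * (X 2 G M / h0 * 1) := by gcongr; exact not_lt.1 hcon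
            _ ≤ h0 / K2 * (w.B G M * w.corr G) := by
                refine mul_le_mul_of_nonneg_left (mul_le_mul ?_ hcr zero_le_one hB0) hδ
                linarith
        have h6 : 0 ≤ 3 * w.C * allow h0 G * (w.B G M * w.corr G) := by
          have := w.one_le; positivity
        have := Yp_nonneg (G := G) (M := M)
        rw [Wts.pot] at hP
        nlinarith
      have hT : (2 : ℝ) * G.card ≤ 3 * (triangles G).card := by
        have h3 := hst.card_T
        have hm100 : 10000 ≤ mG G :=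
          hst.big.trans (rt_pow G ▸ le_self_pow₀ hst.one_le_rt (by norm_num))
        have := abs_le.1 hst.abs_mu_le_hundredth
        nlinarith [mul_le_mul_of_nonneg_left hm100 hEp.le, mul_pos hEp hm]
      have hq : ∑ e ∈ G, (Low.tdeg G e : ℝ) ^ 2 ≤ h0 ^ 32 * K2 * G.card := by
        change ∑ e ∈ G, (cod G e : ℝ) ^ 2 ≤ _
        rw [sum_cod_sq_eq M hm.ne' hEp.ne']
        have h32 : mG G ^ 2 ≤ h0 ^ 32 := by
          rw [← rt_pow, ← pow_mul]; exact pow_le_pow_left₀ hst.rt_pos.le (f3 h) 32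
        calc mG G ^ 2 * G.card * X 2 G M ≤ h0 ^ 32 * G.card * K2 := by
              gcongr
              exact X_nonneg 2
          _ = _ := by ring
      have := hlow G hsub (by exact_mod_cast hT) hq
      have h7 : w.pot h0 (h0 / K2) G M ≥ 0 := by
        rw [Wts.pot]; have := Yp_nonneg (G := G) (M := M); linarith
      calc c * (stageE n h0 - 3) * (1 - w.pot h0 (h0 / K2) G M) ≤ c * (stageE n h0 - 3) :=
            mul_le_of_le_one_right ha (by linarith)
        _ ≤ c * G.card := mul_le_mul_of_nonneg_left hE.le hc.le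
        _ ≤ _ := this

/-- The size of the combined potential of the complete graph. -/
noncomputable def Wts.B0 (w : Wts) : ℝ :=
  3 + 16384 * w.C ^ 2 + 4 * w.C + 4 * (w.P + 256 * w.P * w.C) * (3 * (2 * K + 2 : ℕ))

/-- The numbers attached to the complete graph. -/
structure Start (n : ℕ) (N E m z r s : ℝ) : Prop where
  hN : N = n
  hE : E = ((completeEdges n).card : ℝ)
  hm : m = mG (completeEdges n)
  hr : r = rt (completeEdges n)
  hs : s = rn n
  N_two : 2 ≤ N
  E_eq : E = N * (N - 1) / 2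
  m_eq : m = (N - 1) ^ 2 / N
  m_pos : 0 < m
  m_ge : N / 4 ≤ m
  m_le : m ≤ N
  E_ge : N ^ 2 / 4 ≤ E
  z_range : -1 ≤ z ∧ z ≤ 0
  z_sq : z ^ 2 = 1 / (N - 1) ^ 4
  dev_eq : ∀ e ∈ completeEdges n, dev (completeEdges n) e = z
  mu_eq : mu (completeEdges n) = z
  r_pos : 0 < r
  s_pow : s ^ 16 = N
  one_le_s : 1 ≤ s
  r_le : r ≤ s
  r_inv : 1 / r ≤ 2
  gg_ge : 1 / 2 ≤ gg (completeEdges n)
  gg_le : gg (completeEdges n) ≤ 3
  ratio : r / s ≤ 1
  pow_four : N / 2 ≤ (N - 1) ^ 4 ∧ N ^ 2 / 4 ≤ (N - 1) ^ 4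

lemma exists_start (hn : 2 ≤ n) : ∃ N E m z r s : ℝ, Start n N E m z r s := by
  obtain ⟨N, hN⟩ : ∃ N : ℝ, N = n := ⟨_, rfl⟩
  obtain ⟨z, hz⟩ : ∃ z : ℝ, z = -1 / (N - 1) ^ 2 := ⟨_, rfl⟩
  obtain ⟨E, hE⟩ : ∃ E : ℝ, E = ((completeEdges n).card : ℝ) := ⟨_, rfl⟩
  obtain ⟨m, hm⟩ : ∃ m, m = mG (completeEdges n) := ⟨_, rfl⟩
  have hN2 : 2 ≤ N := by rw [hN]; exact_mod_cast hn
  have hEN : E = N * (N - 1) / 2 := by rw [hE, hN]; exact card_completeEdges n
  have hEpos : 0 < E := by rw [hEN]; nlinarith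
  have hmN : m = (N - 1) ^ 2 / N := by
    rw [hm, mG, mE, ← hE, hEN, ← hN]; field_simp; ring
  have hmpos : 0 < m := by
    rw [hmN]; have : 0 < N - 1 := by linarith
    positivity
  have hm4 : N / 4 ≤ m := by
    rw [hmN, le_div_iff₀ (by linarith)]; nlinarith
  have hmle : m ≤ N := by rw [hmN, div_le_iff₀ (by linarith)]; nlinarith
  have hq1 : 1 ≤ (N - 1) ^ 2 := one_le_pow₀ (by linarith)
  have hz0 : -1 ≤ z ∧ z ≤ 0 := by
    rw [hz, neg_div]
    have : 1 / (N - 1) ^ 2 ≤ 1 := (div_le_one (by linarith)).2 hq1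
    have : 0 ≤ 1 / (N - 1) ^ 2 := by positivity
    constructor <;> linarith
  have hd : ∀ e ∈ completeEdges n, dev (completeEdges n) e = z := by
    intro e he
    have : N - 1 ≠ 0 := by linarith
    rw [dev, cod_complete he, ← hm, hmN, hz, ← hN]; field_simp; ring
  have hmu : mu (completeEdges n) = z := by
    have h1 := sum_cod (completeEdges n)
    rw [sum_congr rfl fun e he => cod_complete he, sum_const, nsmul_eq_mul, ← hE, ← hN] at h1
    have : N - 1 ≠ 0 := by linarith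
    rw [mu, ← hE, ← hm, ← h1, hz, hmN]; field_simp; ring
  obtain ⟨r, hr⟩ : ∃ r, r = rt (completeEdges n) := ⟨_, rfl⟩
  have hr16 : r ^ 16 = m := by rw [hr, hm]; exact rt_pow _
  have hr0 : 0 < r := by
    rw [hr, rt, ← hm]; exact Real.rpow_pos_of_pos hmpos _
  obtain ⟨s, hs⟩ : ∃ s, s = rn n := ⟨_, rfl⟩
  have hs0 : 0 < s := by
    rw [hs, rn, ← hN]; exact Real.rpow_pos_of_pos (by linarith) _
  have hs16 : s ^ 16 = N := by
    rw [hs, rn, ← Real.rpow_natCast, ← Real.rpow_mul (Nat.cast_nonneg n), hN]; norm_num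
  have hrs : r ≤ s := (pow_le_pow_iff_left₀ hr0.le hs0.le (show (16 : ℕ) ≠ 0 by norm_num)).1
    (by rw [hr16, hs16]; exact hmle)
  have hrs2 : s / 2 ≤ r := by
    refine (pow_le_pow_iff_left₀ (by linarith) hr0.le (show (16 : ℕ) ≠ 0 by norm_num)).1 ?_
    rw [hr16, div_pow, hs16]
    refine le_trans ?_ hm4
    rw [div_le_div_iff₀ (by positivity) (by norm_num)]
    nlinarith
  have hrsle : r / s ≤ 1 := (div_le_one hs0).2 hrs
  have hg0 : 1 / 2 ≤ gg (completeEdges n) := by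
    rw [gg, ← hr, ← hs]
    have : 1 / 2 ≤ r / s := by rw [le_div_iff₀ hs0]; linarith
    have : 0 ≤ 1 / r := by positivity
    linarith
  have hinvr : 1 / r ≤ 2 := by
    have h2 : (1 / 2 : ℝ) ≤ r := by
      refine (pow_le_pow_iff_left₀ (by norm_num) hr0.le (show (16 : ℕ) ≠ 0 by norm_num)).1 ?_
      rw [hr16]; refine le_trans ?_ hm4; norm_num; linarith
    exact (one_div_le_one_div_of_le (by norm_num) h2).trans_eq (by norm_num)
  have hz2 : z ^ 2 = 1 / (N - 1) ^ 4 := by rw [hz, div_pow, neg_one_sq, ← pow_mul]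
  have hq4 : N / 2 ≤ (N - 1) ^ 4 ∧ N ^ 2 / 4 ≤ (N - 1) ^ 4 := by
    have h1 : N ^ 2 / 4 ≤ (N - 1) ^ 2 := by nlinarith
    have h2 : (N - 1) ^ 2 ≤ (N - 1) ^ 4 := pow_le_pow_right₀ (by linarith) (by norm_num)
    constructor <;> nlinarith
  refine ⟨N, E, m, z, r, s, ⟨hN, hE, hm, hr, hs, hN2, hEN, hmN, hmpos, hm4, hmle, ?_, hz0, hz2,
    hd, hmu, hr0, hs16, ?_, hrs, hinvr, hg0, ?_, hrsle, hq4⟩⟩
  · rw [hEN]; nlinarith
  · refine (pow_le_pow_iff_left₀ zero_le_one hs0.le (show (16 : ℕ) ≠ 0 by norm_num)).1 ?_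
    rw [hs16]; linarith
  · rw [gg, ← hr, ← hs]; linarith

lemma Start.avg {N E m z r s : ℝ} (S : Start n N E m z r s) {F : Sym2 (Fin n) → ℝ} {v : ℝ}
    (hv : ∀ e ∈ completeEdges n, F e = v) : avgE (completeEdges n) F = v := by
  have : (0 : ℝ) < E := by rw [S.E_eq]; nlinarith [S.N_two]
  rw [avgE, sum_congr rfl hv, sum_const, nsmul_eq_mul, ← S.hE, mul_div_cancel_left₀ _ this.ne']

lemma Start.U_le {N E m z r s : ℝ} (S : Start n N E m z r s) :
    U (completeEdges n) (fun _ => (0 : ℝ)) ≤ 2 := by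
  rw [U, S.avg (v := φ z) fun e he => by rw [Dv, S.dev_eq e he, sub_zero], ← S.hm]
  have hφ : φ z ≤ z ^ 2 := by
    rcases eq_or_lt_of_le S.z_range.2 with h | h
    · simp [h, φ]
    · rw [φ, if_neg (not_le.2 h)]; exact div_le_self (sq_nonneg _) (by linarith)
  calc m * φ z ≤ m * z ^ 2 := mul_le_mul_of_nonneg_left hφ S.m_pos.le
    _ ≤ N * (1 / (N - 1) ^ 4) := by rw [S.z_sq]; exact mul_le_mul_of_nonneg_right S.m_le (by positivity)
    _ ≤ 1 * 2 := by
        rw [mul_one_div, div_le_iff₀ (by linarith [S.pow_four.1, S.N_two])]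
        linarith [S.pow_four.1]
    _ ≤ 2 := by norm_num

lemma Start.SX_le {N E m z r s : ℝ} (S : Start n N E m z r s) :
    SX (completeEdges n) (fun _ => (0 : ℝ)) ≤ (2 * K + 2 : ℕ) := by
  refine (sum_le_card_nsmul _ _ (1 : ℝ) fun k _ => ?_).trans_eq (by simp)
  rw [X, S.avg (v := (1 + z) ^ k) fun e he => by
    rw [show rel (completeEdges n) e = 1 + z by rw [← S.dev_eq e he, Lin.dev_eq]; ring]]
  exact pow_le_one₀ (by linarith [S.z_range.1]) (by linarith [S.z_range.2])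

lemma Start.Wh_le {N E m z r s : ℝ} (S : Start n N E m z r s) :
    Wh (completeEdges n) (fun _ => (0 : ℝ)) ≤ 256 := by
  have hc : ((wheels (completeEdges n)).card : ℝ) ≤ N ^ 5 := by
    have h1 := card_le_card (subset_univ (wheels (completeEdges n)))
    simp only [card_univ, Fintype.card_prod, Fintype.card_fin] at h1
    calc ((wheels (completeEdges n)).card : ℝ) ≤ ((n * (n * (n * (n * n))) : ℕ) : ℝ) := by
          exact_mod_cast h1
      _ = _ := by rw [S.hN]; push_cast; ring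
  have hN0 : 0 < N := by linarith [S.N_two]
  have := S.m_pos
  have hE0 : 0 < E := lt_of_lt_of_le (by positivity) S.E_ge
  rw [Wh, ← S.hE, ← S.hm, div_le_iff₀ (by positivity)]
  calc ((wheels (completeEdges n)).card : ℝ) ≤ N ^ 5 := hc
    _ = 256 * (N ^ 2 / 4 * (N / 4) ^ 3) := by ring
    _ ≤ 256 * (E * m ^ 3) := by
        refine mul_le_mul_of_nonneg_left (mul_le_mul S.E_ge ?_ (by positivity) hE0.le) (by norm_num)
        exact pow_le_pow_left₀ (by positivity) S.m_ge 3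

lemma Start.Z_le {N E m z r s : ℝ} (S : Start n N E m z r s) :
    Z (completeEdges n) (fun _ => (0 : ℝ)) ≤ 4 ∧ Yp (completeEdges n) (fun _ => (0 : ℝ)) ≤ 16 / N := by
  have hN0 : 0 < N := by linarith [S.N_two]
  have h4 : 0 < (N - 1) ^ 4 := by linarith [S.pow_four.1]
  refine ⟨?_, ?_⟩
  · rw [Z, S.mu_eq, ← S.hr, S.z_sq]
    calc r ^ 18 * (1 / (N - 1) ^ 4) ≤ N ^ 2 * (1 / (N - 1) ^ 4) := by
          refine mul_le_mul_of_nonneg_right ?_ (by positivity)
          calc r ^ 18 ≤ s ^ 18 := pow_le_pow_left₀ S.r_pos.le S.r_le 18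
            _ ≤ s ^ 32 := pow_le_pow_right₀ S.one_le_s (by norm_num)
            _ = N ^ 2 := by rw [← S.s_pow]; ring
      _ ≤ 4 := by rw [mul_one_div, div_le_iff₀ h4]; linarith [S.pow_four.2]
  · rw [Yp, S.mu_eq, ← S.hr, S.z_sq]
    calc r ^ 8 * (1 / (N - 1) ^ 4) ≤ N * (1 / (N - 1) ^ 4) := by
          refine mul_le_mul_of_nonneg_right ?_ (by positivity)
          calc r ^ 8 ≤ s ^ 8 := pow_le_pow_left₀ S.r_pos.le S.r_le 8
            _ ≤ s ^ 16 := pow_le_pow_right₀ S.one_le_s (by norm_num)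
            _ = N := S.s_pow
      _ ≤ 16 / N := by
          rw [mul_one_div, div_le_div_iff₀ h4 hN0]; nlinarith [S.pow_four.2]

lemma start_bound (w : Wts) (hn : 2 ≤ n) :
    w.B (completeEdges n) (fun _ => 0) ≤ w.B0 ∧ Yp (completeEdges n) (fun _ => 0) ≤ 16 / n ∧
      w.corr (completeEdges n) ≤ Real.exp (24 * w.K0) ∧ (n : ℝ) / 4 ≤ mG (completeEdges n) ∧
      mG (completeEdges n) ≤ n := by
  obtain ⟨N, E, m, z, r, s, S⟩ := exists_start hn
  refine ⟨?_, S.hN ▸ S.Z_le.2, ?_, by rw [← S.hN, ← S.hm]; exact S.m_ge,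
    by rw [← S.hN, ← S.hm]; exact S.m_le⟩
  · have hPsi : Psi (completeEdges n) (fun _ => (0 : ℝ)) = 0 := by simp [Psi, aM, avgE]
    have hSW : SW (completeEdges n) (fun _ => (0 : ℝ)) = 0 := by
      refine sum_eq_zero fun k hk => ?_
      have := (mem_Icc.1 hk).1
      simp [W, avgE, zero_pow (show k ≠ 0 by omega)]
    have hC := w.one_le; have hP := w.one_le_P
    have hg := S.gg_ge
    have a1 : Wh (completeEdges n) (fun _ => (0 : ℝ)) / gg (completeEdges n) ≤ 512 := by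
      rw [div_le_iff₀ (by linarith)]; linarith [S.Wh_le]
    have a2 : gg (completeEdges n) * SX (completeEdges n) (fun _ => (0 : ℝ)) ≤
        3 * (2 * K + 2 : ℕ) := mul_le_mul S.gg_le S.SX_le SX_nonneg (by norm_num)
    have b1 := mul_le_mul_of_nonneg_left a1 (show 0 ≤ 32 * w.C ^ 2 by positivity)
    have b2 := mul_le_mul_of_nonneg_left a2 (show 0 ≤ 4 * (w.P + 256 * w.P * w.C) by positivity)
    have b3 := mul_le_mul_of_nonneg_left S.Z_le.1 (show 0 ≤ w.C by linarith)
    have b4 := S.U_le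
    unfold Wts.B Wts.B0
    rw [hPsi, hSW, zero_div, mul_zero, mul_zero]
    linarith
  · rw [Wts.corr, Real.exp_le_exp, ← S.hr, ← S.hs]
    have : 0 ≤ 1 / r := by have := S.r_pos; positivity
    have := S.ratio
    nlinarith [w.K0_nonneg]

end Vale.Agent.P046.Lin
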