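import Vale.Agent.P046.Lin.Master

/-!
The order of the mean number of edges left by random triangle removal.
-/

namespace Vale.Agent.P046.Lin

open Finset
open Track
open scoped Classical

variable {n : ℕ}

lemma Ev_const (v : ℝ) (G : Finset (Sym2 (Fin n))) : Ev (fun _ => v) G = v := by
  induction hk : G.card using Nat.strong_induction_on generalizing G with
  | _ k ih =>
    by_cases ht : triangles G = ∅
    · rw [Ev_of_empty ht]
    · rw [Ev_of_nonempty ht, sum_congr rfl fun t hT => ih _ (hk ▸ card_sdiff_lt_of_triangle hT) _ rfl,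
        sum_const, nsmul_eq_mul, mul_div_cancel_left₀]
      exact_mod_cast (card_pos.2 (nonempty_iff_ne_empty.2 ht)).ne'

lemma Ev_add (φ φ' : Finset (Sym2 (Fin n)) → ℝ) (G : Finset (Sym2 (Fin n))) :
    Ev (fun H => φ H + φ' H) G = Ev φ G + Ev φ' G := by
  induction hk : G.card using Nat.strong_induction_on generalizing G with
  | _ k ih =>
    by_cases ht : triangles G = ∅
    · rw [Ev_of_empty ht, Ev_of_empty ht, Ev_of_empty ht]
    · rw [Ev_of_nonempty ht, Ev_of_nonempty ht, Ev_of_nonempty ht, ← add_div, ← sum_add_distrib]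
      exact congrArg (· / _) (sum_congr rfl fun t hT => ih _ (hk ▸ card_sdiff_lt_of_triangle hT) _ rfl)

lemma Ev_smul (v : ℝ) (φ : Finset (Sym2 (Fin n)) → ℝ) (G : Finset (Sym2 (Fin n))) :
    Ev (fun H => v * φ H) G = v * Ev φ G := by
  induction hk : G.card using Nat.strong_induction_on generalizing G with
  | _ k ih =>
    by_cases ht : triangles G = ∅
    · rw [Ev_of_empty ht, Ev_of_empty ht]
    · rw [Ev_of_nonempty ht, Ev_of_nonempty ht, ← mul_div_assoc, mul_sum]
      exact congrArg (· / _) (sum_congr rfl fun t hT => ih _ (hk ▸ card_sdiff_lt_of_triangle hT) _ rfl)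

lemma Ev_support {φ ψ : Finset (Sym2 (Fin n)) → ℝ} (G : Finset (Sym2 (Fin n)))
    (h : ∀ H ⊆ G, φ H ≤ ψ H) : Ev φ G ≤ Ev ψ G := by
  induction hk : G.card using Nat.strong_induction_on generalizing G with
  | _ k ih =>
    by_cases ht : triangles G = ∅
    · rw [Ev_of_empty ht, Ev_of_empty ht]; exact h G subset_rfl
    · rw [Ev_of_nonempty ht, Ev_of_nonempty ht]
      exact div_le_div_of_nonneg_right (sum_le_sum fun t hT =>
        ih _ (hk ▸ card_sdiff_lt_of_triangle hT) _ (fun H hH => h H (hH.trans sdiff_subset)) rfl)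
        (Nat.cast_nonneg _)

lemma triangles_small (hn : n < 3) (G : Finset (Sym2 (Fin n))) : triangles G = ∅ := by
  refine eq_empty_of_forall_notMem fun u hu => ?_
  have h1 := card3_of_mem hu
  have h2 := card_le_univ u
  rw [Fintype.card_fin] at h2
  omega

/-- A power tail for the number of edges left. -/
theorem tail_power : ∃ C : ℝ, 0 < C ∧ ∀ (n : ℕ) (x : ℝ), 0 < x →
    Ev (tail (x * (n : ℝ) ^ (3 / 2 : ℝ))) (completeEdges n) ≤ C / x ^ (11 / 8 : ℝ) := by
  obtain ⟨c, hc, hs⟩ := exists_steps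
  obtain ⟨w, hw⟩ : ∃ w : Wts, w = ⟨c, hc⟩ := ⟨_, rfl⟩
  have hws : ∀ n, Steps n w.C := fun n => by rw [hw]; exact hs n
  have hB0 : 0 ≤ w.B0 := by
    have := w.one_le; have := w.one_le_P; unfold Wts.B0; positivity
  refine ⟨20000 ^ 11 + 16 + 6 * w.C * (w.B0 * Real.exp (24 * w.K0)), ?_, fun n x hx => ?_⟩
  · have := w.one_le; positivity
  have hrest : 0 ≤ 16 + 6 * w.C * (w.B0 * Real.exp (24 * w.K0)) := by
    have := w.one_le; positivity
  have hpow : 0 < x ^ (11 / 8 : ℝ) := Real.rpow_pos_of_pos hx _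
  have hone : Ev (tail (x * (n : ℝ) ^ (3 / 2 : ℝ))) (completeEdges n) ≤ 1 := by
    refine (le_abs_self _).trans (abs_Ev_le (fun H => ?_) _)
    unfold tail; split_ifs <;> norm_num
  obtain ⟨h0, hh0⟩ : ∃ h0 : ℝ, h0 = (2 * x) ^ (1 / 8 : ℝ) := ⟨_, rfl⟩
  have hh0pos : 0 < h0 := by rw [hh0]; exact Real.rpow_pos_of_pos (by linarith) _
  have hh8 : h0 ^ 8 = 2 * x := by
    rw [hh0, ← Real.rpow_natCast, ← Real.rpow_mul (by linarith)]; norm_num
  have hx11 : x ^ (11 / 8 : ℝ) ≤ h0 ^ 11 := by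
    rw [hh0, ← Real.rpow_natCast ((2 * x) ^ (1 / 8 : ℝ)), ← Real.rpow_mul (by linarith)]
    norm_num
    exact Real.rpow_le_rpow hx.le (by linarith) (by norm_num)
  rcases lt_or_ge h0 20000 with hs0 | hb
  · refine hone.trans ((le_div_iff₀ hpow).2 ?_)
    rw [one_mul]
    linarith [hx11.trans (pow_le_pow_left₀ hh0pos.le hs0.le 11)]
  rcases Nat.lt_or_ge n 2 with hn | hn
  · rw [Ev_of_empty (triangles_small (by omega) _), tail, if_neg]
    · exact div_nonneg (by linarith [show (0 : ℝ) ≤ 20000 ^ 11 by positivity]) hpow.le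
    · have h0' : ((completeEdges n).card : ℝ) = 0 := by
        rw [card_completeEdges]; interval_cases n <;> norm_num
      rw [h0', not_lt]; positivity
  have hE0 : x * (n : ℝ) ^ (3 / 2 : ℝ) = stageE n h0 := by rw [stageE, hh8]; ring
  rw [hE0]
  rcases lt_or_ge (stageE n h0) ((completeEdges n).card : ℝ) with hbig | hsmall
  · obtain ⟨b1, b2, b3, b4, b5⟩ := start_bound w hn
    refine (w.tail_bound (hws n) (by omega) hb _ (fun _ => 0) subset_rfl hbig).trans ?_
    have hr := (stage_facts (show 1 ≤ n by omega) hb (completeEdges n)).1 hbig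
    have h16 : h0 ^ 16 ≤ (n : ℝ) :=
      (pow_le_pow_left₀ hh0pos.le hr 16).trans (by rw [rt_pow]; exact b5)
    have hy : 16 / (n : ℝ) ≤ 16 / x ^ (11 / 8 : ℝ) := by
      refine div_le_div_of_nonneg_left (by norm_num) hpow (hx11.trans (le_trans ?_ h16))
      exact pow_le_pow_right₀ (by linarith) (by norm_num)
    have hal0 : allow h0 (completeEdges n) ≤ 2 / x ^ (11 / 8 : ℝ) := by
      have : 0 ≤ 1 / rt (completeEdges n) ^ 11 := by
        have : 0 < rt (completeEdges n) := by linarith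
        positivity
      have : 2 / h0 ^ 11 ≤ 2 / x ^ (11 / 8 : ℝ) := div_le_div_of_nonneg_left (by norm_num) hpow hx11
      unfold allow; linarith
    have hcB : w.B (completeEdges n) (fun _ => 0) * w.corr (completeEdges n) ≤
        w.B0 * Real.exp (24 * w.K0) := mul_le_mul b1 b3 (Real.exp_pos _).le hB0
    have hp0 : 0 ≤ w.B (completeEdges n) (fun _ => 0) * w.corr (completeEdges n) :=
      mul_nonneg (zero_le_one.trans w.one_le_B) (Real.exp_pos _).le
    rw [Wts.pot, add_zero]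
    calc _ ≤ 16 / x ^ (11 / 8 : ℝ) +
          3 * w.C * (2 / x ^ (11 / 8 : ℝ)) * (w.B0 * Real.exp (24 * w.K0)) := by
            refine add_le_add (b2.trans hy) ?_
            have := w.one_le
            exact mul_le_mul (mul_le_mul_of_nonneg_left hal0 (by positivity)) hcB hp0 (by positivity)
      _ = (16 + 6 * w.C * (w.B0 * Real.exp (24 * w.K0))) / x ^ (11 / 8 : ℝ) := by ring
      _ ≤ _ := div_le_div_of_nonneg_right
          (by linarith [show (0 : ℝ) ≤ 20000 ^ 11 by positivity]) hpow.le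
  · rw [Ev_tail_zero _ hsmall]
    exact div_nonneg (by linarith [show (0 : ℝ) ≤ 20000 ^ 11 by positivity]) hpow.le

lemma dyadic (J : ℕ) {f : ℝ} (hf : f ≤ 256 ^ J) :
    f ≤ 1 + ∑ j ∈ range J, 256 ^ (j + 1) * (if (256 : ℝ) ^ j < f then 1 else 0) := by
  induction J generalizing f with
  | zero => simpa using hf
  | succ J ih =>
    rw [sum_range_succ]
    split_ifs with h
    · have : 0 ≤ ∑ j ∈ range J, (256 : ℝ) ^ (j + 1) * (if (256 : ℝ) ^ j < f then 1 else 0) :=
        sum_nonneg fun j _ => mul_nonneg (by positivity) (by split_ifs <;> norm_num)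
      linarith
    · rw [mul_zero, add_zero]; exact ih (not_lt.1 h)

/-- The mean number of edges left is at most of order `n^{3/2}`. -/
theorem mean_upper : ∃ C : ℝ, 0 < C ∧ ∀ n : ℕ,
    Ev (fun G => (G.card : ℝ)) (completeEdges n) ≤ C * (n : ℝ) ^ (3 / 2 : ℝ) := by
  obtain ⟨C, hC, htail⟩ := tail_power
  refine ⟨1 + 512 * C, by linarith, fun n => ?_⟩
  rcases Nat.eq_zero_or_pos n with rfl | hn
  · have : (completeEdges 0) = ∅ := eq_empty_of_forall_notMem fun e he => by
      induction e using Sym2.ind with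
      | _ a b => exact a.elim0
    rw [Ev_of_empty (triangles_small (by norm_num) _), this]; simp
  obtain ⟨r, hr⟩ : ∃ r, r = (n : ℝ) ^ (3 / 2 : ℝ) := ⟨_, rfl⟩
  have hr1 : 1 ≤ r := hr ▸ le_rpow_n hn
  have point : ∀ H ⊆ completeEdges n, (H.card : ℝ) ≤
      r + ∑ j ∈ range n, 256 ^ (j + 1) * r * tail ((256 : ℝ) ^ j * r) H := by
    intro H hH
    have hf : (H.card : ℝ) / r ≤ 256 ^ n := by
      refine (div_le_self (Nat.cast_nonneg _) hr1).trans ?_
      have h1 : (H.card : ℝ) ≤ (completeEdges n).card := by exact_mod_cast card_le_card hH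
      rw [card_completeEdges] at h1
      have h2 : n ≤ 2 ^ n := (Nat.lt_two_pow_self).le
      have h3 : (n : ℝ) ≤ 2 ^ n := by exact_mod_cast h2
      calc (H.card : ℝ) ≤ (n : ℝ) * n := by nlinarith
        _ ≤ 2 ^ n * 2 ^ n := mul_le_mul h3 h3 (Nat.cast_nonneg n) (by positivity)
        _ = 4 ^ n := by rw [← mul_pow]; norm_num
        _ ≤ 256 ^ n := pow_le_pow_left₀ (by norm_num) (by norm_num) n
    have h := mul_le_mul_of_nonneg_right (dyadic n hf) (show 0 ≤ r by linarith)
    rw [div_mul_cancel₀ _ (by linarith : r ≠ 0), add_mul, one_mul, sum_mul] at h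
    refine h.trans_eq ?_
    congr 1
    refine sum_congr rfl fun j _ => ?_
    simp only [tail, lt_div_iff₀ (by linarith : 0 < r)]
    split_ifs <;> ring
  refine (Ev_support _ point).trans ?_
  rw [Ev_add, Ev_const, Low.Ev_sum, ← hr, add_mul, one_mul]
  refine add_le_add le_rfl ?_
  have hterm : ∀ j ∈ range n, Ev (fun H => 256 ^ (j + 1) * r * tail ((256 : ℝ) ^ j * r) H)
      (completeEdges n) ≤ 256 * C * r * (1 / 8) ^ j := by
    intro j _
    rw [Ev_smul]
    have h := htail n ((256 : ℝ) ^ j) (by positivity)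
    rw [← hr] at h
    refine (mul_le_mul_of_nonneg_left h (by positivity)).trans_eq ?_
    have e : ((256 : ℝ) ^ j) ^ (11 / 8 : ℝ) = (2048 : ℝ) ^ j := by
      rw [← Real.rpow_natCast (256 : ℝ), ← Real.rpow_mul (by norm_num), mul_comm,
        Real.rpow_mul (by norm_num), Real.rpow_natCast,
        show (256 : ℝ) = 2 ^ (8 : ℝ) by norm_num, ← Real.rpow_mul (by norm_num)]
      norm_num
    rw [e, one_div_pow]
    have h8 : (2048 : ℝ) ^ j = 256 ^ j * 8 ^ j := by rw [← mul_pow]; norm_num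
    rw [h8, pow_succ]
    field_simp
  refine (sum_le_sum hterm).trans ?_
  rw [← mul_sum]
  have hg : ∑ j ∈ range n, (1 / 8 : ℝ) ^ j ≤ 2 := by
    rw [geom_sum_eq (by norm_num)]
    have : (0 : ℝ) ≤ (1 / 8 : ℝ) ^ n := by positivity
    rw [div_le_iff_of_neg (by norm_num)]; linarith
  calc 256 * C * r * ∑ j ∈ range n, (1 / 8 : ℝ) ^ j ≤ 256 * C * r * 2 :=
        mul_le_mul_of_nonneg_left hg (by positivity)
    _ = _ := by ring

/-- The mean number of edges left is at least of order `n^{3/2}`. -/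
theorem mean_lower : ∃ c : ℝ, 0 < c ∧ ∃ n0 : ℕ, ∀ n : ℕ, n0 ≤ n →
    c * (n : ℝ) ^ (3 / 2 : ℝ) ≤ Ev (fun G => (G.card : ℝ)) (completeEdges n) := by
  obtain ⟨c1, hc1, hs⟩ := exists_steps
  obtain ⟨w, hw⟩ : ∃ w : Wts, w = ⟨c1, hc1⟩ := ⟨_, rfl⟩
  have hws : ∀ n, Steps n w.C := fun n => by rw [hw]; exact hs n
  obtain ⟨Q, hQ⟩ : ∃ Q, Q = w.B0 * Real.exp (24 * w.K0) := ⟨_, rfl⟩
  have hC := w.one_le; have hP := w.one_le_P
  have hB0 : 2 ≤ w.B0 := by
    unfold Wts.B0
    have : 0 ≤ 16384 * w.C ^ 2 := by positivity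
    have : 0 ≤ 4 * (w.P + 256 * w.P * w.C) * (3 * (2 * K + 2 : ℕ)) := by positivity
    linarith
  have hQ0 : 0 < Q := by rw [hQ]; have := Real.exp_pos (24 * w.K0); positivity
  obtain ⟨h0, hh0⟩ : ∃ h0 : ℝ, h0 = 20000 + 48 * w.C * Q := ⟨_, rfl⟩
  have hCQ : 0 ≤ w.C * Q := by positivity
  have hb : 20000 ≤ h0 := by rw [hh0]; linarith
  obtain ⟨K2, hK2⟩ : ∃ K2, K2 = 8 * h0 * Q := ⟨_, rfl⟩
  have hK20 : 0 < K2 := by rw [hK2]; positivity
  obtain ⟨c, hc, hlow⟩ := Low.exists_lower_const (h0 ^ 32 * K2)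
  refine ⟨c / 8, by positivity, ⌈4 * h0 ^ 16⌉₊ + 2, fun n hn => ?_⟩
  have hn2 : 2 ≤ n := by omega
  have hnh : 4 * h0 ^ 16 ≤ (n : ℝ) :=
    (Nat.le_ceil _).trans (by exact_mod_cast (by omega : ⌈4 * h0 ^ 16⌉₊ ≤ n))
  obtain ⟨b1, b2, b3, b4, b5⟩ := start_bound w hn2
  have hbig := stageE_big (n := n) (by omega) hb
  have hE : stageE n h0 - 3 < ((completeEdges n).card : ℝ) := by
    by_contra hcon
    obtain ⟨-, -, f3⟩ := stage_facts (show 1 ≤ n by omega) hb (completeEdges n)
    have h1 : ((completeEdges n).card : ℝ) ≤ stageE n h0 - 3 := not_lt.1 hcon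
    have e := rt16_stage (show 1 ≤ n by omega) (by linarith : 0 < h0) (completeEdges n)
    rw [rt_pow] at e
    have h2 : ((completeEdges n).card : ℝ) / stageE n h0 < 1 := by
      rw [div_lt_one (by linarith)]; linarith
    have h3 : mG (completeEdges n) < h0 ^ 16 := by
      rw [e]
      refine mul_lt_of_lt_one_right (by positivity) (pow_lt_one₀ (by positivity) h2 two_ne_zero)
    linarith
  have hlo := w.lower_bound (hws n) (show 1 ≤ n by omega) hb hK20 hc
    (fun H => hlow n H) (completeEdges n) (fun _ => 0) subset_rfl hE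
  refine le_trans ?_ hlo
  have hh1 : h0 ≤ h0 ^ 11 := le_self_pow₀ (by linarith) (by norm_num)
  have hpot : w.pot h0 (h0 / K2) (completeEdges n) (fun _ => 0) ≤ 1 / 2 := by
    have hp0 : 0 ≤ w.B (completeEdges n) (fun _ => 0) * w.corr (completeEdges n) :=
      mul_nonneg (zero_le_one.trans w.one_le_B) (Real.exp_pos _).le
    have hcB : w.B (completeEdges n) (fun _ => 0) * w.corr (completeEdges n) ≤ Q :=
      hQ ▸ mul_le_mul b1 b3 (Real.exp_pos _).le (by linarith)
    have hal : allow h0 (completeEdges n) ≤ 2 / h0 := by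
      have : 0 ≤ rt (completeEdges n) := Real.rpow_nonneg (mG_nonneg _) _
      have : 0 ≤ 1 / rt (completeEdges n) ^ 11 := by positivity
      have : 2 / h0 ^ 11 ≤ 2 / h0 := div_le_div_of_nonneg_left (by norm_num) (by linarith) hh1
      unfold allow; linarith
    have hy : 16 / (n : ℝ) ≤ 1 / 8 := by
      rw [div_le_iff₀ (by linarith [pow_pos (by linarith : (0:ℝ) < h0) 16])]
      have : h0 ≤ h0 ^ 16 := le_self_pow₀ (by linarith) (by norm_num)
      linarith
    have e1 : 3 * w.C * (2 / h0) * Q ≤ 1 / 8 := by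
      rw [mul_div_assoc', div_mul_eq_mul_div, div_le_iff₀ (by linarith)]
      rw [hh0]; linarith
    have e2 : h0 / K2 * Q = 1 / 8 := by
      rw [hK2]; have : h0 ≠ 0 := by linarith
      field_simp
    have hd : 0 ≤ h0 / K2 := by positivity
    calc w.pot h0 (h0 / K2) (completeEdges n) (fun _ => 0)
        ≤ 1 / 8 + (3 * w.C * (2 / h0) + h0 / K2) * Q := by
          refine add_le_add (b2.trans hy) ?_
          exact mul_le_mul (add_le_add (mul_le_mul_of_nonneg_left hal (by positivity)) le_rfl) hcB hp0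
            (by positivity)
      _ ≤ 1 / 2 := by rw [add_mul, e2]; linarith
  have hr1 : (1 : ℝ) ≤ (n : ℝ) ^ (3 / 2 : ℝ) := le_rpow_n (by omega)
  have hsE : (n : ℝ) ^ (3 / 2 : ℝ) / 4 ≤ stageE n h0 - 3 := by
    have : (20000 : ℝ) ≤ h0 ^ 8 := hb.trans (le_self_pow₀ (by linarith) (by norm_num))
    unfold stageE
    nlinarith [mul_le_mul_of_nonneg_right this (zero_le_one.trans hr1)]
  calc c / 8 * (n : ℝ) ^ (3 / 2 : ℝ) = c * ((n : ℝ) ^ (3 / 2 : ℝ) / 4) * (1 / 2) := by ring
    _ ≤ c * (stageE n h0 - 3) * (1 - w.pot h0 (h0 / K2) (completeEdges n) (fun _ => 0)) := by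
        refine mul_le_mul (mul_le_mul_of_nonneg_left hsE hc.le) (by linarith) (by norm_num) ?_
        exact mul_nonneg hc.le (by linarith)

end Vale.Agent.P046.Lin
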