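import Vale.Agent.P046.Lin.Drift

/-!
The supermartingale down to a fixed stage, without a logarithm.
-/

namespace Vale.Agent.P046.Lin

open Finset
open Track
open scoped Classical

variable {n : ℕ}

/-- The exponential correction for the growth of the combined potential. -/
noncomputable def Wts.corr (w : Wts) (G : Finset (Sym2 (Fin n))) : ℝ :=
  Real.exp (8 * w.K0 * (2 - 1 / rt G + rt G / rn n))

/-- The remaining allowance above the stage `h0`. -/
noncomputable def allow (h0 : ℝ) (G : Finset (Sym2 (Fin n))) : ℝ :=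
  2 / h0 ^ 11 - 1 / rt G ^ 11

/-- The potential; `δ` also watches the size of the combined potential. -/
noncomputable def Wts.pot (w : Wts) (h0 δ : ℝ) : Obs n := fun G M =>
  Yp G M + (3 * w.C * allow h0 G + δ) * (w.B G M * w.corr G)

lemma Wts.K0_nonneg (w : Wts) : 0 ≤ w.K0 := by
  have := w.one_le; have := w.one_le_P
  unfold Wts.K0
  positivity

lemma Wts.one_le_corr (w : Wts) {G : Finset (Sym2 (Fin n))} (h : 1 ≤ rt G) : 1 ≤ w.corr G := by
  refine Real.one_le_exp (mul_nonneg (by linarith [w.K0_nonneg]) ?_)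
  have : 1 / rt G ≤ 1 := (div_le_one (by linarith)).2 h
  have : 0 ≤ rt G / rn n := div_nonneg (by linarith) (Real.rpow_nonneg (Nat.cast_nonneg n) _)
  linarith

lemma allow_nonneg {h0 : ℝ} (h0pos : 0 < h0) {G : Finset (Sym2 (Fin n))}
    (hG : 9 / 10 * h0 ^ 16 ≤ rt G ^ 16) : 0 ≤ allow h0 G ∧ 9 / 10 * h0 ≤ rt G := by
  have hr : 0 ≤ rt G := Real.rpow_nonneg (mG_nonneg G) _
  have h1 : 9 / 10 * h0 ≤ rt G := by
    refine (pow_le_pow_iff_left₀ (by positivity) hr (show (16 : ℕ) ≠ 0 by norm_num)).1 ?_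
    refine le_trans ?_ hG
    rw [mul_pow]
    exact mul_le_mul_of_nonneg_right (by norm_num) (by positivity)
  refine ⟨?_, h1⟩
  have hr0 : 0 < rt G := lt_of_lt_of_le (by positivity) h1
  have h2 : h0 ^ 11 / 2 ≤ rt G ^ 11 := by
    rcases le_or_gt h0 (rt G) with h | h
    · have := pow_le_pow_left₀ h0pos.le h 11
      linarith [pow_pos h0pos 11]
    · have h5 : rt G ^ 5 ≤ h0 ^ 5 := pow_le_pow_left₀ hr h.le 5
      have h6 : 9 / 10 * h0 ^ 11 * h0 ^ 5 ≤ rt G ^ 11 * h0 ^ 5 := by
        calc 9 / 10 * h0 ^ 11 * h0 ^ 5 = 9 / 10 * h0 ^ 16 := by ring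
          _ ≤ rt G ^ 16 := hG
          _ = rt G ^ 11 * rt G ^ 5 := by ring
          _ ≤ _ := mul_le_mul_of_nonneg_left h5 (by positivity)
      have := le_of_mul_le_mul_right h6 (by positivity)
      linarith [pow_pos h0pos 11]
  rw [allow, sub_nonneg, div_le_div_iff₀ (by positivity) (by positivity)]
  linarith

lemma Yp_nonneg {G : Finset (Sym2 (Fin n))} {M : Sym2 (Fin n) → ℝ} : 0 ≤ Yp G M :=
  mul_nonneg (pow_nonneg (Real.rpow_nonneg (mG_nonneg G) _) 8) (sq_nonneg _)

lemma Wts.extra_nonneg (w : Wts) {h0 δ : ℝ} (h0pos : 0 < h0) (hδ : 0 ≤ δ)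
    {G : Finset (Sym2 (Fin n))} (M : Sym2 (Fin n) → ℝ) (hG : 9 / 10 * h0 ^ 16 ≤ rt G ^ 16) :
    0 ≤ (3 * w.C * allow h0 G + δ) * (w.B G M * w.corr G) := by
  have := (allow_nonneg h0pos hG).1
  have := w.one_le
  have := zero_le_one.trans (w.one_le_B (G := G) (M := M))
  have : 0 < w.corr G := Real.exp_pos _
  positivity

lemma rt_child {G : Finset (Sym2 (Fin n))} (h : Stage G) {h0 : ℝ} (h0pos : 0 < h0)
    (hG : h0 ≤ rt G) {t : Finset (Fin n)} (ht : t ∈ triangles G) :
    9 / 10 * h0 ^ 16 ≤ rt (G \ edgesOf t) ^ 16 := by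
  have hE := h.E_pos; have hE30 := h.big_E
  obtain ⟨a, -, -, -⟩ := weight_step h ht
  obtain ⟨e1, -⟩ := rt_sdiff h ht
  obtain ⟨x, hx⟩ : ∃ x, x = 3 / (G.card : ℝ) := ⟨_, rfl⟩
  have hx0 : 0 ≤ x := by rw [hx]; positivity
  have hx1 : x ≤ 1 / 100 := by
    rw [hx, div_le_iff₀ hE]
    have h1 := h.m_div_E_le'
    rw [div_le_div_iff₀ hE h.m_pos] at h1
    have h2 : (10000 : ℝ) ≤ mG G := h.big.trans (rt_pow G ▸ le_self_pow₀ h.one_le_rt (by norm_num))
    nlinarith
  rw [← hx] at e1
  calc 9 / 10 * h0 ^ 16 ≤ 9 / 10 * rt G ^ 16 := by gcongr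
    _ ≤ (1 - x) ^ 2 * rt G ^ 16 := by
        refine mul_le_mul_of_nonneg_right (by nlinarith) (by positivity)
    _ = (rt G ^ 8 * (1 - x)) ^ 2 := by ring
    _ = _ := by rw [← e1]; ring

/-- The potential is a supermartingale in a stage above `h0`. -/
theorem Wts.pot_step (w : Wts) (hs : Steps n w.C) {h0 δ : ℝ} (h0pos : 0 < h0) (hδ : 0 ≤ δ)
    {G : Finset (Sym2 (Fin n))} {M : Sym2 (Fin n) → ℝ} (h : Stage G) (hG : h0 ≤ rt G) :
    ∑ t ∈ triangles G, w.pot h0 δ (G \ edgesOf t) (stepM G M t) ≤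
      (triangles G).card * w.pot h0 δ G M := by
  obtain ⟨x, hx⟩ : ∃ x, x = 3 / (G.card : ℝ) := ⟨_, rfl⟩
  have hE := h.E_pos; have hr := h.rt_pos; have hT := h.T_pos
  have hx0 : 0 ≤ x := by rw [hx]; positivity
  have hC := w.one_le; have hK := w.K0_nonneg
  obtain ⟨B, hB⟩ : ∃ B, B = w.B G M := ⟨_, rfl⟩
  have hB1 : 1 ≤ B := hB ▸ w.one_le_B
  obtain ⟨F, hF⟩ : ∃ F, F = 3 * w.C * allow h0 G + δ - 3 * w.C * (x / rt G ^ 11) := ⟨_, rfl⟩
  obtain ⟨cf, hcf⟩ : ∃ cf, cf = w.corr G / (1 + x * (w.K0 * gg G)) := ⟨_, rfl⟩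
  have hden : 0 < 1 + x * (w.K0 * gg G) := by
    have := h.gg_pos; positivity
  have child : ∀ t ∈ triangles G,
      (3 * w.C * allow h0 (G \ edgesOf t) + δ) * (w.B (G \ edgesOf t) (stepM G M t) *
        w.corr (G \ edgesOf t)) ≤ F * cf * w.B (G \ edgesOf t) (stepM G M t) ∧ 0 ≤ F * cf := by
    intro t ht
    obtain ⟨a, b, -, -⟩ := weight_step h ht
    rw [← hx] at a b
    have hx1 : x ≤ 1 / 10 := by rw [hx, div_le_iff₀ hE]; linarith [h.big_E]
    have hr' : 0 < rt (G \ edgesOf t) := lt_of_lt_of_le (mul_pos hr (by linarith)) a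
    obtain ⟨al0, -⟩ := allow_nonneg h0pos (rt_child h h0pos hG ht)
    have hp : x / rt G ^ 11 + 1 / rt G ^ 11 ≤ 1 / rt (G \ edgesOf t) ^ 11 := by
      rw [← add_div, le_div_iff₀ (by positivity), div_mul_eq_mul_div, div_le_one (by positivity)]
      calc (x + 1) * rt (G \ edgesOf t) ^ 11 ≤ (x + 1) * (rt G * (1 - 1 / 8 * x)) ^ 11 := by gcongr
        _ = rt G ^ 11 * ((1 + x) * (1 - 1 / 8 * x) ^ 11) := by ring
        _ ≤ _ := by
            refine mul_le_of_le_one_right (by positivity) ?_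
            obtain ⟨z, hz⟩ : ∃ z, z = 1 - 1 / 8 * x := ⟨_, rfl⟩
            rw [← hz]
            have z0 : 0 ≤ z := by rw [hz]; linarith
            have z1 : z ≤ 1 := by rw [hz]; linarith
            have z9 : z ^ 11 ≤ z ^ 9 := pow_le_pow_of_le_one z0 z1 (by norm_num)
            have b9 : (1 + 1 / 8 * x) ^ 9 * z ^ 9 ≤ 1 := by
              rw [← mul_pow, hz]
              refine pow_le_one₀ ?_ ?_ <;> nlinarith
            have b8 := one_add_mul_le_pow (a := 1 / 8 * x) (by linarith) 9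
            push_cast at b8
            calc (1 + x) * z ^ 11 ≤ (1 + 1 / 8 * x) ^ 9 * z ^ 9 :=
                  mul_le_mul (by linarith) z9 (by positivity) (by positivity)
              _ ≤ 1 := b9
    have hA : 3 * w.C * allow h0 (G \ edgesOf t) + δ ≤ F := by
      rw [hF, allow, allow]
      nlinarith [mul_le_mul_of_nonneg_left hp (show 0 ≤ 3 * w.C by linarith)]
    have hcor : w.corr (G \ edgesOf t) ≤ cf := by
      rw [hcf, le_div_iff₀ hden]
      have he : 1 + x * (w.K0 * gg G) ≤ Real.exp (x * (w.K0 * gg G)) := by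
        linarith [Real.add_one_le_exp (x * (w.K0 * gg G))]
      refine (mul_le_mul_of_nonneg_left he (Real.exp_pos _).le).trans ?_
      unfold Wts.corr
      rw [← Real.exp_add, Real.exp_le_exp]
      have hrn : 0 < rn n := lt_of_lt_of_le hr h.rt_le_rn
      have i1 : 1 / rt G + x / 8 * (1 / rt G) ≤ 1 / rt (G \ edgesOf t) := by
        rw [le_div_iff₀ hr', show (1 / rt G + x / 8 * (1 / rt G)) * rt (G \ edgesOf t) =
          (1 + x / 8) * rt (G \ edgesOf t) / rt G by ring, div_le_one hr]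
        calc (1 + x / 8) * rt (G \ edgesOf t) ≤ (1 + x / 8) * (rt G * (1 - 1 / 8 * x)) := by gcongr
          _ ≤ rt G := by nlinarith [mul_nonneg hr.le (sq_nonneg x)]
      have i2 : rt (G \ edgesOf t) / rn n + x / 8 * (rt G / rn n) ≤ rt G / rn n := by
        rw [← mul_div_assoc, ← add_div]
        exact div_le_div_of_nonneg_right (by nlinarith) hrn.le
      have i3 : x / 8 * gg G = x / 8 * (1 / rt G) + x / 8 * (rt G / rn n) := by rw [gg]; ring
      nlinarith [mul_le_mul_of_nonneg_left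
        (show x / 8 * gg G ≤ (1 / rt (G \ edgesOf t) - rt (G \ edgesOf t) / rn n) -
          (1 / rt G - rt G / rn n) by linarith) (show 0 ≤ 8 * w.K0 by linarith)]
    have hF0 : 0 ≤ F := le_trans (by positivity) hA
    have hcf0 : 0 ≤ cf := (Real.exp_pos _).le.trans hcor
    refine ⟨?_, mul_nonneg hF0 hcf0⟩
    rw [mul_comm (w.B (G \ edgesOf t) (stepM G M t)), ← mul_assoc]
    exact mul_le_mul_of_nonneg_right (mul_le_mul hA hcor (Real.exp_pos _).le hF0)
      (zero_le_one.trans w.one_le_B)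
  obtain ⟨t0, ht0⟩ := Finset.nonempty_iff_ne_empty.2 h.triangles_ne
  have hFc := (child t0 ht0).2
  have hY : ∑ t ∈ triangles G, Yp (G \ edgesOf t) (stepM G M t) ≤
      (triangles G).card * (Yp G M + x * (w.C * (Rest G M / rt G ^ 12))) := by
    have := hs.y G M h
    unfold DriftLE next at this
    rw [div_le_iff₀ hT, ← hx] at this; linarith
  have hBs := w.B_step hs (M := M) h
  rw [← hB, ← hx] at hBs
  calc ∑ t ∈ triangles G, w.pot h0 δ (G \ edgesOf t) (stepM G M t)
      ≤ ∑ t ∈ triangles G, (Yp (G \ edgesOf t) (stepM G M t) +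
          F * cf * w.B (G \ edgesOf t) (stepM G M t)) :=
        sum_le_sum fun t ht => add_le_add le_rfl (child t ht).1
    _ ≤ (triangles G).card * (Yp G M + x * (w.C * (Rest G M / rt G ^ 12))) +
          F * cf * ((triangles G).card * (B * (1 + x * (w.K0 * gg G)))) := by
        rw [sum_add_distrib, ← mul_sum]
        exact add_le_add hY (mul_le_mul_of_nonneg_left hBs hFc)
    _ = (triangles G).card * (Yp G M + x * (w.C * (Rest G M / rt G ^ 12)) +
          F * (B * w.corr G)) := by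
        rw [show F * cf * ((triangles G).card * (B * (1 + x * (w.K0 * gg G)))) =
          (triangles G).card * (F * B * (cf * (1 + x * (w.K0 * gg G)))) by ring, hcf,
          div_mul_cancel₀ _ hden.ne']
        ring
    _ ≤ (triangles G).card * w.pot h0 δ G M := by
        refine mul_le_mul_of_nonneg_left ?_ hT.le
        have hcorr := w.one_le_corr h.one_le_rt
        have hR : Rest G M ≤ 3 * rt G * B := by
          have h1 := w.SX_le_B (G := G) (M := M)
          rw [← hB] at h1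
          have hs0 : 0 ≤ SX G M + SW G M := add_nonneg SX_nonneg SW_nonneg
          have h2 : SX G M + SW G M ≤ rt G * B := by
            have h3 := mul_le_mul_of_nonneg_right h.inv_rt_le_gg hs0
            rw [one_div_mul_eq_div, div_le_iff₀ hr] at h3
            nlinarith [U_nonneg (G := G) (M := M)]
          have h4 : 1 + U G M ≤ B := by
            have := mul_nonneg h.gg_pos.le hs0; linarith
          have h5 : B ≤ rt G * B := le_mul_of_one_le_left (by linarith) h.one_le_rt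
          rw [Rest_eq]; linarith
        have hk : x * (w.C * (Rest G M / rt G ^ 12)) ≤
            3 * w.C * (x / rt G ^ 11) * (B * w.corr G) := by
          calc x * (w.C * (Rest G M / rt G ^ 12)) ≤ x * (w.C * (3 * rt G * B / rt G ^ 12)) := by gcongr
            _ = 3 * w.C * (x / rt G ^ 11) * B := by field_simp
            _ ≤ _ := by
                refine mul_le_mul_of_nonneg_left (le_mul_of_one_le_right (by linarith) hcorr) ?_
                positivity
        rw [Wts.pot, ← hB, hF]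
        nlinarith

end Vale.Agent.P046.Lin
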