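import Vale.Agent.P046.Lin.Defs

/-!
The one-step drift statements behind tracking without a logarithm. Each is proved in its own file
and combined in the assembly; `3 / E` is one step in the time scale `-log E`.
-/

namespace Vale.Agent.P046.Lin

open Finset
open Track
open scoped Classical

/-- `Q` has drift at most `r` per unit of `-log E` at the state `(G, M)`. -/
noncomputable def DriftLE {n : ℕ} (Q : Obs n) (r : ℝ) (G : Finset (Sym2 (Fin n)))
    (M : Sym2 (Fin n) → ℝ) : Prop :=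
  next Q G M ≤ Q G M + 3 / (G.card : ℝ) * r

/-- The codegree moments bound themselves, since heavy edges die fast. -/
def XStep : Prop :=
  ∀ k : ℕ, 1 ≤ k → ∃ C : ℝ, 0 ≤ C ∧ ∀ (n : ℕ) (G : Finset (Sym2 (Fin n))) (M : Sym2 (Fin n) → ℝ),
    Stage G → DriftLE (X k) (-(X k G M) / 2 + C) G M

/-- The noise moments are damped. -/
def WStep : Prop :=
  ∀ k : ℕ, 1 ≤ k → ∃ C : ℝ, 0 ≤ C ∧ ∀ (n : ℕ) (G : Finset (Sym2 (Fin n))) (M : Sym2 (Fin n) → ℝ),
    Stage G →
      DriftLE (W k) (-(W k G M) / 2 + C * (1 + ∑ j ∈ Finset.Icc 1 (2 * k + 2), X j G M)) G M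

/-- The wheel count decays up to an integrable error. -/
def WhStep : Prop :=
  ∃ C : ℝ, 0 ≤ C ∧ ∀ (n : ℕ) (G : Finset (Sym2 (Fin n))) (M : Sym2 (Fin n) → ℝ),
    Stage G → DriftLE Wh (-(Wh G M) / 2 + C * (Rest G M / rt G ^ 4)) G M

/-- The neighbour sums of the noise field are damped, and fed only by wheels and small errors. -/
def PsiStep : Prop :=
  ∃ C : ℝ, 0 ≤ C ∧ ∀ (n : ℕ) (G : Finset (Sym2 (Fin n))) (M : Sym2 (Fin n) → ℝ),
    Stage G → DriftLE Psi (-(Psi G M) / 2 + C * (Wh G M + Rest G M / rt G ^ 4)) G M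

/-- The predictable part is neutral up to integrable forcing. -/
def UStep : Prop :=
  ∃ C : ℝ, 0 ≤ C ∧ ∀ (n : ℕ) (G : Finset (Sym2 (Fin n))) (M : Sym2 (Fin n) → ℝ),
    Stage G → DriftLE U (C * (gg G * Rest G M + Psi G M / gg G + Z G M)) G M

/-- The weighted square of the triangle deviation is damped. -/
def ZStep : Prop :=
  ∃ C : ℝ, 0 ≤ C ∧ ∀ (n : ℕ) (G : Finset (Sym2 (Fin n))) (M : Sym2 (Fin n) → ℝ),
    Stage G → DriftLE Z (-(Z G M) + C * (Rest G M / rt G ^ 2)) G M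

/-- The stopping quantity grows slowly. -/
def YStep : Prop :=
  ∃ C : ℝ, 0 ≤ C ∧ ∀ (n : ℕ) (G : Finset (Sym2 (Fin n))) (M : Sym2 (Fin n) → ℝ),
    Stage G → DriftLE Yp (C * (Rest G M / rt G ^ 12)) G M

/-- The noise fed into the neighbour sums in one step is carried by wheels, up to small errors. -/
def InjectBound : Prop :=
  ∃ C : ℝ, 0 ≤ C ∧ ∀ (n : ℕ) (G : Finset (Sym2 (Fin n))) (M : Sym2 (Fin n) → ℝ),
    Stage G →
      ∑ t ∈ triangles G, ∑ e ∈ G \ edgesOf t,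
          (∑ u ∈ triangles G with e ∈ edgesOf u,
            ∑ f ∈ ((edgesOf u).erase e).filter (fun f => f ∉ edgesOf t), (loss G t f : ℝ)) ^ 2 ≤
        C * ((G.card : ℝ) * mG G ^ 4) * (Wh G M + Rest G M / rt G ^ 4)

end Vale.Agent.P046.Lin
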