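import Vale.Agent.P046.Lin.Steps
import Vale.Agent.P046.Track.Main

/-!
Shared facts for the drift bounds: sizes in a stage, averaging, and the linearised moment bounds
by which every error term is measured by `Rest`.
-/

namespace Vale.Agent.P046.Lin

open Finset
open Track
open scoped Classical

variable {n : ℕ} {G : Finset (Sym2 (Fin n))} {M : Sym2 (Fin n) → ℝ}

lemma Stage.rt_pos (h : Stage G) : 0 < rt G := by linarith [h.big]

lemma Stage.one_le_rt (h : Stage G) : 1 ≤ rt G := by linarith [h.big]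

lemma mG_nonneg (G : Finset (Sym2 (Fin n))) : 0 ≤ mG G := by unfold mG mE; positivity

lemma rt_pow (G : Finset (Sym2 (Fin n))) : rt G ^ 16 = mG G := by
  rw [rt, ← Real.rpow_natCast, ← Real.rpow_mul (mG_nonneg G)]; norm_num

lemma Stage.one_le_m (h : Stage G) : 1 ≤ mG G := rt_pow G ▸ one_le_pow₀ h.one_le_rt

lemma Stage.m_pos (h : Stage G) : 0 < mG G := lt_of_lt_of_le one_pos h.one_le_m

lemma Stage.n_pos (h : Stage G) : 0 < (n : ℝ) := by
  rcases (Nat.cast_nonneg (α := ℝ) n).eq_or_lt with h0 | h0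
  · have := h.m_pos; rw [mG, mE, ← h0] at this; norm_num at this
  · exact h0

lemma Stage.E_pos (h : Stage G) : 0 < (G.card : ℝ) := by
  rcases (Nat.cast_nonneg (α := ℝ) G.card).eq_or_lt with h0 | h0
  · have := h.m_pos; rw [mG, mE, ← h0] at this; norm_num at this
  · exact h0

lemma Stage.E_le (h : Stage G) : 2 * (G.card : ℝ) ≤ (n : ℝ) ^ 2 := by
  have h1 : (G.card : ℝ) ≤ (completeEdges n).card := by exact_mod_cast card_le_card h.sub
  rw [card_completeEdges] at h1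
  nlinarith [Nat.cast_nonneg (α := ℝ) n]

lemma Stage.m_le_n (h : Stage G) : mG G ≤ n := by
  have := h.n_pos
  rw [mG, mE, div_le_iff₀ (by positivity)]
  nlinarith [pow_le_pow_left₀ (by positivity : (0:ℝ) ≤ 2 * (G.card : ℝ)) h.E_le 2]

lemma Stage.m_sq_eq (h : Stage G) : mG G * (n : ℝ) ^ 3 = 4 * (G.card : ℝ) ^ 2 := by
  have := h.n_pos
  rw [mG, mE]; field_simp

/-- `m / E ≤ 2 / n`. -/
lemma Stage.m_div_E_le (h : Stage G) : mG G / G.card ≤ 2 / n := by
  have := h.n_pos; have := h.E_pos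
  rw [div_le_div_iff₀ h.E_pos h.n_pos, mG, mE]
  rw [div_mul_eq_mul_div, div_le_iff₀ (by positivity)]
  nlinarith [mul_le_mul_of_nonneg_left h.E_le (show (0:ℝ) ≤ 2 * G.card * n by positivity)]

/-- `m / E ≤ 2 / m`. -/
lemma Stage.m_div_E_le' (h : Stage G) : mG G / G.card ≤ 2 / mG G :=
  h.m_div_E_le.trans (div_le_div_of_nonneg_left (by norm_num) h.m_pos h.m_le_n)

lemma Stage.big_E (h : Stage G) : 30 ≤ (G.card : ℝ) := by
  have h1 := h.m_div_E_le'
  rw [div_le_div_iff₀ h.E_pos h.m_pos] at h1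
  have h2 : (10000 : ℝ) ≤ mG G := h.big.trans (rt_pow G ▸ le_self_pow₀ h.one_le_rt (by norm_num))
  nlinarith

lemma Stage.abs_mu_le (h : Stage G) : |mu G| ≤ 1 / rt G ^ 4 := by
  have := h.rt_pos
  have h1 : (rt G ^ 4 * |mu G|) ^ 2 < 1 ^ 2 := by
    rw [mul_pow, sq_abs, ← pow_mul]; norm_num; exact h.mu_lt
  rw [le_div_iff₀ (by positivity), mul_comm]
  exact (lt_of_pow_lt_pow_left₀ 2 zero_le_one h1).le

lemma Stage.abs_mu_le_hundredth (h : Stage G) : |mu G| ≤ 1 / 100 := by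
  refine h.abs_mu_le.trans (one_div_le_one_div_of_le (by norm_num) ?_)
  exact (show (100 : ℝ) ≤ rt G by linarith [h.big]).trans (le_self_pow₀ h.one_le_rt (by norm_num))

lemma Stage.card_T (h : Stage G) :
    3 * ((triangles G).card : ℝ) = (1 + mu G) * (G.card * mG G) := by
  have := h.E_pos; have := h.m_pos
  rw [mu]; field_simp; ring

lemma Stage.T_pos (h : Stage G) : 0 < ((triangles G).card : ℝ) := by
  have := abs_le.1 h.abs_mu_le_hundredth
  nlinarith [h.card_T, mul_pos h.E_pos h.m_pos]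

lemma Stage.triangles_ne (h : Stage G) : triangles G ≠ ∅ := fun e => by
  have := h.T_pos; rw [e] at this; simp at this

lemma Stage.rt_le_rn (h : Stage G) : rt G ≤ rn n :=
  Real.rpow_le_rpow (mG_nonneg G) h.m_le_n (by norm_num)

lemma Stage.inv_rt_le_gg (h : Stage G) : 1 / rt G ≤ gg G := by
  have : 0 ≤ rt G / rn n := div_nonneg h.rt_pos.le (Real.rpow_nonneg (Nat.cast_nonneg n) _)
  unfold gg; linarith

lemma Stage.gg_pos (h : Stage G) : 0 < gg G :=
  lt_of_lt_of_le (by have := h.rt_pos; positivity) h.inv_rt_le_gg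

lemma Stage.gg_le (h : Stage G) : gg G ≤ 2 := by
  have h1 : rt G / rn n ≤ 1 := (div_le_one (lt_of_lt_of_le h.rt_pos h.rt_le_rn)).2 h.rt_le_rn
  have h2 : 1 / rt G ≤ 1 := (div_le_one h.rt_pos).2 h.one_le_rt
  unfold gg; linarith

/-- Bound a drift from a bound on the sum over all choices. -/
lemma driftLE_of_sum {Q : Obs n} {r : ℝ} (h : Stage G)
    (hs : ∑ t ∈ triangles G, Q (G \ edgesOf t) (stepM G M t) ≤
      (triangles G).card * (Q G M + 3 / (G.card : ℝ) * r)) : DriftLE Q r G M := by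
  unfold DriftLE next
  rw [div_le_iff₀ h.T_pos]; linarith

lemma rel_nonneg (G : Finset (Sym2 (Fin n))) (e : Sym2 (Fin n)) : 0 ≤ rel G e :=
  div_nonneg (Nat.cast_nonneg _) (mG_nonneg G)

lemma dev_eq (G : Finset (Sym2 (Fin n))) (e : Sym2 (Fin n)) : dev G e = rel G e - 1 := rfl

lemma avgE_nonneg {F : Sym2 (Fin n) → ℝ} (hF : ∀ e ∈ G, 0 ≤ F e) : 0 ≤ avgE G F :=
  div_nonneg (sum_nonneg hF) (Nat.cast_nonneg _)

lemma avgE_mono {F F' : Sym2 (Fin n) → ℝ} (h : ∀ e ∈ G, F e ≤ F' e) : avgE G F ≤ avgE G F' :=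
  div_le_div_of_nonneg_right (sum_le_sum h) (Nat.cast_nonneg _)

lemma avgE_add (F F' : Sym2 (Fin n) → ℝ) :
    avgE G (fun e => F e + F' e) = avgE G F + avgE G F' := by
  rw [avgE, avgE, avgE, sum_add_distrib, add_div]

lemma avgE_mul (c : ℝ) (F : Sym2 (Fin n) → ℝ) : avgE G (fun e => c * F e) = c * avgE G F := by
  rw [avgE, avgE, ← mul_sum, mul_div_assoc]

lemma avgE_const_le {c : ℝ} (hc : 0 ≤ c) : avgE G (fun _ => c) ≤ c := by
  rcases G.eq_empty_or_nonempty with rfl | hne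
  · simp [avgE, hc]
  · rw [avgE, sum_const, nsmul_eq_mul, mul_div_cancel_left₀]
    exact_mod_cast hne.card_pos.ne'

lemma U_nonneg : 0 ≤ U G M :=
  mul_nonneg (mG_nonneg G) (avgE_nonneg fun _ _ => φ_nonneg _)

lemma X_nonneg (k : ℕ) : 0 ≤ X k G M := avgE_nonneg fun e _ => pow_nonneg (rel_nonneg G e) k

lemma W_nonneg (k : ℕ) : 0 ≤ W k G M :=
  avgE_nonneg fun e _ => pow_nonneg (mul_nonneg (mG_nonneg G) (sq_nonneg _)) k

lemma Psi_nonneg : 0 ≤ Psi G M := mul_nonneg (mG_nonneg G) (avgE_nonneg fun _ _ => sq_nonneg _)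

lemma Wh_nonneg : 0 ≤ Wh G M := by
  have := mG_nonneg G
  unfold Wh; positivity

lemma rest_parts :
    0 ≤ ∑ k ∈ Icc 1 (2 * K + 2), X k G M ∧ 0 ≤ ∑ k ∈ Icc 1 K, W k G M :=
  ⟨sum_nonneg fun k _ => X_nonneg k, sum_nonneg fun k _ => W_nonneg k⟩

lemma one_le_Rest : 1 ≤ Rest G M := by
  obtain ⟨h1, h2⟩ := rest_parts (G := G) (M := M)
  have := U_nonneg (G := G) (M := M)
  unfold Rest; linarith

lemma Rest_nonneg : 0 ≤ Rest G M := zero_le_one.trans one_le_Rest

lemma U_le_Rest : U G M ≤ Rest G M := by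
  obtain ⟨h1, h2⟩ := rest_parts (G := G) (M := M)
  unfold Rest; linarith

lemma X_le_Rest {k : ℕ} (hk : k ≤ 2 * K + 2) : X k G M ≤ Rest G M := by
  rcases Nat.eq_zero_or_pos k with rfl | hk0
  · refine le_trans ?_ one_le_Rest
    simp only [X, pow_zero]
    exact avgE_const_le zero_le_one
  · obtain ⟨_, h2⟩ := rest_parts (G := G) (M := M)
    have := single_le_sum (f := fun j => X j G M) (fun j _ => X_nonneg j) (mem_Icc.2 ⟨hk0, hk⟩)
    have := U_nonneg (G := G) (M := M)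
    unfold Rest; linarith

lemma W_le_Rest {k : ℕ} (hk : k ≤ K) : W k G M ≤ Rest G M := by
  rcases Nat.eq_zero_or_pos k with rfl | hk0
  · refine le_trans ?_ one_le_Rest
    simp only [W, pow_zero]
    exact avgE_const_le zero_le_one
  · obtain ⟨h1, _⟩ := rest_parts (G := G) (M := M)
    have := single_le_sum (f := fun j => W j G M) (fun j _ => W_nonneg j) (mem_Icc.2 ⟨hk0, hk⟩)
    have := U_nonneg (G := G) (M := M)
    unfold Rest; linarith

/-- A mixed moment of `y` and `w = m M^2`. -/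
lemma mixed_le {a b : ℕ} (ha : a ≤ K + 1) (hb : 2 * b ≤ K) :
    avgE G (fun e => rel G e ^ a * (mG G * M e ^ 2) ^ b) ≤ Rest G M := by
  have h1 : avgE G (fun e => rel G e ^ a * (mG G * M e ^ 2) ^ b) ≤
      avgE G (fun e => 1 / 2 * rel G e ^ (2 * a) + 1 / 2 * (mG G * M e ^ 2) ^ (2 * b)) := by
    refine avgE_mono fun e _ => ?_
    rw [pow_mul', pow_mul']
    nlinarith [sq_nonneg (rel G e ^ a - (mG G * M e ^ 2) ^ b)]
  rw [avgE_add, avgE_mul, avgE_mul] at h1
  have := X_le_Rest (G := G) (M := M) (show 2 * a ≤ 2 * K + 2 by omega)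
  have := W_le_Rest (G := G) (M := M) hb
  unfold X W at *
  linarith

/-- `D ^ 2` is comparable to `φ D` up to a fourth power of the noise. -/
lemma sq_Dv_le (e : Sym2 (Fin n)) :
    Dv G M e ^ 2 ≤ 32 * φ (Dv G M e) + 200 * M e ^ 4 := by
  have hd : -1 ≤ dev G e := by rw [dev_eq]; linarith [rel_nonneg G e]
  obtain ⟨D, hD⟩ : ∃ D, D = Dv G M e := ⟨_, rfl⟩
  have hM : M e = dev G e - D := by rw [hD, Dv]; ring
  rw [← hD]
  rcases le_or_gt (-2) D with h | h
  · have h0 : D ^ 2 ≤ 32 * φ D := by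
      rcases le_or_gt 0 D with h1 | h1
      · exact sq_le_φ (by linarith)
      · have h3 : 0 < 1 - 3 * D := by linarith
        rw [φ, if_neg (not_le.2 h1), ← mul_div_assoc, le_div_iff₀ h3]
        nlinarith [sq_nonneg D]
    nlinarith [sq_nonneg (M e ^ 2)]
  · have h1 : -D / 2 ≤ M e := by linarith
    have h2 : D ^ 2 ≤ 4 * M e ^ 2 := by nlinarith
    have h3 : 1 ≤ M e ^ 2 := by nlinarith
    nlinarith [mul_le_mul_of_nonneg_left h3 (sq_nonneg (M e)), φ_nonneg D]

/-- The basic bound on the predictable part. -/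
lemma avg_Dsq_le (h : Stage G) :
    mG G * avgE G (fun e => Dv G M e ^ 2) ≤ 300 * Rest G M := by
  have h1 : mG G * avgE G (fun e => Dv G M e ^ 2) ≤
      32 * U G M + 200 * avgE G (fun e => rel G e ^ 0 * (mG G * M e ^ 2) ^ 2) := by
    unfold U
    rw [← avgE_mul, ← avgE_mul (mG G) fun e => φ (Dv G M e), ← avgE_mul, ← avgE_mul,
      ← avgE_add]
    refine avgE_mono fun e _ => ?_
    refine (mul_le_mul_of_nonneg_left (sq_Dv_le e) h.m_pos.le).trans ?_
    rw [pow_zero, one_mul]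
    have : 0 ≤ mG G * M e ^ 4 * (mG G - 1) :=
      mul_nonneg (mul_nonneg h.m_pos.le (by positivity)) (by linarith [h.one_le_m])
    nlinarith
  have := U_le_Rest (G := G) (M := M)
  have := mixed_le (G := G) (M := M) (a := 0) (b := 2) (by norm_num [K]) (by norm_num [K])
  have := Rest_nonneg (G := G) (M := M)
  linarith

lemma mul_threshold (F : ℝ) {z τ : ℝ} (hF : 0 ≤ F) (hz : 0 ≤ z) (hτ : 0 < τ) (j : ℕ) :
    F * z ≤ τ * F + F * (z ^ (j + 1) / τ ^ j) := by
  rcases le_or_gt z τ with h | h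
  · have : 0 ≤ F * (z ^ (j + 1) / τ ^ j) := by positivity
    nlinarith [mul_le_mul_of_nonneg_left h hF]
  · have h1 : z ≤ z ^ (j + 1) / τ ^ j := by
      rw [le_div_iff₀ (by positivity), pow_succ']
      exact mul_le_mul_of_nonneg_left (pow_le_pow_left₀ hτ.le h.le j) hz
    have : 0 ≤ τ * F := by positivity
    nlinarith [mul_le_mul_of_nonneg_left h1 hF]

/-- A crude bound on mixed moments weighted by `D ^ 2`. -/
lemma avg_Dsq_mixed_le (h : Stage G) {a b : ℕ} (ha : a + 2 ≤ K + 1) (hb : 2 * (b + 1) ≤ K) :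
    avgE G (fun e => Dv G M e ^ 2 * (rel G e ^ a * (mG G * M e ^ 2) ^ b)) ≤ 9 * Rest G M := by
  have h1 : avgE G (fun e => Dv G M e ^ 2 * (rel G e ^ a * (mG G * M e ^ 2) ^ b)) ≤
      avgE G (fun e => 3 * (rel G e ^ (a + 2) * (mG G * M e ^ 2) ^ b) +
        (3 * (rel G e ^ a * (mG G * M e ^ 2) ^ b) +
          3 * (rel G e ^ a * (mG G * M e ^ 2) ^ (b + 1)))) := by
    refine avgE_mono fun e _ => ?_
    have hD : Dv G M e ^ 2 ≤ 3 * rel G e ^ 2 + 3 + 3 * (mG G * M e ^ 2) := by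
      have := mul_le_mul_of_nonneg_right h.one_le_m (sq_nonneg (M e))
      rw [Dv, dev_eq]
      nlinarith [sq_nonneg (rel G e + 1), sq_nonneg (rel G e + M e), sq_nonneg (1 - M e)]
    have hp : 0 ≤ rel G e ^ a * (mG G * M e ^ 2) ^ b := by
      have := rel_nonneg G e; have := h.m_pos; positivity
    refine (mul_le_mul_of_nonneg_right hD hp).trans_eq ?_
    ring
  rw [avgE_add, avgE_add, avgE_mul, avgE_mul, avgE_mul] at h1
  have := mixed_le (G := G) (M := M) (a := a + 2) (b := b) ha (by omega)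
  have := mixed_le (G := G) (M := M) (a := a) (b := b) (by omega) (by omega)
  have := mixed_le (G := G) (M := M) (a := a) (b := b + 1) (by omega) hb
  linarith

/-- Weighting `D ^ 2` by a power of `y` costs a factor `m^(1/16)`. -/
lemma avg_Dsq_rel_le (h : Stage G) {a : ℕ} (ha : 17 * a + 2 ≤ K + 1) :
    mG G * avgE G (fun e => Dv G M e ^ 2 * rel G e ^ a) ≤ 309 * (rt G * Rest G M) := by
  have hr := h.rt_pos
  have h1 : avgE G (fun e => Dv G M e ^ 2 * rel G e ^ a) ≤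
      avgE G (fun e => rt G * Dv G M e ^ 2 +
        1 / rt G ^ 16 * (Dv G M e ^ 2 * (rel G e ^ (17 * a) * (mG G * M e ^ 2) ^ 0))) := by
    refine avgE_mono fun e _ => ?_
    refine (mul_threshold _ (sq_nonneg _) (pow_nonneg (rel_nonneg G e) a) hr 16).trans_eq ?_
    rw [← pow_mul, pow_zero, mul_one, mul_comm a]
    ring
  rw [avgE_add, avgE_mul, avgE_mul, rt_pow] at h1
  have h2 := avg_Dsq_le (M := M) h
  have h3 := avg_Dsq_mixed_le (M := M) h (a := 17 * a) (b := 0) ha (by norm_num [K])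
  have h4 : mG G * avgE G (fun e => Dv G M e ^ 2 * rel G e ^ a) ≤
      rt G * (mG G * avgE G (fun e => Dv G M e ^ 2)) +
        avgE G (fun e => Dv G M e ^ 2 * (rel G e ^ (17 * a) * (mG G * M e ^ 2) ^ 0)) := by
    refine (mul_le_mul_of_nonneg_left h1 h.m_pos.le).trans_eq ?_
    have := h.m_pos.ne'
    field_simp
  have h5 := mul_le_mul_of_nonneg_left h2 hr.le
  nlinarith [mul_le_mul_of_nonneg_right h.one_le_rt (Rest_nonneg (G := G) (M := M))]

/-- Weighting `D ^ 2` by `y^a |M|` gains a factor `m^(-1/4)`. -/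
lemma avg_Dsq_noise_le (h : Stage G) {a : ℕ} (ha : 6 * a + 2 ≤ K + 1) :
    mG G * avgE G (fun e => Dv G M e ^ 2 * (rel G e ^ a * |M e|)) ≤
      309 * (Rest G M / rt G ^ 4) := by
  have hr := h.rt_pos
  have h1 : avgE G (fun e => Dv G M e ^ 2 * (rel G e ^ a * |M e|)) ≤
      avgE G (fun e => 1 / rt G ^ 4 * Dv G M e ^ 2 +
        rt G ^ 20 / mG G ^ 3 * (Dv G M e ^ 2 * (rel G e ^ (6 * a) * (mG G * M e ^ 2) ^ 3))) := by
    refine avgE_mono fun e _ => ?_
    refine (mul_threshold _ (sq_nonneg _)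
      (mul_nonneg (pow_nonneg (rel_nonneg G e) a) (abs_nonneg _))
      (show 0 < 1 / rt G ^ 4 by positivity) 5).trans_eq ?_
    have hM : |M e| ^ (5 + 1) = (M e ^ 2) ^ 3 := by rw [← sq_abs (M e)]; ring
    rw [mul_pow, hM, ← pow_mul, mul_comm a]
    have := h.m_pos.ne'
    field_simp
  rw [avgE_add, avgE_mul, avgE_mul] at h1
  have h2 := avg_Dsq_le (M := M) h
  have h3 := avg_Dsq_mixed_le (M := M) h (a := 6 * a) (b := 3) ha (by norm_num [K])
  have h4 : mG G * (rt G ^ 20 / mG G ^ 3) ≤ 1 / rt G ^ 4 := by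
    have := h.m_pos
    rw [← rt_pow, ← mul_div_assoc, div_le_div_iff₀ (by positivity) (by positivity)]
    have := pow_le_pow_right₀ h.one_le_rt (show 40 ≤ 48 by norm_num)
    nlinarith [this]
  have hq : 0 ≤ avgE G
      (fun e => Dv G M e ^ 2 * (rel G e ^ (6 * a) * (mG G * M e ^ 2) ^ 3)) :=
    avgE_nonneg fun e _ => by have := rel_nonneg G e; have := h.m_pos; positivity
  calc mG G * avgE G (fun e => Dv G M e ^ 2 * (rel G e ^ a * |M e|))
      ≤ 1 / rt G ^ 4 * (mG G * avgE G (fun e => Dv G M e ^ 2)) +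
          mG G * (rt G ^ 20 / mG G ^ 3) *
            avgE G (fun e => Dv G M e ^ 2 * (rel G e ^ (6 * a) * (mG G * M e ^ 2) ^ 3)) := by
        refine (mul_le_mul_of_nonneg_left h1 h.m_pos.le).trans_eq ?_
        ring
    _ ≤ 1 / rt G ^ 4 * (300 * Rest G M) + 1 / rt G ^ 4 * (9 * Rest G M) := by gcongr
    _ = _ := by ring

/-- The mean square deviation, weighted by a power of `y`. -/
lemma avg_dev_sq_rel_le (h : Stage G) {a : ℕ} (ha : 17 * a + 2 ≤ K + 1) :
    mG G * avgE G (fun e => dev G e ^ 2 * rel G e ^ a) ≤ 700 * (rt G * Rest G M) := by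
  have h1 : mG G * avgE G (fun e => dev G e ^ 2 * rel G e ^ a) ≤
      2 * (mG G * avgE G (fun e => Dv G M e ^ 2 * rel G e ^ a)) +
        2 * avgE G (fun e => rel G e ^ a * (mG G * M e ^ 2) ^ 1) := by
    rw [← avgE_mul, ← avgE_mul (mG G) fun e => Dv G M e ^ 2 * rel G e ^ a, ← avgE_mul, ← avgE_mul,
      ← avgE_add]
    refine avgE_mono fun e _ => ?_
    have hd : dev G e = Dv G M e + M e := by rw [Dv]; ring
    rw [hd, pow_one]
    have hp : 0 ≤ mG G * rel G e ^ a := by have := rel_nonneg G e; have := h.m_pos; positivity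
    nlinarith [mul_le_mul_of_nonneg_left (add_sq_le (a := Dv G M e) (b := M e)) hp]
  have h2 := avg_Dsq_rel_le (M := M) h ha
  have h3 := mixed_le (G := G) (M := M) (a := a) (b := 1) (by omega) (by norm_num [K])
  have h4 := mul_le_mul_of_nonneg_right h.one_le_rt (Rest_nonneg (G := G) (M := M))
  rw [one_mul] at h4
  have := mul_nonneg h.rt_pos.le (Rest_nonneg (G := G) (M := M))
  linarith

/-- `T * lam` as a sum over the triangles at `e`. -/
lemma lam_mul (h : Stage G) (e : Sym2 (Fin n)) :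
    lam G e * (triangles G).card =
      ∑ u ∈ triangles G with e ∈ edgesOf u, (cs G u - 2 - cod G e) := by
  rw [lam, div_mul_cancel₀ _ h.T_pos.ne', sum_loss]

lemma lam_nonneg (G : Finset (Sym2 (Fin n))) (e : Sym2 (Fin n)) : 0 ≤ lam G e := by
  unfold lam; positivity

lemma lam_le_three (G : Finset (Sym2 (Fin n))) (e : Sym2 (Fin n)) : lam G e ≤ 3 := by
  unfold lam
  refine div_le_of_le_mul₀ (Nat.cast_nonneg _) (by norm_num) ?_
  refine (sum_le_card_nsmul _ _ (3 : ℝ) fun t ht => ?_).trans ?_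
  · obtain ⟨h1, h2⟩ := mem_filter.1 ht
    exact_mod_cast loss_le_three h1 h2
  · rw [nsmul_eq_mul, mul_comm]
    gcongr
    exact filter_subset _ _

lemma cs_nonneg (G : Finset (Sym2 (Fin n))) (u : Finset (Fin n)) : 0 ≤ cs G u :=
  sum_nonneg fun _ _ => Nat.cast_nonneg _

/-- Powers of the codegree sum over triangles are codegree moments. -/
lemma sum_cs_pow (G : Finset (Sym2 (Fin n))) (j : ℕ) :
    ∑ u ∈ triangles G, cs G u ^ (j + 1) ≤ 3 ^ j * ∑ e ∈ G, (cod G e : ℝ) ^ (j + 2) := by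
  have h : ∀ u ∈ triangles G,
      cs G u ^ (j + 1) ≤ ∑ e ∈ edgesOf u, 3 ^ j * (cod G e : ℝ) ^ (j + 1) := by
    intro u hu
    rw [← mul_sum]
    have := pow_sum_le_card_mul_sum_pow (s := edgesOf u) (f := fun e => (cod G e : ℝ))
      (fun e _ => Nat.cast_nonneg _) j
    rw [card_edgesOf (card3_of_mem hu)] at this
    push_cast at this ⊢
    exact this
  refine (sum_le_sum h).trans (le_of_eq ?_)
  rw [swap_sum G fun e => 3 ^ j * (cod G e : ℝ) ^ (j + 1), mul_sum]
  exact sum_congr rfl fun e _ => by ring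

lemma sum_cs_pow_le (h : Stage G) {j : ℕ} (hj : j + 2 ≤ 2 * K + 2) :
    ∑ u ∈ triangles G, cs G u ^ (j + 1) ≤
      3 ^ j * ((G.card : ℝ) * mG G ^ (j + 2) * Rest G M) := by
  refine (sum_cs_pow G j).trans (mul_le_mul_of_nonneg_left ?_ (by positivity))
  have hx := X_le_Rest (G := G) (M := M) hj
  have e1 : ∑ e ∈ G, (cod G e : ℝ) ^ (j + 2) = (G.card : ℝ) * mG G ^ (j + 2) * X (j + 2) G M := by
    unfold X avgE rel
    rw [mul_comm (G.card : ℝ), mul_assoc, mul_div_cancel₀ _ h.E_pos.ne', mul_sum]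
    refine sum_congr rfl fun e _ => ?_
    rw [div_pow, mul_div_cancel₀ _ (pow_ne_zero _ h.m_pos.ne')]
  rw [e1]
  have := h.E_pos; have := h.m_pos
  gcongr

/-- Two functions on the edges, paired over triangles. -/
lemma sum_tri_mul_le (G : Finset (Sym2 (Fin n))) (F F' : Sym2 (Fin n) → ℝ) :
    ∑ u ∈ triangles G, (∑ e ∈ edgesOf u, F e) * ∑ e ∈ edgesOf u, F' e ≤
      3 / 2 * ∑ e ∈ G, (cod G e : ℝ) * (F e ^ 2 + F' e ^ 2) := by
  rw [← swap_sum, mul_sum]
  refine sum_le_sum fun u hu => ?_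
  have h1 := sq_sum_le_card_mul_sum_sq (s := edgesOf u) (f := F)
  have h2 := sq_sum_le_card_mul_sum_sq (s := edgesOf u) (f := F')
  rw [card_edgesOf (card3_of_mem hu)] at h1 h2
  push_cast at h1 h2
  rw [sum_add_distrib]
  nlinarith [sq_nonneg ((∑ e ∈ edgesOf u, F e) - ∑ e ∈ edgesOf u, F' e)]

end Vale.Agent.P046.Lin
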