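import Vale.Agent.P046.Lin.Tools
import Vale.Agent.P046.Lin.Key

/-!
The drift of the potential of the predictable part: neutral, up to forcing by the neighbour sums of
the noise field and integrable errors.
-/

namespace Vale.Agent.P046.Lin

open Finset
open Track
open scoped Classical

variable {n : ℕ} {G : Finset (Sym2 (Fin n))} {M : Sym2 (Fin n) → ℝ}

/-- A function of triangle and edge, summed over incidences. -/
lemma sum_incidence (G : Finset (Sym2 (Fin n))) (F : Finset (Fin n) → Sym2 (Fin n) → ℝ) :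
    ∑ e ∈ G, ∑ u ∈ triangles G with e ∈ edgesOf u, F u e =
      ∑ u ∈ triangles G, ∑ e ∈ edgesOf u, F u e := by
  simp only [sum_filter]
  rw [sum_comm]
  refine sum_congr rfl fun u hu => ?_
  rw [← sum_filter, filter_mem_eq_inter, inter_eq_right.2 (edgesOf_sub hu)]

lemma Stage.card_mul_avgE (h : Stage G) (F : Sym2 (Fin n) → ℝ) :
    ∑ e ∈ G, F e = (G.card : ℝ) * avgE G F := by
  rw [avgE, mul_div_cancel₀ _ h.E_pos.ne']

/-- The side codegree sum of an edge, in units of the squared ideal codegree. -/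
noncomputable def sideSum (G : Finset (Sym2 (Fin n))) (e : Sym2 (Fin n)) : ℝ :=
  (∑ u ∈ triangles G with e ∈ edgesOf u, (cs G u - 2 - cod G e)) / mG G ^ 2

/-- The neighbour sum of the predictable part. -/
noncomputable def aD (G : Finset (Sym2 (Fin n))) (M : Sym2 (Fin n) → ℝ) (e : Sym2 (Fin n)) : ℝ :=
  (∑ u ∈ triangles G with e ∈ edgesOf u, ∑ f ∈ (edgesOf u).erase e, Dv G M f) / mG G

lemma lam_eq (h : Stage G) (e : Sym2 (Fin n)) :
    lam G e / mG G = 3 * sideSum G e / ((G.card : ℝ) * (1 + mu G)) := by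
  have hm := h.m_pos; have hE := h.E_pos
  have hμ : 0 < 1 + mu G := by linarith [(abs_le.1 h.abs_mu_le_hundredth).1]
  have h1 := lam_mul h e
  have h2 := h.card_T
  unfold sideSum
  rw [← h1, div_eq_div_iff hm.ne' (mul_pos hE hμ).ne']
  field_simp
  linear_combination (-(lam G e)) * h2

lemma sideSum_nonneg (h : Stage G) (e : Sym2 (Fin n)) : 0 ≤ sideSum G e := by
  have h1 : 0 ≤ lam G e / mG G := div_nonneg (lam_nonneg G e) h.m_pos.le
  rw [lam_eq h] at h1
  have hμ : 0 < 1 + mu G := by linarith [(abs_le.1 h.abs_mu_le_hundredth).1]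
  have := h.E_pos
  rw [le_div_iff₀ (by positivity), zero_mul] at h1
  linarith

lemma sideSum_eq (h : Stage G) (e : Sym2 (Fin n)) :
    sideSum G e = 2 * rel G e + aD G M e + aM G M e - 2 * rel G e / mG G := by
  have hm := h.m_pos.ne'
  have one : ∀ u ∈ ({u ∈ triangles G | e ∈ edgesOf u} : Finset _), cs G u - 2 - (cod G e : ℝ) =
      (2 * mG G - 2) + mG G * (∑ f ∈ (edgesOf u).erase e, Dv G M f) +
        mG G * ∑ f ∈ (edgesOf u).erase e, M f := by
    intro u hu
    obtain ⟨hu, he⟩ := mem_filter.1 hu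
    have hcs : cs G u - (cod G e : ℝ) = ∑ f ∈ (edgesOf u).erase e, (cod G f : ℝ) := by
      rw [cs, ← sum_erase_add _ _ he]; ring
    have hf : ∀ f ∈ (edgesOf u).erase e,
        (cod G f : ℝ) = mG G + mG G * Dv G M f + mG G * M f := fun f _ => by
      rw [Dv, dev]; field_simp; ring
    rw [show cs G u - 2 - (cod G e : ℝ) = (cs G u - cod G e) - 2 by ring, hcs, sum_congr rfl hf,
      sum_add_distrib, sum_add_distrib, sum_const, card_erase_of_mem he,
      card_edgesOf (card3_of_mem hu), ← mul_sum, ← mul_sum, nsmul_eq_mul]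
    push_cast; ring
  unfold sideSum aD aM rel
  rw [sum_congr rfl one, sum_add_distrib, sum_add_distrib, sum_const, ← mul_sum, ← mul_sum,
    nsmul_eq_mul]
  rw [show (({u ∈ triangles G | e ∈ edgesOf u} : Finset _).card : ℝ) = (cod G e : ℝ) from rfl]
  field_simp
  ring

lemma sum_sideSum_sq_le (h : Stage G) :
    ∑ e ∈ G, sideSum G e ^ 2 ≤ 9 * ((G.card : ℝ) * Rest G M) := by
  have hm := h.m_pos
  have h1 : ∀ e ∈ G, sideSum G e ^ 2 ≤
      1 / mG G ^ 4 * ∑ u ∈ triangles G with e ∈ edgesOf u, (cod G e : ℝ) * cs G u ^ 2 := by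
    intro e _
    have h0 := sideSum_nonneg h e
    have hle : sideSum G e ≤ (∑ u ∈ triangles G with e ∈ edgesOf u, cs G u) / mG G ^ 2 := by
      refine div_le_div_of_nonneg_right (sum_le_sum fun u _ => ?_) (by positivity)
      linarith [Nat.cast_nonneg (α := ℝ) (cod G e)]
    refine (pow_le_pow_left₀ h0 hle 2).trans ?_
    rw [div_pow, ← pow_mul, ← mul_sum, one_div, ← div_eq_inv_mul]
    exact div_le_div_of_nonneg_right sq_sum_le_card_mul_sum_sq (by positivity)
  refine (sum_le_sum h1).trans ?_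
  rw [← mul_sum, sum_incidence]
  have h2 : ∀ u ∈ triangles G, ∑ e ∈ edgesOf u, (cod G e : ℝ) * cs G u ^ 2 ≤ cs G u ^ (2 + 1) := by
    intro u _
    rw [← sum_mul]
    exact le_of_eq (pow_succ' (cs G u) 2).symm
  refine (mul_le_mul_of_nonneg_left ((sum_le_sum h2).trans
    (sum_cs_pow_le (M := M) h (j := 2) (by norm_num [K]))) (by positivity)).trans (le_of_eq ?_)
  field_simp
  ring

lemma Dv_step (h : Stage G) {t : Finset (Fin n)} (ht : t ∈ triangles G) (e : Sym2 (Fin n)) :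
    Dv (G \ edgesOf t) (stepM G M t) e = Dv G M e +
      ((1 / (1 - 3 / (G.card : ℝ)) ^ 2 - 1) * rel G e -
        1 / (1 - 3 / (G.card : ℝ)) ^ 2 * (lam G e / mG G)) := by
  rw [Dv, Dv, dev, dev, stepM, cod_sdiff, mG_sdiff h.E_pos.ne' ht, rel]
  simp only [div_mul_eq_div_div]
  ring

/-- Size of the predictable increment. -/
lemma delta_bounds {E q y b l : ℝ} (hE : 0 < E) (hq0 : 6 / E ≤ q - 1) (hq1 : q - 1 ≤ 8 / E)
    (hq2 : q - 1 - 6 / E ≤ 40 / E ^ 2) (hq3 : q ≤ 2) (hy : 0 ≤ y) (hb : 0 ≤ b) (hl : 0 ≤ l)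
    (hl6 : l ≤ 6 * b / E) :
    |(q - 1) * y - q * l| ≤ 20 * (y + b) / E ∧
      |(q - 1) * y - q * l - (6 / E * y - l)| ≤ 48 * (y + b) / E ^ 2 := by
  have h6E : 0 ≤ 6 / E := by positivity
  have hq : 0 ≤ q - 1 := le_trans h6E hq0
  constructor
  · have e1 : 20 * (y + b) / E = 8 / E * y + 12 / E * y + (2 * (6 * b / E) + 8 / E * b) := by ring
    have b1 := mul_le_mul_of_nonneg_right hq1 hy
    have b2 := mul_le_mul hq3 hl6 hl (by norm_num)
    have b3 : 0 ≤ (q - 1) * y := mul_nonneg hq hy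
    have b4 : 0 ≤ q * l := mul_nonneg (by linarith) hl
    have b5 : 0 ≤ 12 / E * y + 8 / E * b := by positivity
    have b6 : 0 ≤ 8 / E * y := by positivity
    rw [e1, abs_le]; constructor <;> linarith
  · have e1 : (q - 1) * y - q * l - (6 / E * y - l) = (q - 1 - 6 / E) * y - (q - 1) * l := by ring
    have b1 := mul_le_mul_of_nonneg_right hq2 hy
    have b2 := mul_le_mul hq1 hl6 hl (by positivity)
    have e2 : 48 * (y + b) / E ^ 2 =
        40 / E ^ 2 * y + 8 / E ^ 2 * y + 8 / E * (6 * b / E) := by ring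
    have b3 : 0 ≤ (q - 1 - 6 / E) * y := mul_nonneg (by linarith) hy
    have b4 : 0 ≤ (q - 1) * l := mul_nonneg hq hl
    have b5 : 0 ≤ 8 / E ^ 2 * y := by positivity
    have b6 : 0 ≤ 40 / E ^ 2 * y := by positivity
    rw [e1, e2, abs_le]; constructor <;> linarith

lemma poly_bound {y b D : ℝ} (hy : 0 ≤ y) :
    18 * (y * D ^ 2) + 2 * |D| * (48 * (y + b)) +
      9 * (1 + y) * (2 * |D| * (20 * (y + b))) + 3 * (20 * (y + b)) ^ 2 ≤
      10000 * (1 + y ^ 4 + D ^ 4 + b ^ 2) := by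
  have p1 : y * D ^ 2 ≤ y ^ 2 + D ^ 4 := by nlinarith [sq_nonneg (y - D ^ 2)]
  have p2 : y ^ 2 ≤ 1 + y ^ 4 := by nlinarith [sq_nonneg (y ^ 2 - 1)]
  have p3 : D ^ 2 ≤ 1 + D ^ 4 := by nlinarith [sq_nonneg (D ^ 2 - 1)]
  have p4 : (1 + y) ^ 4 ≤ 8 * (1 + y ^ 4) := by
    have h : (1 + y) ^ 2 ≤ 2 * (1 + y ^ 2) := by nlinarith [sq_nonneg (y - 1)]
    have := pow_le_pow_left₀ (sq_nonneg _) h 2
    nlinarith [sq_nonneg (y ^ 2 - 1)]
  have p5 : 2 * |D| * (y + b) ≤ D ^ 2 + (y + b) ^ 2 := by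
    nlinarith [sq_nonneg (|D| - (y + b)), sq_abs D]
  have p6 : (y + b) ^ 2 ≤ 2 * y ^ 2 + 2 * b ^ 2 := by nlinarith [sq_nonneg (y - b)]
  have p7 : (1 + y) * (2 * |D| * (y + b)) ≤ D ^ 4 / 2 + (1 + y) ^ 4 / 2 + (y + b) ^ 2 := by
    nlinarith [sq_nonneg (|D| * (1 + y) - (y + b)), sq_nonneg (D ^ 2 - (1 + y) ^ 2), sq_abs D]
  have := pow_nonneg hy 4
  have := sq_nonneg b
  have := sq_nonneg (D ^ 2)
  linarith

/-- The Taylor estimate in terms of the size of the increment. -/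
lemma taylor_scaled {ε p s r δ d₁ d₂ g D f₁ : ℝ} (hε0 : 0 ≤ ε) (hε1 : ε ≤ 1)
    (hf : ε * φ D ≤ f₁) (hε2 : 1 - ε ≤ g) (hδ : |δ| ≤ d₁) (hr : |δ - r| ≤ d₂) (hs : |ψ D| ≤ s)
    (hp : p = ψ D * r) :
    ε * φ (D + δ) ≤ f₁ + p + (s * d₂ + g * (s * d₁) + 3 * d₁ ^ 2) := by
  have tay := mul_le_mul_of_nonneg_left (φ_taylor_all D (D + δ)) hε0
  rw [add_sub_cancel_left] at tay
  have hs0 : 0 ≤ s := le_trans (abs_nonneg _) hs
  have h1 : ψ D * (δ - r) ≤ s * d₂ :=
    (le_abs_self _).trans (by rw [abs_mul]; exact mul_le_mul hs hr (abs_nonneg _) hs0)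
  have h2 : -((1 - ε) * (ψ D * δ)) ≤ g * (s * d₁) := by
    refine (neg_le_abs _).trans ?_
    rw [abs_mul, abs_of_nonneg (sub_nonneg.2 hε1), abs_mul]
    exact mul_le_mul hε2 (mul_le_mul hs hδ (abs_nonneg _) hs0) (by positivity) (by linarith)
  have h3 : ε * (3 * δ ^ 2) ≤ 3 * d₁ ^ 2 := by
    have := pow_le_pow_left₀ (abs_nonneg δ) hδ 2
    rw [sq_abs] at this
    have := mul_le_mul_of_nonneg_right hε1 (show 0 ≤ 3 * δ ^ 2 by positivity)
    linarith
  rw [hp]
  linarith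

/-- The one-edge Taylor estimate. -/
lemma edge_step {E y b D μ : ℝ} (hE : 30 ≤ E) (hy : 0 ≤ y) (hb : 0 ≤ b) (hμ : |μ| ≤ 1 / 100)
    (hp : 3 * y / (E * (1 + μ)) ≤ 1) :
    (1 - 3 / E) * (1 - 3 * y / (E * (1 + μ))) *
        φ (D + ((1 / (1 - 3 / E) ^ 2 - 1) * y - 1 / (1 - 3 / E) ^ 2 * (3 * b / (E * (1 + μ))))) ≤
      φ D + 3 / E * (-φ D + (-(y * φ D) + ψ D * (2 * y - b) + 2 * μ * (ψ D * y)) / (1 + μ)) +
        10000 / E ^ 2 * (1 + y ^ 4 + D ^ 4 + b ^ 2) := by
  obtain ⟨hq1, hq2, hq3, hq4⟩ := q_bounds hE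
  have hμ' := abs_le.1 hμ
  have hE0 : 0 < E := by linarith
  have hτ : 0 < 1 + μ := by linarith
  have h6E : 0 ≤ 6 / E := by positivity
  have hp0 : 0 ≤ 3 * y / (E * (1 + μ)) := by positivity
  have hp6 : 3 * y / (E * (1 + μ)) ≤ 6 * y / E := by
    rw [div_le_div_iff₀ (by positivity) hE0]
    nlinarith [mul_nonneg hy hE0.le]
  have hl6 : 3 * b / (E * (1 + μ)) ≤ 6 * b / E := by
    rw [div_le_div_iff₀ (by positivity) hE0]
    nlinarith [mul_nonneg hb hE0.le]
  obtain ⟨hd1, hd2⟩ := delta_bounds (q := 1 / (1 - 3 / E) ^ 2) hE0 (by linarith) (by linarith)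
    (by linarith) (by linarith) hy hb (by positivity : 0 ≤ 3 * b / (E * (1 + μ))) hl6
  have h3E : 0 ≤ 3 / E ∧ 3 / E ≤ 1 := ⟨by positivity, by rw [div_le_one hE0]; linarith⟩
  have hε2 : 1 - (1 - 3 / E) * (1 - 3 * y / (E * (1 + μ))) ≤ 9 * (1 + y) / E := by
    have : 0 ≤ 3 / E * (3 * y / (E * (1 + μ))) := mul_nonneg h3E.1 hp0
    have e1 : 9 * (1 + y) / E = 3 / E + 6 * y / E + (6 / E + 3 * y / E) := by ring
    have : 0 ≤ 6 / E + 3 * y / E := by positivity
    rw [e1]; linarith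
  have t1 : (1 - 3 / E) * (1 - 3 * y / (E * (1 + μ))) * φ D ≤
      φ D - (3 / E + 3 * y / (E * (1 + μ))) * φ D + 18 * (y * D ^ 2) / E ^ 2 := by
    have h1 : 3 / E * (3 * y / (E * (1 + μ))) * φ D ≤ 3 / E * (6 * y / E) * D ^ 2 :=
      mul_le_mul (mul_le_mul_of_nonneg_left hp6 h3E.1) (φ_le_sq D) (φ_nonneg D) (by positivity)
    have e1 : 3 / E * (6 * y / E) * D ^ 2 = 18 * (y * D ^ 2) / E ^ 2 := by ring
    linarith
  refine (taylor_scaled (mul_nonneg (by linarith) (by linarith))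
    (mul_le_one₀ (by linarith) (by linarith) (by linarith)) t1 hε2 hd1 hd2 (abs_ψ_le_all D)
    rfl).trans ?_
  have main : -((3 / E + 3 * y / (E * (1 + μ))) * φ D) +
      ψ D * (6 / E * y - 3 * b / (E * (1 + μ))) =
      3 / E * (-φ D + (-(y * φ D) + ψ D * (2 * y - b) + 2 * μ * (ψ D * y)) / (1 + μ)) := by
    field_simp; ring
  have hscale := mul_le_mul_of_nonneg_left (poly_bound (b := b) (D := D) hy)
    (show 0 ≤ 1 / E ^ 2 by positivity)
  have e1 : 1 / E ^ 2 * (18 * (y * D ^ 2) + 2 * |D| * (48 * (y + b)) +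
      9 * (1 + y) * (2 * |D| * (20 * (y + b))) + 3 * (20 * (y + b)) ^ 2) =
      18 * (y * D ^ 2) / E ^ 2 + (2 * |D| * (48 * (y + b) / E ^ 2) +
        9 * (1 + y) / E * (2 * |D| * (20 * (y + b) / E)) + 3 * (20 * (y + b) / E) ^ 2) := by ring
  have e2 : 1 / E ^ 2 * (10000 * (1 + y ^ 4 + D ^ 4 + b ^ 2)) =
      10000 / E ^ 2 * (1 + y ^ 4 + D ^ 4 + b ^ 2) := by ring
  rw [e1, e2] at hscale
  linarith

/-- The three-edge inequality, summed over the triangles. -/
lemma sum_key_robust (h : Stage G) :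
    -(∑ e ∈ G, φ (Dv G M e)) - (∑ e ∈ G, rel G e * φ (Dv G M e)) -
        ∑ e ∈ G, ψ (Dv G M e) * aD G M e ≤
      65536 / mG G * ∑ u ∈ triangles G,
        (∑ e ∈ edgesOf u, |M e|) * ∑ e ∈ edgesOf u, Dv G M e ^ 2 := by
  have hm := h.m_pos
  have h1 : ∑ u ∈ triangles G, ∑ e ∈ edgesOf u,
      (φ (Dv G M e) * (1 + 1 / rel G e) +
        ψ (Dv G M e) * ∑ f ∈ (edgesOf u).erase e, Dv G M f) ≤
      mG G * ((∑ e ∈ G, φ (Dv G M e)) + (∑ e ∈ G, rel G e * φ (Dv G M e)) +
        ∑ e ∈ G, ψ (Dv G M e) * aD G M e) := by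
    rw [← sum_incidence, mul_add, mul_add, mul_sum, mul_sum, mul_sum, ← sum_add_distrib,
      ← sum_add_distrib]
    refine sum_le_sum fun e _ => ?_
    rw [sum_add_distrib, sum_const, nsmul_eq_mul, ← mul_sum,
      show (({u ∈ triangles G | e ∈ edgesOf u} : Finset _).card : ℝ) = (cod G e : ℝ) from rfl]
    have ea : mG G * (ψ (Dv G M e) * aD G M e) = ψ (Dv G M e) *
        ∑ u ∈ triangles G with e ∈ edgesOf u, ∑ f ∈ (edgesOf u).erase e, Dv G M f := by
      rw [aD]; field_simp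
    rw [ea]
    refine add_le_add ?_ le_rfl
    rw [rel]
    rcases Nat.eq_zero_or_pos (cod G e) with h0 | h0
    · rw [h0]; simpa using mul_nonneg hm.le (φ_nonneg _)
    · have : (cod G e : ℝ) ≠ 0 := by positivity
      refine le_of_eq ?_
      field_simp
      ring
  have h2 : ∀ u ∈ triangles G,
      -(65536 * ((∑ e ∈ edgesOf u, |M e|) * ∑ e ∈ edgesOf u, Dv G M e ^ 2)) ≤
        ∑ e ∈ edgesOf u, (φ (Dv G M e) * (1 + 1 / rel G e) +
          ψ (Dv G M e) * ∑ f ∈ (edgesOf u).erase e, Dv G M f) := by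
    intro u hu
    obtain ⟨a, b, c, hab, hac, hbc, hu3⟩ := Finset.card_eq_three.1 (card_edgesOf (card3_of_mem hu))
    have pos : ∀ e ∈ edgesOf u, 0 < rel G e := by
      intro e he
      have : 0 < cod G e := card_pos.2 ⟨u, mem_filter.2 ⟨hu, he⟩⟩
      unfold rel; positivity
    have ka := pos a (by rw [hu3]; simp)
    have kb := pos b (by rw [hu3]; simp)
    have kc := pos c (by rw [hu3]; simp)
    have k := key_robust (x := Dv G M a) (y := Dv G M b) (z := Dv G M c) ka kb kc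
    have e0 : ∀ e, rel G e - 1 - Dv G M e = M e := fun e => by rw [Dv, dev_eq]; ring
    simp only [e0, triF] at k
    have e1 : ∀ F : Sym2 (Fin n) → ℝ, ∑ e ∈ ({a, b, c} : Finset _), F e = F a + F b + F c := by
      intro F
      rw [sum_insert (by simp [hab, hac]), sum_insert (by simp [hbc]), sum_singleton, add_assoc]
    have e2 : ∀ e ∈ ({a, b, c} : Finset _), ∑ f ∈ ({a, b, c} : Finset _).erase e, Dv G M f =
        Dv G M a + Dv G M b + Dv G M c - Dv G M e := by
      intro e he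
      rw [eq_sub_iff_add_eq, sum_erase_add _ _ he, e1]
    rw [hu3]
    simp only [e1]
    rw [e2 a (by simp), e2 b (by simp), e2 c (by simp)]
    linarith
  have h3 := (sum_le_sum h2).trans h1
  rw [sum_neg_distrib, ← mul_sum] at h3
  rw [div_mul_eq_mul_div, le_div_iff₀ hm]
  linarith

lemma pow4_Dv_le (h : Stage G) (e : Sym2 (Fin n)) :
    Dv G M e ^ 4 ≤ 3 * (Dv G M e ^ 2 * rel G e ^ 2) + 3 * Dv G M e ^ 2 +
      3 * (Dv G M e ^ 2 * (mG G * M e ^ 2)) := by
  have hD : Dv G M e ^ 2 ≤ 3 * rel G e ^ 2 + 3 + 3 * (mG G * M e ^ 2) := by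
    have := mul_le_mul_of_nonneg_right h.one_le_m (sq_nonneg (M e))
    rw [Dv, dev_eq]
    nlinarith [sq_nonneg (rel G e + 1), sq_nonneg (rel G e + M e), sq_nonneg (1 - M e)]
  nlinarith [mul_le_mul_of_nonneg_left hD (sq_nonneg (Dv G M e))]

lemma avg_Dv4_le (h : Stage G) {a : ℕ} (ha : a + 4 ≤ K + 1) :
    avgE G (fun e => rel G e ^ a * Dv G M e ^ 4) ≤ 81 * Rest G M := by
  have h1 : avgE G (fun e => rel G e ^ a * Dv G M e ^ 4) ≤
      avgE G (fun e => 3 * (Dv G M e ^ 2 * (rel G e ^ (a + 2) * (mG G * M e ^ 2) ^ 0)) +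
        (3 * (Dv G M e ^ 2 * (rel G e ^ a * (mG G * M e ^ 2) ^ 0)) +
          3 * (Dv G M e ^ 2 * (rel G e ^ a * (mG G * M e ^ 2) ^ 1)))) := by
    refine avgE_mono fun e _ => ?_
    refine (mul_le_mul_of_nonneg_left (pow4_Dv_le h e) (pow_nonneg (rel_nonneg G e) a)).trans_eq ?_
    ring
  rw [avgE_add, avgE_add, avgE_mul, avgE_mul, avgE_mul] at h1
  have := avg_Dsq_mixed_le (M := M) h (a := a + 2) (b := 0) (by omega) (by norm_num [K])
  have := avg_Dsq_mixed_le (M := M) h (a := a) (b := 0) (by omega) (by norm_num [K])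
  have := avg_Dsq_mixed_le (M := M) h (a := a) (b := 1) (by omega) (by norm_num [K])
  linarith

/-- The mismatch error of the three-edge inequality. -/
lemma cubic_le (h : Stage G) :
    (∑ u ∈ triangles G, (∑ e ∈ edgesOf u, |M e|) * ∑ e ∈ edgesOf u, Dv G M e ^ 2) / G.card ≤
      1100 * (Rest G M / rt G) := by
  have hm := h.m_pos; have hE := h.E_pos; have hr := h.rt_pos
  have hR := Rest_nonneg (G := G) (M := M)
  have h1 : ∀ u ∈ triangles G, (∑ e ∈ edgesOf u, |M e|) * ∑ e ∈ edgesOf u, Dv G M e ^ 2 ≤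
      3 / rt G ^ 2 * (∑ e ∈ edgesOf u, Dv G M e ^ 2) +
        1 / rt G ^ 50 *
          ((∑ e ∈ edgesOf u, (mG G * M e ^ 2) ^ 4) * ∑ e ∈ edgesOf u, Dv G M e ^ 2) := by
    intro u hu
    obtain ⟨Q, hQ⟩ : ∃ Q, Q = ∑ e ∈ edgesOf u, Dv G M e ^ 2 := ⟨_, rfl⟩
    have hQ0 : 0 ≤ Q := by rw [hQ]; positivity
    rw [← hQ, mul_comm, mul_sum]
    have e3 : (3 / rt G ^ 2 * Q : ℝ) = ∑ _e ∈ edgesOf u, 1 / rt G ^ 2 * Q := by
      rw [sum_const, card_edgesOf (card3_of_mem hu), nsmul_eq_mul]; push_cast; ring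
    rw [e3, sum_mul, mul_sum, ← sum_add_distrib]
    refine sum_le_sum fun e _ => ?_
    refine (mul_threshold Q hQ0 (abs_nonneg (M e))
      (show 0 < 1 / rt G ^ 2 by positivity) 7).trans_eq ?_
    have hM : |M e| ^ (7 + 1) = (M e ^ 2) ^ 4 := by rw [← sq_abs (M e)]; ring
    rw [hM, ← rt_pow]
    field_simp
  have h2 := sum_tri_mul_le G (fun e => (mG G * M e ^ 2) ^ 4) (fun e => Dv G M e ^ 2)
  have h3 : ∑ e ∈ G, (cod G e : ℝ) * (((mG G * M e ^ 2) ^ 4) ^ 2 + (Dv G M e ^ 2) ^ 2) =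
      mG G * ((G.card : ℝ) * (avgE G (fun e => rel G e ^ 1 * (mG G * M e ^ 2) ^ 8) +
        avgE G (fun e => rel G e ^ 1 * Dv G M e ^ 4))) := by
    rw [← avgE_add, ← h.card_mul_avgE, mul_sum]
    refine sum_congr rfl fun e _ => ?_
    rw [rel]; field_simp
  have h4 : ∑ u ∈ triangles G, ∑ e ∈ edgesOf u, Dv G M e ^ 2 =
      mG G * ((G.card : ℝ) * avgE G (fun e => Dv G M e ^ 2 * rel G e ^ 1)) := by
    rw [swap_sum, ← h.card_mul_avgE, mul_sum]
    refine sum_congr rfl fun e _ => ?_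
    rw [rel]; field_simp
  rw [h3] at h2
  have h5 := sum_le_sum h1
  rw [sum_add_distrib, ← mul_sum, ← mul_sum, h4] at h5
  rw [div_le_iff₀ hE]
  refine (h5.trans (add_le_add le_rfl (mul_le_mul_of_nonneg_left h2 (by positivity)))).trans ?_
  have a1 := avg_Dsq_rel_le (M := M) h (a := 1) (by norm_num [K])
  have a2 := mixed_le (G := G) (M := M) (a := 1) (b := 8) (by norm_num [K]) (by norm_num [K])
  have a3 := avg_Dv4_le (M := M) h (a := 1) (by norm_num [K])
  have b1 : 3 / rt G ^ 2 * (mG G * ((G.card : ℝ) *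
      avgE G (fun e => Dv G M e ^ 2 * rel G e ^ 1))) ≤ 927 * (Rest G M / rt G) * G.card := by
    calc _ = 3 / rt G ^ 2 * (G.card : ℝ) *
          (mG G * avgE G (fun e => Dv G M e ^ 2 * rel G e ^ 1)) := by ring
      _ ≤ 3 / rt G ^ 2 * (G.card : ℝ) * (309 * (rt G * Rest G M)) := by gcongr
      _ = _ := by field_simp; ring
  have b2 : 1 / rt G ^ 50 * (3 / 2 * (mG G * ((G.card : ℝ) *
      (avgE G (fun e => rel G e ^ 1 * (mG G * M e ^ 2) ^ 8) +
        avgE G (fun e => rel G e ^ 1 * Dv G M e ^ 4))))) ≤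
      123 * (Rest G M / rt G) * G.card := by
    have e : mG G / rt G ^ 50 ≤ 1 / rt G := by
      rw [← rt_pow, div_le_div_iff₀ (by positivity) hr]
      have := pow_le_pow_right₀ h.one_le_rt (show 17 ≤ 50 by norm_num)
      nlinarith
    calc _ = 3 / 2 * (G.card : ℝ) * (mG G / rt G ^ 50) *
          (avgE G (fun e => rel G e ^ 1 * (mG G * M e ^ 2) ^ 8) +
            avgE G (fun e => rel G e ^ 1 * Dv G M e ^ 4)) := by ring
      _ ≤ 3 / 2 * (G.card : ℝ) * (mG G / rt G ^ 50) * (82 * Rest G M) := by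
          gcongr; linarith
      _ ≤ 3 / 2 * (G.card : ℝ) * (1 / rt G) * (82 * Rest G M) := by gcongr
      _ = _ := by ring
  have : 0 ≤ Rest G M / rt G * G.card := by positivity
  linarith

/-- The mixed terms at one edge. -/
lemma cross_point_le (h : Stage G) (e : Sym2 (Fin n)) :
    -(ψ (Dv G M e) * aM G M e) +
      (2 / mG G * (ψ (Dv G M e) * rel G e) + 2 * (mu G * (ψ (Dv G M e) * rel G e))) ≤
      2 * gg G * Dv G M e ^ 2 + aM G M e ^ 2 / gg G +
        (2 / rt G * Dv G M e ^ 2 + 2 * (rt G / mG G ^ 2) * rel G e ^ 2) +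
        (4 * mu G * Dv G M e + (576 * |mu G|) * (Dv G M e ^ 2 * rel G e ^ 1) +
          ((6 * |mu G|) * Dv G M e ^ 2 + (2 * |mu G|) * M e ^ 2)) := by
  have hm := h.m_pos; have hr := h.rt_pos; have hg := h.gg_pos
  have hy := rel_nonneg G e
  have hψ := abs_ψ_le_all (Dv G M e)
  have q1 : -(ψ (Dv G M e) * aM G M e) ≤
      2 * gg G * Dv G M e ^ 2 + aM G M e ^ 2 / gg G := by
    have h1 : -(ψ (Dv G M e) * aM G M e) ≤ 2 * |Dv G M e| * |aM G M e| :=
      (neg_le_abs _).trans (by rw [abs_mul]; exact mul_le_mul_of_nonneg_right hψ (abs_nonneg _))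
    refine h1.trans ?_
    have he' : 2 * gg G * Dv G M e ^ 2 + aM G M e ^ 2 / gg G =
        (2 * (gg G * |Dv G M e|) ^ 2 + |aM G M e| ^ 2) / gg G := by
      rw [mul_pow, sq_abs, sq_abs]; field_simp
    rw [he', le_div_iff₀ hg]
    nlinarith [sq_nonneg (gg G * |Dv G M e| - |aM G M e|), sq_nonneg (gg G * |Dv G M e|)]
  have q2 : 2 / mG G * (ψ (Dv G M e) * rel G e) ≤
      2 / rt G * Dv G M e ^ 2 + 2 * (rt G / mG G ^ 2) * rel G e ^ 2 := by
    have h1 : ψ (Dv G M e) * rel G e ≤ 2 * |Dv G M e| * rel G e :=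
      mul_le_mul_of_nonneg_right ((le_abs_self _).trans hψ) hy
    refine (mul_le_mul_of_nonneg_left h1 (by positivity)).trans ?_
    have he' : 2 / rt G * Dv G M e ^ 2 + 2 * (rt G / mG G ^ 2) * rel G e ^ 2 -
        2 / mG G * (2 * |Dv G M e| * rel G e) =
        2 / (rt G * mG G ^ 2) * (mG G * |Dv G M e| - rt G * rel G e) ^ 2 := by
      rw [← sq_abs (Dv G M e)]; field_simp; ring
    have : 0 ≤ 2 / (rt G * mG G ^ 2) * (mG G * |Dv G M e| - rt G * rel G e) ^ 2 := by positivity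
    linarith
  have q3 : 2 * (mu G * (ψ (Dv G M e) * rel G e)) ≤
      4 * mu G * Dv G M e + (576 * |mu G|) * (Dv G M e ^ 2 * rel G e ^ 1) +
        ((6 * |mu G|) * Dv G M e ^ 2 + (2 * |mu G|) * M e ^ 2) := by
    have h1 : |ψ (Dv G M e) * rel G e - 2 * Dv G M e| ≤
        288 * (Dv G M e ^ 2 * rel G e) + (3 * Dv G M e ^ 2 + M e ^ 2) := by
      rw [show ψ (Dv G M e) * rel G e - 2 * Dv G M e = (ψ (Dv G M e) - 2 * Dv G M e) * rel G e +
        2 * Dv G M e * (Dv G M e + M e) by rw [Dv, dev_eq]; ring]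
      refine (abs_add_le _ _).trans (add_le_add ?_ ?_)
      · rw [abs_mul, abs_of_nonneg hy, ← mul_assoc]
        refine mul_le_mul_of_nonneg_right ?_ hy
        linarith [abs_ψ_sub_le_all (Dv G M e), φ_le_sq (Dv G M e)]
      · rw [abs_le]
        constructor <;>
          nlinarith [sq_nonneg (Dv G M e + M e), sq_nonneg (Dv G M e - M e)]
    have h2 : mu G * (ψ (Dv G M e) * rel G e - 2 * Dv G M e) ≤ |mu G| *
        (288 * (Dv G M e ^ 2 * rel G e) + (3 * Dv G M e ^ 2 + M e ^ 2)) :=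
      (le_abs_self _).trans (by rw [abs_mul]; exact mul_le_mul_of_nonneg_left h1 (abs_nonneg _))
    rw [pow_one]; linarith
  linarith

/-- The mixed terms, summed. -/
lemma cross_le (h : Stage G) :
    mG G * avgE G (fun e => -(ψ (Dv G M e) * aM G M e) +
      (2 / mG G * (ψ (Dv G M e) * rel G e) + 2 * (mu G * (ψ (Dv G M e) * rel G e)))) ≤
      10 ^ 7 * (gg G * Rest G M + Psi G M / gg G + Z G M) := by
  have hm := h.m_pos; have hE := h.E_pos; have hr := h.rt_pos; have hg := h.gg_pos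
  have hR := Rest_nonneg (G := G) (M := M)
  have hRr : Rest G M / rt G ≤ gg G * Rest G M := by
    rw [div_eq_inv_mul, inv_eq_one_div]
    exact mul_le_mul_of_nonneg_right h.inv_rt_le_gg hR
  have hZ : 0 ≤ Z G M := by unfold Z; positivity
  have k3 := mul_le_mul_of_nonneg_left
    (avgE_mono fun e (_ : e ∈ G) => cross_point_le (M := M) h e) hm.le
  simp only [avgE_add, avgE_mul] at k3 ⊢
  have aD2 := avg_Dsq_le (M := M) h
  have c1 : mG G * (2 * gg G * avgE G (fun e => Dv G M e ^ 2)) ≤ 600 * (gg G * Rest G M) := by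
    have := mul_le_mul_of_nonneg_left aD2 hg.le
    linarith
  have c2 : mG G * avgE G (fun e => aM G M e ^ 2 / gg G) = Psi G M / gg G := by
    simp only [Psi, avgE, ← sum_div]; field_simp
  have c3 : mG G * (2 / rt G * avgE G (fun e => Dv G M e ^ 2)) ≤ 600 * (Rest G M / rt G) := by
    have := mul_le_mul_of_nonneg_left aD2 (show 0 ≤ 1 / rt G by positivity)
    linarith [show mG G * (2 / rt G * avgE G (fun e => Dv G M e ^ 2)) =
      2 * (1 / rt G * (mG G * avgE G (fun e => Dv G M e ^ 2))) by ring,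
      show Rest G M / rt G = 1 / rt G * Rest G M by ring]
  have c4 : mG G * (2 * (rt G / mG G ^ 2) * avgE G (fun e => rel G e ^ 2)) ≤
      2 * (Rest G M / rt G) := by
    have hX := X_le_Rest (G := G) (M := M) (show 2 ≤ 2 * K + 2 by norm_num [K])
    have hc : rt G / mG G ≤ 1 / rt G := by
      rw [← rt_pow, div_le_div_iff₀ (by positivity) hr]
      have := pow_le_pow_right₀ h.one_le_rt (show 2 ≤ 16 by norm_num)
      nlinarith
    calc _ = 2 * (rt G / mG G) * X 2 G M := by unfold X; field_simp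
      _ ≤ 2 * (1 / rt G) * Rest G M := by
          have := X_nonneg (G := G) (M := M) 2
          gcongr
      _ = _ := by ring
  have hμr : |mu G| * rt G ≤ 1 / rt G := by
    have := mul_le_mul_of_nonneg_right h.abs_mu_le hr.le
    refine this.trans ?_
    rw [div_mul_eq_mul_div, one_mul, div_le_div_iff₀ (by positivity) hr]
    have := pow_le_pow_right₀ h.one_le_rt (show 2 ≤ 4 by norm_num)
    nlinarith
  have hμ1 : |mu G| ≤ 1 / rt G :=
    (le_mul_of_one_le_right (abs_nonneg _) h.one_le_rt).trans hμr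
  have c5 : mG G * (576 * |mu G| * avgE G (fun e => Dv G M e ^ 2 * rel G e ^ 1)) ≤
      200000 * (Rest G M / rt G) := by
    have a1 := avg_Dsq_rel_le (M := M) h (a := 1) (by norm_num [K])
    calc _ = 576 * |mu G| * (mG G * avgE G (fun e => Dv G M e ^ 2 * rel G e ^ 1)) := by ring
      _ ≤ 576 * |mu G| * (309 * (rt G * Rest G M)) := by gcongr
      _ = 177984 * ((|mu G| * rt G) * Rest G M) := by ring
      _ ≤ 177984 * (1 / rt G * Rest G M) := by gcongr
      _ ≤ _ := by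
          have : 0 ≤ 1 / rt G * Rest G M := by positivity
          linarith [show Rest G M / rt G = 1 / rt G * Rest G M by ring]
  have c6 : mG G * (6 * |mu G| * avgE G (fun e => Dv G M e ^ 2)) ≤ 1800 * (Rest G M / rt G) := by
    calc _ = 6 * |mu G| * (mG G * avgE G (fun e => Dv G M e ^ 2)) := by ring
      _ ≤ 6 * (1 / rt G) * (300 * Rest G M) := by
          have := avgE_nonneg (G := G) (F := fun e => Dv G M e ^ 2) fun e _ => sq_nonneg _
          gcongr
      _ = _ := by ring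
  have hW : mG G * avgE G (fun e => M e ^ 2) ≤ Rest G M := by
    have := W_le_Rest (G := G) (M := M) (show 1 ≤ K by norm_num [K])
    simp only [W, pow_one, avgE_mul] at this
    exact this
  have c7 : mG G * (2 * |mu G| * avgE G (fun e => M e ^ 2)) ≤ 2 * (Rest G M / rt G) := by
    calc _ = 2 * |mu G| * (mG G * avgE G (fun e => M e ^ 2)) := by ring
      _ ≤ 2 * (1 / rt G) * Rest G M := by
          have := avgE_nonneg (G := G) (F := fun e => M e ^ 2) fun e _ => sq_nonneg _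
          gcongr
      _ = _ := by ring
  have c8 : mG G * (4 * mu G * avgE G (Dv G M)) ≤ 6 * Z G M + 2 * (Rest G M / rt G) := by
    have hp : ∀ e ∈ G, 4 * mu G * Dv G M e ≤ 4 * mu G * dev G e +
        (2 * (rt G * mu G ^ 2) + 2 / rt G * M e ^ 2) := by
      intro e _
      have e1 : 2 * (rt G * mu G ^ 2) + 2 / rt G * M e ^ 2 + 4 * mu G * M e =
          2 / rt G * (rt G * mu G + M e) ^ 2 := by field_simp; ring
      have : 0 ≤ 2 / rt G * (rt G * mu G + M e) ^ 2 := by positivity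
      have e2 : 4 * mu G * Dv G M e = 4 * mu G * dev G e - 4 * mu G * M e := by rw [Dv]; ring
      linarith
    have h1 := mul_le_mul_of_nonneg_left (avgE_mono hp) hm.le
    simp only [avgE_add, avgE_mul] at h1
    have hd : avgE G (dev G) = mu G := by
      simp only [avgE, dev, sum_sub_distrib, ← sum_div, sum_cod, sum_const, nsmul_one, mu]
      field_simp
    have hc : avgE G (fun _ => mu G ^ 2) ≤ mu G ^ 2 := avgE_const_le (sq_nonneg _)
    have hZ2 : mG G * mu G ^ 2 ≤ Z G M ∧ mG G * (rt G * mu G ^ 2) ≤ Z G M := by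
      unfold Z
      rw [← rt_pow, ← mul_assoc, ← pow_succ]
      exact ⟨mul_le_mul_of_nonneg_right (pow_le_pow_right₀ h.one_le_rt (by norm_num)) (sq_nonneg _),
        mul_le_mul_of_nonneg_right (pow_le_pow_right₀ h.one_le_rt (by norm_num)) (sq_nonneg _)⟩
    rw [hd] at h1
    have h2 : mG G * (2 * (rt G * avgE G (fun _ => mu G ^ 2))) ≤ 2 * Z G M := by
      have := mul_le_mul_of_nonneg_left hc (show 0 ≤ mG G * (2 * rt G) by positivity)
      linarith [hZ2.2]
    have h3 : mG G * (2 / rt G * avgE G (fun e => M e ^ 2)) ≤ 2 * (Rest G M / rt G) := by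
      have := mul_le_mul_of_nonneg_left hW (show 0 ≤ 2 / rt G by positivity)
      linarith [show 2 * (Rest G M / rt G) = 2 / rt G * Rest G M by ring]
    linarith [hZ2.1]
  have : 0 ≤ gg G * Rest G M := mul_nonneg hg.le hR
  have : 0 ≤ Psi G M / gg G := div_nonneg Psi_nonneg hg.le
  linarith

/-- The first-order term of the potential, summed. -/
lemma main_le (h : Stage G) :
    mG G * avgE G (fun e => -φ (Dv G M e) + (-(rel G e * φ (Dv G M e)) +
        ψ (Dv G M e) * (2 * rel G e - sideSum G e) + 2 * mu G * (ψ (Dv G M e) * rel G e)) /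
          (1 + mu G)) ≤
      10 ^ 9 * (gg G * Rest G M + Psi G M / gg G + Z G M) := by
  have hm := h.m_pos; have hE := h.E_pos; have hr := h.rt_pos; have hg := h.gg_pos
  have hμ := abs_le.1 h.abs_mu_le_hundredth
  have hτ : 0 < 1 + mu G := by linarith
  have hR := Rest_nonneg (G := G) (M := M)
  have hRr : Rest G M / rt G ≤ gg G * Rest G M := by
    rw [div_eq_inv_mul, inv_eq_one_div]
    exact mul_le_mul_of_nonneg_right h.inv_rt_le_gg hR
  have hZ : 0 ≤ Z G M := by unfold Z; positivity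
  -- the two halves
  have split : mG G * avgE G (fun e => -φ (Dv G M e) + (-(rel G e * φ (Dv G M e)) +
        ψ (Dv G M e) * (2 * rel G e - sideSum G e) + 2 * mu G * (ψ (Dv G M e) * rel G e)) /
          (1 + mu G)) =
      (mG G * ((-(∑ e ∈ G, φ (Dv G M e)) - (∑ e ∈ G, rel G e * φ (Dv G M e)) -
          ∑ e ∈ G, ψ (Dv G M e) * aD G M e) / G.card) -
        mu G * U G M +
        mG G * avgE G (fun e => -(ψ (Dv G M e) * aM G M e) +
          (2 / mG G * (ψ (Dv G M e) * rel G e) +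
            2 * (mu G * (ψ (Dv G M e) * rel G e))))) / (1 + mu G) := by
    have hpt : ∀ e ∈ G, -φ (Dv G M e) + (-(rel G e * φ (Dv G M e)) +
        ψ (Dv G M e) * (2 * rel G e - sideSum G e) + 2 * mu G * (ψ (Dv G M e) * rel G e)) /
          (1 + mu G) = (-φ (Dv G M e) - rel G e * φ (Dv G M e) - ψ (Dv G M e) * aD G M e -
            mu G * φ (Dv G M e) + (-(ψ (Dv G M e) * aM G M e) +
              (2 / mG G * (ψ (Dv G M e) * rel G e) +
                2 * (mu G * (ψ (Dv G M e) * rel G e))))) / (1 + mu G) := fun e _ => by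
      rw [sideSum_eq (M := M) h]; field_simp; ring
    unfold U avgE
    rw [sum_congr rfl hpt, ← sum_div]
    simp only [sum_add_distrib, sum_sub_distrib, sum_neg_distrib, ← mul_sum]
    ring
  rw [split]
  have k1 : mG G * ((-(∑ e ∈ G, φ (Dv G M e)) - (∑ e ∈ G, rel G e * φ (Dv G M e)) -
      ∑ e ∈ G, ψ (Dv G M e) * aD G M e) / G.card) ≤ 65536 * (1100 * (Rest G M / rt G)) := by
    refine (mul_le_mul_of_nonneg_left (div_le_div_of_nonneg_right (sum_key_robust h) hE.le)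
      hm.le).trans ?_
    refine le_trans (le_of_eq ?_) (mul_le_mul_of_nonneg_left (cubic_le (M := M) h) (by norm_num))
    field_simp
  have k2 : -(mu G * U G M) ≤ Rest G M / rt G := by
    have h1 : |mu G| ≤ 1 / rt G := h.abs_mu_le.trans
      (one_div_le_one_div_of_le hr (le_self_pow₀ h.one_le_rt (by norm_num)))
    have h2 := mul_le_mul h1 (U_le_Rest (G := G) (M := M)) U_nonneg (by positivity)
    have h3 := mul_le_mul_of_nonneg_right (neg_le_abs (mu G)) (U_nonneg (G := G) (M := M))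
    have e : Rest G M / rt G = 1 / rt G * Rest G M := by ring
    linarith
  have k4 := cross_le (M := M) h
  rw [div_le_iff₀ hτ]
  have hP : 0 ≤ Psi G M / gg G := div_nonneg Psi_nonneg hg.le
  have hS : 0 ≤ gg G * Rest G M + Psi G M / gg G + Z G M := by
    have := mul_nonneg hg.le hR
    linarith
  nlinarith [mul_le_mul_of_nonneg_left (show (99 : ℝ) / 100 ≤ 1 + mu G by linarith)
    (show 0 ≤ 10 ^ 9 * (gg G * Rest G M + Psi G M / gg G + Z G M) by linarith)]

theorem uStep : UStep := by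
  refine ⟨2 * 10 ^ 9, by norm_num, fun n G M h => driftLE_of_sum h ?_⟩
  have hm := h.m_pos; have hE := h.E_pos; have hT := h.T_pos
  have hg := h.gg_pos
  have hμ := abs_le.1 h.abs_mu_le_hundredth
  have hτ : 0 < 1 + mu G := by linarith
  have hR := Rest_nonneg (G := G) (M := M)
  obtain ⟨E, hEdef⟩ : ∃ E : ℝ, E = G.card := ⟨_, rfl⟩
  obtain ⟨F, hF⟩ : ∃ F : Sym2 (Fin n) → ℝ, F = fun e => φ (Dv G M e +
      ((1 / (1 - 3 / E) ^ 2 - 1) * rel G e - 1 / (1 - 3 / E) ^ 2 * (lam G e / mG G))) := ⟨_, rfl⟩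
  have hU : ∀ t ∈ triangles G, U (G \ edgesOf t) (stepM G M t) =
      mG G * (1 - 3 / E) / E * ∑ e ∈ G \ edgesOf t, F e := by
    intro t ht
    rw [U, avgE, mG_sdiff h.E_pos.ne' ht, card_sdiff_edgesOf ht,
      sum_congr rfl fun e _ => by rw [Dv_step h ht e], hF, hEdef]
    have : (G.card : ℝ) - 3 ≠ 0 := by linarith [h.big_E]
    field_simp
  rw [sum_congr rfl hU, ← mul_sum, sum_survive]
  have hy : ∀ e, (cod G e : ℝ) = (triangles G).card * (3 * rel G e / (E * (1 + mu G))) := by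
    intro e
    have h2 := h.card_T
    rw [rel, hEdef]
    field_simp
    linear_combination (-(cod G e : ℝ)) * h2
  have hTF : ((triangles G).card : ℝ) * ∑ e ∈ G, F e - ∑ e ∈ G, (cod G e : ℝ) * F e =
      (triangles G).card * ∑ e ∈ G, (1 - 3 * rel G e / (E * (1 + mu G))) * F e := by
    rw [mul_sum, mul_sum, ← sum_sub_distrib]
    refine sum_congr rfl fun e _ => ?_
    rw [hy e]; ring
  rw [hTF, mul_left_comm]
  refine mul_le_mul_of_nonneg_left ?_ hT.le
  have step : ∀ e ∈ G, (1 - 3 / E) * ((1 - 3 * rel G e / (E * (1 + mu G))) * F e) ≤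
      φ (Dv G M e) + 3 / E * (-φ (Dv G M e) + (-(rel G e * φ (Dv G M e)) +
        ψ (Dv G M e) * (2 * rel G e - sideSum G e) + 2 * mu G * (ψ (Dv G M e) * rel G e)) /
          (1 + mu G)) +
        10000 / E ^ 2 * (1 + rel G e ^ 4 + Dv G M e ^ 4 + sideSum G e ^ 2) := by
    intro e _
    rw [← mul_assoc, hF]
    simp only [lam_eq h, ← hEdef]
    refine edge_step (by rw [hEdef]; exact h.big_E) (rel_nonneg G e) (sideSum_nonneg h e)
      h.abs_mu_le_hundredth ?_
    have h1 : (cod G e : ℝ) ≤ (triangles G).card := by exact_mod_cast card_filter_le _ _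
    rw [hy e] at h1
    exact le_of_mul_le_mul_left (by rwa [mul_one]) hT
  rw [← hEdef]
  refine le_trans (le_of_eq (show mG G * (1 - 3 / E) / E *
      ∑ e ∈ G, (1 - 3 * rel G e / (E * (1 + mu G))) * F e = mG G / E *
      ∑ e ∈ G, (1 - 3 / E) * ((1 - 3 * rel G e / (E * (1 + mu G))) * F e) by
    rw [← mul_sum]; ring)) ?_
  refine (mul_le_mul_of_nonneg_left (sum_le_sum step) (by rw [hEdef]; positivity)).trans ?_
  rw [sum_add_distrib, sum_add_distrib, ← mul_sum, ← mul_sum]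
  have m1 := main_le (M := M) h
  have m2 : mG G / E * ∑ e ∈ G, φ (Dv G M e) = U G M := by
    rw [U, avgE, hEdef]; ring
  have hS : ∑ e ∈ G, (1 + rel G e ^ 4 + Dv G M e ^ 4 + sideSum G e ^ 2) ≤ E * (92 * Rest G M) := by
    have a1 := X_le_Rest (G := G) (M := M) (show 4 ≤ 2 * K + 2 by norm_num [K])
    have a2 := avg_Dv4_le (M := M) h (a := 0) (by norm_num [K])
    have a3 := sum_sideSum_sq_le (M := M) h
    have a4 := one_le_Rest (G := G) (M := M)
    simp only [pow_zero, one_mul] at a2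
    rw [sum_add_distrib, sum_add_distrib, sum_add_distrib, sum_const, nsmul_one,
      h.card_mul_avgE (fun e => rel G e ^ 4), h.card_mul_avgE (fun e => Dv G M e ^ 4), ← hEdef]
    rw [← hEdef] at a3
    have hE' : 0 ≤ E := by rw [hEdef]; exact hE.le
    unfold X at a1
    nlinarith [mul_le_mul_of_nonneg_left a1 hE', mul_le_mul_of_nonneg_left a2 hE',
      mul_le_mul_of_nonneg_left a4 hE']
  have hm' : mG G / E ≤ 2 / rt G := by
    rw [hEdef]
    refine h.m_div_E_le'.trans (div_le_div_of_nonneg_left (by norm_num) h.rt_pos ?_)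
    calc rt G = rt G ^ 1 := (pow_one _).symm
      _ ≤ rt G ^ 16 := pow_le_pow_right₀ h.one_le_rt (by norm_num)
      _ = mG G := rt_pow G
  have hE0 : 0 < E := by rw [hEdef]; exact hE
  have m3 : mG G / E * (10000 / E ^ 2 *
      ∑ e ∈ G, (1 + rel G e ^ 4 + Dv G M e ^ 4 + sideSum G e ^ 2)) ≤
      3 / E * (2 * 10 ^ 6 * (gg G * Rest G M)) := by
    calc _ ≤ mG G / E * (10000 / E ^ 2 * (E * (92 * Rest G M))) := by gcongr
      _ = 3 / E * (920000 / 3 * (mG G / E * Rest G M)) := by field_simp; ring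
      _ ≤ 3 / E * (920000 / 3 * (2 * (gg G) * Rest G M)) := by
          refine mul_le_mul_of_nonneg_left (mul_le_mul_of_nonneg_left
            (mul_le_mul_of_nonneg_right (hm'.trans ?_) hR) (by norm_num)) (by positivity)
          linarith [h.inv_rt_le_gg, show 2 / rt G = 2 * (1 / rt G) by ring]
      _ ≤ _ := by
          refine mul_le_mul_of_nonneg_left ?_ (by positivity)
          nlinarith [mul_nonneg hg.le hR]
  have m4 : mG G / E * (3 / E * ∑ e ∈ G, (-φ (Dv G M e) + (-(rel G e * φ (Dv G M e)) +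
      ψ (Dv G M e) * (2 * rel G e - sideSum G e) + 2 * mu G * (ψ (Dv G M e) * rel G e)) /
        (1 + mu G))) ≤ 3 / E * (10 ^ 9 * (gg G * Rest G M + Psi G M / gg G + Z G M)) := by
    have := mul_le_mul_of_nonneg_left m1 (show 0 ≤ 3 / E by positivity)
    refine le_trans (le_of_eq ?_) this
    rw [avgE, ← hEdef]; ring
  have hP : 0 ≤ Psi G M / gg G + Z G M := by
    have := div_nonneg (Psi_nonneg (G := G) (M := M)) hg.le
    have : 0 ≤ Z G M := by unfold Z; positivity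
    linarith
  have h3 : 0 ≤ 3 / E * (Psi G M / gg G + Z G M) := by positivity
  have h4 : 0 ≤ 3 / E * (gg G * Rest G M) := by positivity
  rw [mul_add, mul_add, m2]
  linarith

end Vale.Agent.P046.Lin
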